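import Claimed.Agent.Lib.MK.Out

/-!
# Lib/MK, file 11: ENDPOINT multilinear Kakeya for MEASURES of tubes and for GRAPH TUBES in `V × ℝ`            (architect helper13)            CONTRACT
PAPER-FREE.  Consumer forms for the paraboloid boxes (BD ball inflation, multilinear restriction, refined Strichartz).
* `mke_enn`   : `mke_lintegral` with weights in `ℝ≥0∞`;
* `mke_meas`  : the positions of the tubes of direction `e a` are distributed by an ARBITRARY measure `μ a` (continuous superpositions `f * 1_T`, no discretisation left to the consumer);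
* **`mk_graph`** : `V` abstract finite dimensional inner product space, `k = finrank V ≥ 1`, tubes `{(x,t) : ‖x + 2 t v - a‖ ≤ h}`, `a` distributed by a measure on `V`;
  transversality WITHOUT determinants: `∑ |t i| ≤ Q (‖∑ t i • v i‖ + |∑ t i|)` (= `BD.BdgTrans Q` of singletons);  loss `Q^M`, lossless in everything else;
* `mk_graph_fin` : finitely many weighted tubes (`= BD.bd_mk` without `S^ε`).
Every `sorry` is a leaf `L-MK-*`.  Statements are frozen; auxiliary lemmas directly above your theorem; edit only your block.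
-/

set_option autoImplicit false
open MeasureTheory Set Metric
open scoped ENNReal BigOperators
open Claimed.Agent.R252

namespace Claimed.Agent.MK

open scoped Pointwise in
/-- **LEAF L-MK-TCL.**  `mlkTube p e ρ = p + (box + line)`: compact + closed (`IsClosed.add_right_of_isCompact`-type lemma, `Submodule.closed_of_finiteDimensional`), or directly by sequences (if `e = 0` trivial; else the parameters `t` stay bounded). -/
theorem isClosed_mlkTube {n : ℕ} (p e : Fin n → ℝ) (ρ : ℝ) : IsClosed (mlkTube p e ρ) := by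
  have hK : IsCompact (Set.pi univ fun _ : Fin n => Icc (-ρ) ρ) := isCompact_univ_pi fun _ => isCompact_Icc
  have hL : IsClosed ((Submodule.span ℝ {e} : Submodule ℝ (Fin n → ℝ)) : Set (Fin n → ℝ)) :=
    Submodule.closed_of_finiteDimensional _
  have hKL := hL.add_left_of_isCompact hK
  have heq : mlkTube p e ρ = (fun x => x - p) ⁻¹' ((Set.pi univ fun _ : Fin n => Icc (-ρ) ρ) + ((Submodule.span ℝ {e} : Submodule ℝ (Fin n → ℝ)) : Set (Fin n → ℝ))) := by
    ext x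
    rw [mem_preimage, Set.mem_add]
    constructor
    · rintro ⟨t, ht⟩
      refine ⟨x - p - t • e, ?_, t • e, Submodule.mem_span_singleton.2 ⟨t, rfl⟩, by abel⟩
      intro i _
      have := abs_le.1 (ht i)
      simpa [mem_Icc] using this
    · rintro ⟨y, hy, z, hz, hyt⟩
      obtain ⟨t, rfl⟩ := Submodule.mem_span_singleton.1 hz
      refine ⟨t, fun i => ?_⟩
      have h1 := hy i (mem_univ i)
      have h2 : x i - p i - t * e i = y i := by
        have := congrFun hyt i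
        simp only [Pi.add_apply, Pi.smul_apply, smul_eq_mul, Pi.sub_apply] at this
        linarith
      rw [h2, abs_le]
      exact h1
  rw [heq]
  exact hKL.preimage (continuous_id.sub continuous_const)

theorem measurableSet_mlkTube {n : ℕ} (p e : Fin n → ℝ) (ρ : ℝ) : MeasurableSet (mlkTube p e ρ) :=
  (isClosed_mlkTube p e ρ).measurableSet

/-- **LEAF L-MK-ENN: weights in `ℝ≥0∞`.**  Same `C` as `mke_lintegral`.
PLAN.  If `w a ≠ ∞` for all `a ∈ A i`, all `i`: `mke_lintegral` for `fun a => (w a).toReal` (`ENNReal.ofReal_toReal`, `ENNReal.ofReal_sum_of_nonneg`, `ENNReal.ofReal_mul`, `ENNReal.ofReal_prod_of_nonneg`, `ENNReal.ofReal_rpow_of_nonneg`; change `w` to `0` off `⋃ A i` first).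
Otherwise some factor of the right side is `∞`;  if no factor is `0` the right side is `∞`;  if `∑ a ∈ A i₁, w a = 0` the integrand vanishes identically (`ENNReal.zero_rpow_of_pos`, `Finset.prod_eq_zero`). -/
theorem mke_enn.{u} (n : ℕ) (hn : 2 ≤ n) : ∃ C : ℝ, 0 < C ∧ ∀ (h θ : ℝ), 0 < h → 0 < θ → θ ≤ 1 →
    ∀ (α : Type u) (A : Fin n → Finset α) (p e : α → Fin n → ℝ) (w : α → ℝ≥0∞),
    (∀ i, ∀ a ∈ A i, ∀ k, |e a k| ≤ 1) →
    (∀ a ∈ Fintype.piFinset A, θ ≤ |Matrix.det (Matrix.of fun i => e (a i))|) →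
    ∫⁻ x : Fin n → ℝ, ∏ i, (∑ a ∈ A i, (mlkTube (p a) (e a) h).indicator (fun _ => w a) x) ^ (1 / ((n : ℝ) - 1))
      ≤ ENNReal.ofReal (C * (1 / θ) ^ (n ^ 2 + n) * h ^ n) * ∏ i, (∑ a ∈ A i, w a) ^ (1 / ((n : ℝ) - 1)) := by
  classical
  obtain ⟨C, hC, H⟩ := mke_lintegral.{u} n hn
  refine ⟨C, hC, fun h θ hh hθ hθ1 α A p e w he hdet => ?_⟩
  have hn2 : (2 : ℝ) ≤ n := by exact_mod_cast hn
  have hγ : 0 < 1 / ((n : ℝ) - 1) := div_pos zero_lt_one (by linarith)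
  obtain ⟨γ, hγdef⟩ : ∃ γ : ℝ, γ = 1 / ((n : ℝ) - 1) := ⟨_, rfl⟩
  rw [← hγdef] at hγ ⊢
  have hc : 0 < C * (1 / θ) ^ (n ^ 2 + n) * h ^ n := by positivity
  by_cases h0 : ∃ i, ∑ a ∈ A i, w a = 0
  · obtain ⟨i, hi⟩ := h0
    have hw0 : ∀ a ∈ A i, w a = 0 := fun a ha => (Finset.sum_eq_zero_iff.1 hi) a ha
    have hz : ∀ x : Fin n → ℝ, ∏ i, (∑ a ∈ A i, (mlkTube (p a) (e a) h).indicator (fun _ => w a) x) ^ γ = 0 := by
      intro x
      refine Finset.prod_eq_zero (Finset.mem_univ i) ?_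
      rw [Finset.sum_eq_zero, ENNReal.zero_rpow_of_pos hγ]
      intro a ha
      rw [hw0 a ha]
      simp
    simp only [hz, lintegral_zero]
    exact zero_le
  by_cases hT : ∃ i, ∑ a ∈ A i, w a = ⊤
  · obtain ⟨i, hi⟩ := hT
    have hR : ∏ i, (∑ a ∈ A i, w a) ^ γ = ⊤ := by
      rw [← Finset.mul_prod_erase _ _ (Finset.mem_univ i), hi, ENNReal.top_rpow_of_pos hγ, ENNReal.top_mul]
      rw [Finset.prod_ne_zero_iff]
      intro j _ hj
      rw [ENNReal.rpow_eq_zero_iff_of_pos hγ] at hj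
      exact h0 ⟨j, hj⟩
    rw [hR, ENNReal.mul_top (by simpa using hc)]
    exact le_top
  have hfin : ∀ i, ∀ a ∈ A i, w a ≠ ⊤ := by
    intro i a ha hwa
    apply hT
    exact ⟨i, (ENNReal.sum_eq_top).2 ⟨a, ha, hwa⟩⟩
  have key := H h θ hh hθ hθ1 α A p e (fun a => (w a).toReal) (fun a => ENNReal.toReal_nonneg) he hdet
  rw [← hγdef] at key
  have e1 : ∀ (x : Fin n → ℝ) (i : Fin n), ENNReal.ofReal (∑ a ∈ A i, if x ∈ mlkTube (p a) (e a) h then (w a).toReal else 0)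
      = ∑ a ∈ A i, (mlkTube (p a) (e a) h).indicator (fun _ => w a) x := by
    intro x i
    rw [ENNReal.ofReal_sum_of_nonneg (fun a _ => by split_ifs <;> simp)]
    refine Finset.sum_congr rfl fun a ha => ?_
    by_cases hx : x ∈ mlkTube (p a) (e a) h
    · rw [if_pos hx, indicator_of_mem hx, ENNReal.ofReal_toReal (hfin i a ha)]
    · rw [if_neg hx, indicator_of_notMem hx, ENNReal.ofReal_zero]
  simp only [e1] at key
  refine key.trans (le_of_eq ?_)
  rw [ENNReal.ofReal_mul hc.le, ENNReal.ofReal_prod_of_nonneg (fun i _ => Real.rpow_nonneg (Finset.sum_nonneg fun a _ => ENNReal.toReal_nonneg) _)]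
  congr 1
  refine Finset.prod_congr rfl fun i _ => ?_
  rw [← ENNReal.ofReal_rpow_of_nonneg (Finset.sum_nonneg fun a _ => ENNReal.toReal_nonneg) hγ.le,
    ENNReal.ofReal_sum_of_nonneg (fun a _ => ENNReal.toReal_nonneg)]
  congr 1
  exact Finset.sum_congr rfl fun a ha => ENNReal.ofReal_toReal (hfin i a ha)

theorem psi_iSup_mul {f g : ℕ → ℝ≥0∞} (hf : Monotone f) (hg : Monotone g) : (⨆ N, f N) * (⨆ N, g N) = ⨆ N, f N * g N := by
  rw [ENNReal.iSup_mul]
  simp only [ENNReal.mul_iSup]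
  refine le_antisymm (iSup_le fun i => iSup_le fun j => ?_) (iSup_le fun N => le_iSup_of_le N (le_iSup_of_le N le_rfl))
  exact le_iSup_of_le (max i j) (mul_le_mul' (hf (le_max_left i j)) (hg (le_max_right i j)))

/-- **LEAF L-MK-SUP: monotone limits pass through `∏ (∑ ·)^γ`.**  `ENNReal.finsetSum_iSup_of_monotone`, `(ENNReal.orderIsoRpow γ hγ).map_iSup`, induction on the product with `ENNReal.iSup_mul_iSup_of_monotone`. -/
theorem prod_sum_iSup {ι α : Type*} (s : Finset ι) (A : ι → Finset α) (γ : ℝ) (hγ : 0 < γ) (f : ι → α → ℕ → ℝ≥0∞)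
    (hf : ∀ i a, Monotone (f i a)) :
    ∏ i ∈ s, (∑ a ∈ A i, ⨆ N, f i a N) ^ γ = ⨆ N, ∏ i ∈ s, (∑ a ∈ A i, f i a N) ^ γ := by
  classical
  have h1 : ∀ i, (∑ a ∈ A i, ⨆ N, f i a N) ^ γ = ⨆ N, (∑ a ∈ A i, f i a N) ^ γ := by
    intro i
    rw [ENNReal.finsetSum_iSup_of_monotone (fun a => hf i a)]
    exact (ENNReal.orderIsoRpow γ hγ).map_iSup _
  simp only [h1]
  have hm : ∀ i, Monotone fun N => (∑ a ∈ A i, f i a N) ^ γ := fun i N N' h =>
    ENNReal.rpow_le_rpow (Finset.sum_le_sum fun a _ => hf i a h) hγ.le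
  induction s using Finset.induction_on with
  | empty => simp
  | insert i s hi ih =>
    simp only [Finset.prod_insert hi]
    rw [ih, psi_iSup_mul (hm i)]
    intro N N' h
    exact Finset.prod_le_prod' fun j _ => hm j h

/-- **LEAF L-MK-CELL: one measure of positions is dominated by countably many weighted tubes.**
`Q κ = mlkCube (fun i => h * κ i) h`, `κ ∈ ℤ^n`, cover the space (`κ i = ⌊y i / h⌋`);  `y ∈ Q κ`, `x ∈ mlkTube y e h` ⟹ `x ∈ mlkTube (h κ) e (2 h)` (same `t`);  `measure_iUnion_le` (any sets; `Fin n → ℤ` countable). -/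
theorem meas_tube_le {n : ℕ} (h : ℝ) (hh : 0 < h) (e : Fin n → ℝ) (μ : Measure (Fin n → ℝ)) (x : Fin n → ℝ) :
    μ {y | x ∈ mlkTube y e h} ≤
      ∑' κ : Fin n → ℤ, (mlkTube (fun i => h * κ i) e (2 * h)).indicator (fun _ => μ (mlkCube (fun i => h * (κ i : ℝ)) h)) x := by
  classical
  have hcov : {y | x ∈ mlkTube y e h} ⊆ ⋃ κ : Fin n → ℤ, (if x ∈ mlkTube (fun i => h * κ i) e (2 * h) then mlkCube (fun i => h * (κ i : ℝ)) h else ∅) := by
    intro y hy
    obtain ⟨t, ht⟩ := hy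
    have hyc : y ∈ mlkCube (fun i => h * ((⌊y i / h⌋ : ℤ) : ℝ)) h := by
      intro i
      have h1 := Int.floor_le (y i / h)
      have h2 := Int.lt_floor_add_one (y i / h)
      rw [le_div_iff₀ hh] at h1
      rw [div_lt_iff₀ hh] at h2
      constructor
      · linarith
      · nlinarith
    have hx : x ∈ mlkTube (fun i => h * ((⌊y i / h⌋ : ℤ) : ℝ)) e (2 * h) := by
      refine ⟨t, fun i => ?_⟩
      have h1 := abs_le.1 (ht i)
      have h2 := hyc i
      rw [abs_le]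
      constructor <;> linarith [h1.1, h1.2, h2.1, h2.2]
    refine mem_iUnion.2 ⟨fun i => ⌊y i / h⌋, ?_⟩
    rw [if_pos hx]
    exact hyc
  refine (measure_mono hcov).trans ((measure_iUnion_le _).trans (le_of_eq ?_))
  refine tsum_congr fun κ => ?_
  by_cases hx : x ∈ mlkTube (fun i => h * κ i) e (2 * h)
  · rw [if_pos hx, indicator_of_mem hx]
  · rw [if_neg hx, indicator_of_notMem hx, measure_empty]

theorem measurableSet_mlkCube' {n : ℕ} (q : Fin n → ℝ) (L : ℝ) : MeasurableSet (mlkCube q L) := by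
  have : mlkCube q L = Set.pi univ fun i => Ico (q i) (q i + L) := by
    ext x
    simp [mlkCube, Set.mem_pi]
  rw [this]
  exact MeasurableSet.univ_pi fun _ => measurableSet_Ico

/-- **LEAF L-MK-CELL2.**  The cubes are measurable and pairwise disjoint: `measure_biUnion_finset`, `measure_mono`. -/
theorem sum_meas_cube_le {n : ℕ} (h : ℝ) (hh : 0 < h) (μ : Measure (Fin n → ℝ)) (K : Finset (Fin n → ℤ)) :
    ∑ κ ∈ K, μ (mlkCube (fun i => h * (κ i : ℝ)) h) ≤ μ univ := by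
  rw [← measure_biUnion_finset _ (fun κ _ => measurableSet_mlkCube' _ _)]
  · exact measure_mono (subset_univ _)
  · intro κ _ κ' _ hne
    rw [Function.onFun, Set.disjoint_left]
    intro x hx hx'
    apply hne
    funext i
    have h1 := hx i
    have h2 := hx' i
    have a1 : (κ i : ℝ) < κ' i + 1 := by
      have : h * (κ i : ℝ) < h * (κ' i + 1) := by nlinarith [h1.1, h2.2]
      exact lt_of_mul_lt_mul_left this hh.le
    have a2 : (κ' i : ℝ) < κ i + 1 := by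
      have : h * (κ' i : ℝ) < h * (κ i + 1) := by nlinarith [h2.1, h1.2]
      exact lt_of_mul_lt_mul_left this hh.le
    have b1 : κ i < κ' i + 1 := by exact_mod_cast a1
    have b2 : κ' i < κ i + 1 := by exact_mod_cast a2
    omega

/-- the boxes `[-N, N]^n` exhaust `ℤ^n` -/
theorem mm_exhaust {n : ℕ} (t : Finset (Fin n → ℤ)) : ∃ N : ℕ, t ⊆ Fintype.piFinset fun _ : Fin n => Finset.Icc (-(N : ℤ)) N := by
  refine ⟨t.sup fun κ => Finset.univ.sup fun i => (κ i).natAbs, fun κ hκ => ?_⟩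
  rw [Fintype.mem_piFinset]
  intro i
  have h1 : (κ i).natAbs ≤ t.sup fun κ => Finset.univ.sup fun i => (κ i).natAbs :=
    (Finset.le_sup (f := fun i => (κ i).natAbs) (Finset.mem_univ i)).trans
      (Finset.le_sup (f := fun κ : Fin n → ℤ => Finset.univ.sup fun i => (κ i).natAbs) hκ)
  rw [Finset.mem_Icc]
  omega

/-- **LEAF L-MK-MEAS: ENDPOINT MULTILINEAR KAKEYA FOR MEASURES OF TUBES.**  No measurability or finiteness assumption on anything.
PLAN.  `C' = C 2^n`, `C` of `mke_enn`.   `K N = Fintype.piFinset fun _ => Finset.Icc (-N) N` (monotone, exhausts `ℤ^n`);  `∑' κ, g κ = ⨆ N, ∑ κ ∈ K N, g κ` (`ENNReal.tsum_eq_iSup_sum'` or `ENNReal.tsum_eq_iSup_sum` + cofinality).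
`lintegral_mono` with `meas_tube_le`;  `prod_sum_iSup`;  `lintegral_iSup` (measurable by `measurableSet_mlkTube`, monotone in `N`);  for each `N`: `mke_enn` with `α' = α × (Fin n → ℤ)`, `A' i = A i ×ˢ K N`, `p (a,κ) = h κ`, `e (a,κ) = e a`,
`w (a,κ) = μ a (Q κ)`, width `2 h` (`Finset.sum_product`);  `sum_meas_cube_le`. -/
theorem mke_meas.{u} (n : ℕ) (hn : 2 ≤ n) : ∃ C : ℝ, 0 < C ∧ ∀ (h θ : ℝ), 0 < h → 0 < θ → θ ≤ 1 →
    ∀ (α : Type u) (A : Fin n → Finset α) (e : α → Fin n → ℝ) (μ : α → Measure (Fin n → ℝ)),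
    (∀ i, ∀ a ∈ A i, ∀ k, |e a k| ≤ 1) →
    (∀ a ∈ Fintype.piFinset A, θ ≤ |Matrix.det (Matrix.of fun i => e (a i))|) →
    ∫⁻ x : Fin n → ℝ, ∏ i, (∑ a ∈ A i, μ a {y | x ∈ mlkTube y (e a) h}) ^ (1 / ((n : ℝ) - 1))
      ≤ ENNReal.ofReal (C * (1 / θ) ^ (n ^ 2 + n) * h ^ n) * ∏ i, (∑ a ∈ A i, μ a univ) ^ (1 / ((n : ℝ) - 1)) := by
  classical
  obtain ⟨C, hC, H⟩ := mke_enn.{u} n hn
  refine ⟨C * 2 ^ n, by positivity, fun h θ hh hθ hθ1 α A e μ he hdet => ?_⟩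
  have hn2 : (2 : ℝ) ≤ n := by exact_mod_cast hn
  have hγ : 0 < 1 / ((n : ℝ) - 1) := div_pos zero_lt_one (by linarith)
  obtain ⟨γ, hγdef⟩ : ∃ γ : ℝ, γ = 1 / ((n : ℝ) - 1) := ⟨_, rfl⟩
  rw [← hγdef] at hγ ⊢
  obtain ⟨K, hK⟩ : ∃ K : ℕ → Finset (Fin n → ℤ), ∀ N, K N = Fintype.piFinset fun _ : Fin n => Finset.Icc (-(N : ℤ)) N := ⟨_, fun _ => rfl⟩
  have hKmono : Monotone K := by
    intro N N' hNN κ hκ
    rw [hK, Fintype.mem_piFinset] at hκ ⊢
    intro i
    have := Finset.mem_Icc.1 (hκ i)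
    rw [Finset.mem_Icc]
    omega
  obtain ⟨g, hg⟩ : ∃ g : α → (Fin n → ℤ) → (Fin n → ℝ) → ℝ≥0∞, ∀ a κ x, g a κ x =
      (mlkTube (fun i => h * κ i) (e a) (2 * h)).indicator (fun _ => μ a (mlkCube (fun i => h * (κ i : ℝ)) h)) x := ⟨_, fun _ _ _ => rfl⟩
  have hgm : ∀ a κ, Measurable (g a κ) := by
    intro a κ
    have : g a κ = (mlkTube (fun i => h * κ i) (e a) (2 * h)).indicator (fun _ => μ a (mlkCube (fun i => h * (κ i : ℝ)) h)) := by
      funext x; exact hg a κ x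
    rw [this]
    exact measurable_const.indicator (measurableSet_mlkTube _ _ _)
  have h1 : ∀ a x, μ a {y | x ∈ mlkTube y (e a) h} ≤ ⨆ N, ∑ κ ∈ K N, g a κ x := by
    intro a x
    refine (meas_tube_le h hh (e a) (μ a) x).trans (le_of_eq ?_)
    rw [ENNReal.tsum_eq_iSup_sum' K (fun t => by obtain ⟨N, hN⟩ := mm_exhaust t; exact ⟨N, by rw [hK]; exact hN⟩)]
    simp only [hg]
  have hmono : ∀ a x, Monotone fun N => ∑ κ ∈ K N, g a κ x := fun a x N N' hNN =>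
    Finset.sum_le_sum_of_subset (hKmono hNN)
  calc ∫⁻ x : Fin n → ℝ, ∏ i, (∑ a ∈ A i, μ a {y | x ∈ mlkTube y (e a) h}) ^ γ
      ≤ ∫⁻ x : Fin n → ℝ, ∏ i, (∑ a ∈ A i, ⨆ N, ∑ κ ∈ K N, g a κ x) ^ γ := by
        refine lintegral_mono fun x => Finset.prod_le_prod' fun i _ => ENNReal.rpow_le_rpow (Finset.sum_le_sum fun a _ => h1 a x) hγ.le
    _ = ∫⁻ x : Fin n → ℝ, ⨆ N, ∏ i, (∑ a ∈ A i, ∑ κ ∈ K N, g a κ x) ^ γ := by
        refine lintegral_congr fun x => ?_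
        exact prod_sum_iSup Finset.univ A γ hγ (fun _ a N => ∑ κ ∈ K N, g a κ x) (fun _ a => hmono a x)
    _ = ⨆ N, ∫⁻ x : Fin n → ℝ, ∏ i, (∑ a ∈ A i, ∑ κ ∈ K N, g a κ x) ^ γ := by
        refine lintegral_iSup (fun N => ?_) ?_
        · exact Finset.measurable_prod _ fun i _ => (Finset.measurable_sum _ fun a _ => Finset.measurable_sum _ fun κ _ => hgm a κ).pow_const _
        · intro N N' hNN x
          exact Finset.prod_le_prod' fun i _ => ENNReal.rpow_le_rpow (Finset.sum_le_sum fun a _ => hmono a x hNN) hγ.le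
    _ ≤ _ := by
        refine iSup_le fun N => ?_
        have key := H (2 * h) θ (by positivity) hθ hθ1 (α × (Fin n → ℤ)) (fun i => A i ×ˢ K N) (fun b i => h * (b.2 i : ℝ)) (fun b => e b.1)
          (fun b => μ b.1 (mlkCube (fun i => h * (b.2 i : ℝ)) h))
          (fun i b hb k => he i b.1 (Finset.mem_product.1 hb).1 k)
          (fun b hb => hdet (fun i => (b i).1) (by
            rw [Fintype.mem_piFinset] at hb ⊢
            exact fun i => (Finset.mem_product.1 (hb i)).1))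
        rw [← hγdef] at key
        simp only [Finset.sum_product] at key
        simp only [hg]
        refine key.trans ?_
        have e1 : C * (1 / θ) ^ (n ^ 2 + n) * (2 * h) ^ n = C * 2 ^ n * (1 / θ) ^ (n ^ 2 + n) * h ^ n := by
          rw [mul_pow]; ring
        rw [e1]
        gcongr with i _ a _
        exact sum_meas_cube_le h hh (μ a) (K N)

/-- **LEAF L-MK-DET: determinant from a frame bound.**
PLAN.  `t ↦ Matrix.vecMul t U` is injective, so `U` is invertible (`Matrix.vecMul_injective_iff_isUnit`, `Matrix.isUnit_iff_isUnit_det`);  `W = U⁻¹`: `vecMul (W k) U = Pi.single k 1`, so `∑ i, |W k i| ≤ Q`;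
`|det W| ≤ n! Q^n` (`Matrix.det_le` with `abv = AbsoluteValue.abs`);  `det W * det U = 1`. -/
theorem det_of_frame {n : ℕ} (U : Matrix (Fin n) (Fin n) ℝ) (Q : ℝ) (hQ : 0 < Q)
    (h : ∀ t : Fin n → ℝ, ∑ i, |t i| ≤ Q * ∑ k, |∑ i, t i * U i k|) :
    1 / ((n.factorial : ℝ) * Q ^ n) ≤ |U.det| := by
  have hvm : ∀ (t : Fin n → ℝ) k, Matrix.vecMul t U k = ∑ i, t i * U i k := fun t k => rfl
  have hinj : Function.Injective U.vecMul := by
    intro t t' htt
    have hz : ∀ k, ∑ i, (t - t') i * U i k = 0 := by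
      intro k
      rw [← hvm, Matrix.sub_vecMul]
      have : Matrix.vecMul t U = Matrix.vecMul t' U := htt
      rw [this, sub_self]; rfl
    have h1 := h (t - t')
    simp only [hz, abs_zero, Finset.sum_const_zero, mul_zero] at h1
    have h2 : ∀ i ∈ Finset.univ, |(t - t') i| = 0 :=
      (Finset.sum_eq_zero_iff_of_nonneg (fun i _ => abs_nonneg _)).1 (le_antisymm h1 (Finset.sum_nonneg fun i _ => abs_nonneg _))
    funext i
    have := abs_eq_zero.1 (h2 i (Finset.mem_univ i))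
    exact sub_eq_zero.1 this
  have hunit : IsUnit U := Matrix.vecMul_injective_iff_isUnit.1 hinj
  have hdet : IsUnit U.det := (Matrix.isUnit_iff_isUnit_det U).1 hunit
  have hWU : U⁻¹ * U = 1 := Matrix.nonsing_inv_mul U hdet
  have hrow : ∀ k i, |U⁻¹ k i| ≤ Q := by
    intro k i
    have h1 := h (U⁻¹ k)
    have e : ∀ j, ∑ i, U⁻¹ k i * U i j = (1 : Matrix (Fin n) (Fin n) ℝ) k j := by
      intro j
      rw [← hWU, Matrix.mul_apply]
    simp only [e] at h1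
    have e2 : ∑ j, |(1 : Matrix (Fin n) (Fin n) ℝ) k j| = 1 := by
      rw [Finset.sum_eq_single k]
      · simp
      · intro j _ hj
        rw [Matrix.one_apply_ne (Ne.symm hj), abs_zero]
      · intro hk; exact absurd (Finset.mem_univ k) hk
    rw [e2, mul_one] at h1
    exact (Finset.single_le_sum (f := fun i => |U⁻¹ k i|) (fun i _ => abs_nonneg _) (Finset.mem_univ i)).trans h1
  have hW : |(U⁻¹).det| ≤ (n.factorial : ℝ) * Q ^ n := by
    have := Matrix.det_le (A := U⁻¹) (abv := AbsoluteValue.abs) (x := Q) hrow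
    simpa [nsmul_eq_mul] using this
  have hprod : |(U⁻¹).det| * |U.det| = 1 := by
    rw [← abs_mul, ← Matrix.det_mul, hWU, Matrix.det_one, abs_one]
  have hpos : 0 < (n.factorial : ℝ) * Q ^ n := by positivity
  rw [div_le_iff₀ hpos]
  calc (1 : ℝ) = |(U⁻¹).det| * |U.det| := hprod.symm
    _ ≤ ((n.factorial : ℝ) * Q ^ n) * |U.det| := by gcongr
    _ = _ := by ring

/-- **LEAF L-MK-COORD: orthonormal coordinates on `V × ℝ`.**
PLAN.  `b = stdOrthonormalBasis ℝ V`;  `Φ (x,t) = Fin.cons t (b.repr x)` (or `Fin.snoc`).  Measure preserving: `b.repr` (`LinearIsometryEquiv.measurePreserving`), `EuclideanSpace.volume_preserving_measurableEquiv`/`PiLp.volume_preserving_ofLp`,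
`MeasurePreserving.prod`, `(volume_preserving_piFinSuccAbove (fun _ => ℝ) 0).symm`.   `|b.repr x i| ≤ ‖x‖` (`PiLp.norm_apply_le`, `LinearIsometryEquiv.norm_map`);  `‖x‖ = ‖∑ (b.repr x i) • b i‖ ≤ ∑ |b.repr x i|` (`OrthonormalBasis.sum_repr`, `norm_sum_le`). -/
theorem exists_gcoord (V : Type*) [NormedAddCommGroup V] [InnerProductSpace ℝ V] [FiniteDimensional ℝ V] [MeasurableSpace V] [BorelSpace V] :
    ∃ Φ : (V × ℝ) ≃L[ℝ] (Fin (Module.finrank ℝ V + 1) → ℝ), MeasurePreserving Φ volume volume ∧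
      (∀ z i, |Φ z i| ≤ ‖z‖) ∧ ∀ z, ‖z.1‖ + |z.2| ≤ ∑ i, |Φ z i| := by
  set k := Module.finrank ℝ V with hk
  let b : OrthonormalBasis (Fin k) ℝ V := stdOrthonormalBasis ℝ V
  let e1 : V ≃L[ℝ] (Fin k → ℝ) := b.repr.toContinuousLinearEquiv.trans (EuclideanSpace.equiv (Fin k) ℝ)
  let Φ : (V × ℝ) ≃L[ℝ] (Fin (k + 1) → ℝ) :=
    (ContinuousLinearEquiv.prodComm ℝ V ℝ).trans
      (((ContinuousLinearEquiv.refl ℝ ℝ).prodCongr e1).trans (Fin.consEquivL ℝ (fun _ : Fin (k + 1) => ℝ)))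
  have hΦ : ∀ z : V × ℝ, Φ z = Fin.cons z.2 (fun i => b.repr z.1 i) := fun z => rfl
  refine ⟨Φ, ?_, ?_, ?_⟩
  · have h1 : MeasurePreserving (Prod.swap : V × ℝ → ℝ × V) volume volume := Measure.measurePreserving_swap
    have h2 : MeasurePreserving (fun x : V => (WithLp.ofLp (b.repr x) : Fin k → ℝ)) volume volume :=
      (PiLp.volume_preserving_ofLp (Fin k)).comp b.measurePreserving_repr
    have h3 : MeasurePreserving (Prod.map id (fun x : V => (WithLp.ofLp (b.repr x) : Fin k → ℝ)) : ℝ × V → ℝ × (Fin k → ℝ)) volume volume :=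
      (MeasurePreserving.id volume).prod h2
    have h4 := (volume_preserving_piFinSuccAbove (fun _ : Fin (k + 1) => ℝ) 0).symm
    have h5 := h4.comp (h3.comp h1)
    have h6 : (⇑Φ : V × ℝ → Fin (k + 1) → ℝ) = ⇑(MeasurableEquiv.piFinSuccAbove (fun _ : Fin (k + 1) => ℝ) 0).symm ∘
        (Prod.map id fun x : V => (WithLp.ofLp (b.repr x) : Fin k → ℝ)) ∘ Prod.swap := by
      funext z
      rw [hΦ]
      simp [MeasurableEquiv.piFinSuccAbove_symm_apply, Fin.insertNthEquiv]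
    rw [h6]
    exact h5
  · intro z i
    rw [hΦ]
    refine Fin.cases ?_ (fun j => ?_) i
    · simp only [Fin.cons_zero]
      exact norm_snd_le z
    · simp only [Fin.cons_succ]
      calc |b.repr z.1 j| = ‖b.repr z.1 j‖ := (Real.norm_eq_abs _).symm
        _ ≤ ‖b.repr z.1‖ := PiLp.norm_apply_le _ _
        _ = ‖z.1‖ := b.repr.norm_map _
        _ ≤ ‖z‖ := norm_fst_le z
  · intro z
    rw [hΦ, Fin.sum_univ_succ]
    simp only [Fin.cons_zero, Fin.cons_succ]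
    have h1 : ‖z.1‖ ≤ ∑ i, |b.repr z.1 i| := by
      calc ‖z.1‖ = ‖∑ i, b.repr z.1 i • b i‖ := by rw [b.sum_repr]
        _ ≤ ∑ i, ‖b.repr z.1 i • b i‖ := norm_sum_le _ _
        _ = ∑ i, |b.repr z.1 i| := by
          refine Finset.sum_congr rfl fun i _ => ?_
          rw [norm_smul, b.norm_eq_one, mul_one, Real.norm_eq_abs]
    linarith

theorem mkg_tube {V : Type*} [NormedAddCommGroup V] [NormedSpace ℝ V] {n : ℕ} (Φ : (V × ℝ) ≃L[ℝ] (Fin n → ℝ))
    (hΦ1 : ∀ z i, |Φ z i| ≤ ‖z‖) (b : ℝ) (hb : b ≠ 0) (z : V × ℝ) (v a : V) (h : ℝ)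
    (ha : a ∈ closedBall (z.1 + (2 * z.2) • v) h) : Φ z ∈ mlkTube (Φ (a, 0)) (b⁻¹ • Φ ((-2 : ℝ) • v, 1)) h := by
  refine ⟨b * z.2, fun i => ?_⟩
  have h1 : Φ z i - Φ (a, 0) i - b * z.2 * (b⁻¹ • Φ ((-2 : ℝ) • v, 1)) i = Φ (z.1 + (2 * z.2) • v - a, 0) i := by
    have h2 : ((z.1 + (2 * z.2) • v - a, 0) : V × ℝ) = z - (a, 0) - z.2 • ((-2 : ℝ) • v, (1 : ℝ)) := by
      refine Prod.ext ?_ ?_
      · simp only [Prod.fst_sub, Prod.smul_fst, smul_smul]
        rw [show z.2 * -2 = -(2 * z.2) by ring, neg_smul]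
        abel
      · simp
    rw [h2, map_sub, map_sub, map_smul]
    simp only [Pi.sub_apply, Pi.smul_apply, smul_eq_mul]
    field_simp
  rw [h1]
  refine (hΦ1 _ i).trans ?_
  rw [mem_closedBall, dist_eq_norm, norm_sub_rev] at ha
  rw [Prod.norm_def]
  simpa using ha

theorem mkg_det {V : Type*} [NormedAddCommGroup V] [NormedSpace ℝ V] {n : ℕ} (Φ : (V × ℝ) ≃L[ℝ] (Fin n → ℝ))
    (hΦ2 : ∀ z, ‖z.1‖ + |z.2| ≤ ∑ i, |Φ z i|) (b Q : ℝ) (hb : 0 < b) (hQ : 0 < Q) (w : Fin n → V)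
    (ht : ∀ t : Fin n → ℝ, ∑ i, |t i| ≤ Q * (‖∑ i, t i • w i‖ + |∑ i, t i|)) :
    1 / ((n.factorial : ℝ) * (Q * b) ^ n) ≤ |Matrix.det (Matrix.of fun i => b⁻¹ • Φ ((-2 : ℝ) • w i, 1))| := by
  refine det_of_frame _ (Q * b) (mul_pos hQ hb) fun t => ?_
  have h1 : ∀ k, ∑ i, t i * (Matrix.of fun i => b⁻¹ • Φ ((-2 : ℝ) • w i, 1)) i k
      = b⁻¹ * Φ ((-2 : ℝ) • ∑ i, t i • w i, ∑ i, t i) k := by
    intro k
    have h2 : (((-2 : ℝ) • ∑ i, t i • w i, ∑ i, t i) : V × ℝ) = ∑ i, t i • ((-2 : ℝ) • w i, (1 : ℝ)) := by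
      refine Prod.ext ?_ ?_
      · simp only [Prod.fst_sum, Finset.smul_sum, Prod.smul_fst]
        refine Finset.sum_congr rfl fun i _ => ?_
        rw [smul_comm]
      · simp [Prod.snd_sum]
    rw [h2, map_sum, Finset.sum_apply, Finset.mul_sum]
    refine Finset.sum_congr rfl fun i _ => ?_
    rw [map_smul]
    simp only [Matrix.of_apply, Pi.smul_apply, smul_eq_mul]
    ring
  simp only [h1, abs_mul, abs_of_pos (inv_pos.2 hb)]
  rw [← Finset.mul_sum]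
  have h3 := hΦ2 ((-2 : ℝ) • ∑ i, t i • w i, ∑ i, t i)
  simp only [norm_smul, norm_neg, Real.norm_ofNat] at h3
  have h4 : ‖∑ i, t i • w i‖ + |∑ i, t i| ≤ ∑ k, |Φ ((-2 : ℝ) • ∑ i, t i • w i, ∑ i, t i) k| := by
    have := norm_nonneg (∑ i, t i • w i)
    linarith
  calc ∑ i, |t i| ≤ Q * (‖∑ i, t i • w i‖ + |∑ i, t i|) := ht t
    _ ≤ Q * ∑ k, |Φ ((-2 : ℝ) • ∑ i, t i • w i, ∑ i, t i) k| := mul_le_mul_of_nonneg_left h4 hQ.le
    _ = Q * b * (b⁻¹ * ∑ k, |Φ ((-2 : ℝ) • ∑ i, t i • w i, ∑ i, t i) k|) := by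
      field_simp

theorem mkg_main.{u, v} (V : Type v) [NormedAddCommGroup V] [InnerProductSpace ℝ V] [FiniteDimensional ℝ V] [MeasurableSpace V] [BorelSpace V]
    (k : ℕ) (hk : 1 ≤ k) (Φ : (V × ℝ) ≃L[ℝ] (Fin (k + 1) → ℝ)) (hΦ : MeasurePreserving Φ volume volume)
    (hΦ1 : ∀ z i, |Φ z i| ≤ ‖z‖) (hΦ2 : ∀ z, ‖z.1‖ + |z.2| ≤ ∑ i, |Φ z i|)
    (B : ℝ) (hB : 0 ≤ B) : ∃ C : ℝ, ∃ M : ℕ, 0 < C ∧ ∀ (h Q : ℝ), 0 < h → 1 ≤ Q →
    ∀ (ι : Type u) (s : Fin (k + 1) → Finset ι) (v : Fin (k + 1) → ι → V)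
      (μ : Fin (k + 1) → ι → Measure V),
    (∀ i, ∀ j ∈ s i, ‖v i j‖ ≤ B) →
    (∀ j : Fin (k + 1) → ι, (∀ i, j i ∈ s i) → ∀ t : Fin (k + 1) → ℝ,
      ∑ i, |t i| ≤ Q * (‖∑ i, t i • v i (j i)‖ + |∑ i, t i|)) →
    ∫⁻ z : V × ℝ, ∏ i, (∑ j ∈ s i, μ i j (closedBall (z.1 + (2 * z.2) • v i j) h)) ^ (1 / (k : ℝ))
      ≤ ENNReal.ofReal (C * Q ^ M * h ^ (k + 1)) * ∏ i, (∑ j ∈ s i, μ i j univ) ^ (1 / (k : ℝ)) := by
  obtain ⟨C0, hC0, H⟩ := mke_meas.{u} (k + 1) (by omega)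
  set b : ℝ := 2 * B + 1 with hb
  have hb1 : 1 ≤ b := by rw [hb]; linarith
  have hb0 : 0 < b := by linarith
  refine ⟨C0 * (((k + 1).factorial : ℝ) * b ^ (k + 1)) ^ ((k + 1) ^ 2 + (k + 1)), (k + 1) * ((k + 1) ^ 2 + (k + 1)), by positivity, ?_⟩
  intro h Q hh hQ ι s v μ hv ht
  have hQ0 : 0 < Q := by linarith
  set θ : ℝ := 1 / (((k + 1).factorial : ℝ) * (Q * b) ^ (k + 1)) with hθ
  have hden : 1 ≤ ((k + 1).factorial : ℝ) * (Q * b) ^ (k + 1) := by
    have h1 : (1 : ℝ) ≤ ((k + 1).factorial : ℝ) := by exact_mod_cast Nat.succ_le_of_lt (Nat.factorial_pos _)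
    have h2 : (1 : ℝ) ≤ (Q * b) ^ (k + 1) := one_le_pow₀ (by nlinarith)
    nlinarith
  have hθ0 : 0 < θ := by rw [hθ]; positivity
  have hθ1 : θ ≤ 1 := by
    rw [hθ]
    exact (div_le_one (by linarith)).2 hden
  have hcont : Continuous fun a : V => Φ (a, (0 : ℝ)) := Φ.continuous.comp (by fun_prop)
  have key := H h θ hh hθ0 hθ1 (Fin (k + 1) × ι) (fun i => (s i).map (Function.Embedding.sectR i ι))
    (fun a => b⁻¹ • Φ ((-2 : ℝ) • v a.1 a.2, 1)) (fun a => (μ a.1 a.2).map fun x => Φ (x, (0 : ℝ)))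
    (by
      intro i a ha κ
      obtain ⟨j, hj, rfl⟩ := Finset.mem_map.1 ha
      simp only [Function.Embedding.sectR_apply, Pi.smul_apply, smul_eq_mul]
      rw [abs_mul, abs_of_pos (inv_pos.2 hb0), inv_mul_le_iff₀ hb0, mul_one]
      refine (hΦ1 _ κ).trans ?_
      rw [Prod.norm_def]
      refine max_le ?_ ?_
      · simp only [norm_smul, norm_neg, Real.norm_ofNat]
        have := hv i j hj
        rw [hb]
        linarith
      · simpa using hb1)
    (by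
      intro a ha
      rw [Fintype.mem_piFinset] at ha
      have h1 : ∀ i, ∃ j ∈ s i, a i = (i, j) := by
        intro i
        obtain ⟨j, hj, hj'⟩ := Finset.mem_map.1 (ha i)
        exact ⟨j, hj, hj'.symm⟩
      choose j hj hj' using h1
      have h2 := mkg_det Φ hΦ2 b Q hb0 hQ0 (fun i => v i (j i)) (ht j hj)
      have h3 : (Matrix.of fun i => b⁻¹ • Φ ((-2 : ℝ) • v (a i).1 (a i).2, 1)) = Matrix.of fun i => b⁻¹ • Φ ((-2 : ℝ) • v i (j i), 1) := by
        congr 1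
        funext i
        rw [hj' i]
      rw [h3]
      exact h2)
  have hexp : (1 : ℝ) / (((k + 1 : ℕ) : ℝ) - 1) = 1 / (k : ℝ) := by
    push_cast
    rw [add_sub_cancel_right]
  rw [hexp] at key
  simp only [Finset.sum_map, Function.Embedding.sectR_apply] at key
  have hconst : C0 * (1 / θ) ^ ((k + 1) ^ 2 + (k + 1)) * h ^ (k + 1)
      = C0 * (((k + 1).factorial : ℝ) * b ^ (k + 1)) ^ ((k + 1) ^ 2 + (k + 1)) * Q ^ ((k + 1) * ((k + 1) ^ 2 + (k + 1))) * h ^ (k + 1) := by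
    rw [hθ, one_div_one_div]
    generalize (k + 1) ^ 2 + (k + 1) = N
    generalize ((k + 1).factorial : ℝ) = F
    generalize k + 1 = m
    rw [mul_pow Q b, pow_mul Q, mul_pow, mul_pow, mul_pow]
    ring
  rw [hconst] at key
  have huniv : ∀ i j, ((μ i j).map fun x => Φ (x, (0 : ℝ))) univ = μ i j univ := by
    intro i j
    rw [Measure.map_apply hcont.measurable MeasurableSet.univ, preimage_univ]
  simp only [huniv] at key
  refine le_trans ?_ key
  rw [← hΦ.lintegral_comp_emb Φ.toHomeomorph.measurableEmbedding]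
  refine lintegral_mono fun z => ?_
  refine Finset.prod_le_prod' fun i _ => ?_
  refine ENNReal.rpow_le_rpow (Finset.sum_le_sum fun j _ => ?_) (by positivity)
  refine le_trans (measure_mono ?_) (Measure.le_map_apply hcont.aemeasurable _)
  intro a ha
  exact mkg_tube Φ hΦ1 b hb0.ne' z (v i j) a h ha

/-- **LEAF L-MK-GRAPH: ENDPOINT MULTILINEAR KAKEYA FOR GRAPH TUBES, measure form.**   `μ i j (closedBall (x + 2 t v) h)` = mass of the tubes `{‖x + 2 t v - a‖ ≤ h}` of velocity `v = v i j` through `z = (x,t)`.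
PLAN.  `n = k + 1`, `Φ` of `exists_gcoord`, `b = 2 B + 1`, index type `Fin n × ι`, `A i = (s i).map (i, ·)`, `e (i,j) = b⁻¹ • Φ (-2 • v i j, 1)` (`|e k| ≤ 1`), `μ' (i,j) = (μ i j).map fun a => Φ (a, 0)`.
`‖x + 2 t v - a‖ ≤ h` ⟹ `Φ z ∈ mlkTube (Φ (a,0)) e h` (parameter `b t`: `z - (a,0) - t (-2v,1) = (x + 2tv - a, 0)`);  `Measure.le_map_apply` (continuous map, any set);  `Measure.map_apply _ MeasurableSet.univ`.
`det_of_frame` with `Q' = Q b` (for `w = ∑ t i (-2 v i, 1)`: `‖∑ t i • v i‖ + |∑ t i| ≤ ‖w.1‖ + |w.2| ≤ ∑ |Φ w k|`): `θ = min 1 (1 / (n! (Q b)^n))`.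
`(hΦ.lintegral_comp_emb Φ.toHomeomorph.measurableEmbedding _)` transports the integral;  `mke_meas`.   `M = n (n² + n)`, `C = C_meas (n! b^n)^(n²+n)` (use `1 ≤ Q`). -/
theorem mk_graph.{u, v} (V : Type v) [NormedAddCommGroup V] [InnerProductSpace ℝ V] [FiniteDimensional ℝ V] [MeasurableSpace V] [BorelSpace V]
    (hk : 1 ≤ Module.finrank ℝ V) (B : ℝ) (hB : 0 ≤ B) : ∃ C : ℝ, ∃ M : ℕ, 0 < C ∧ ∀ (h Q : ℝ), 0 < h → 1 ≤ Q →
    ∀ (ι : Type u) (s : Fin (Module.finrank ℝ V + 1) → Finset ι) (v : Fin (Module.finrank ℝ V + 1) → ι → V)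
      (μ : Fin (Module.finrank ℝ V + 1) → ι → Measure V),
    (∀ i, ∀ j ∈ s i, ‖v i j‖ ≤ B) →
    (∀ j : Fin (Module.finrank ℝ V + 1) → ι, (∀ i, j i ∈ s i) → ∀ t : Fin (Module.finrank ℝ V + 1) → ℝ,
      ∑ i, |t i| ≤ Q * (‖∑ i, t i • v i (j i)‖ + |∑ i, t i|)) →
    ∫⁻ z : V × ℝ, ∏ i, (∑ j ∈ s i, μ i j (closedBall (z.1 + (2 * z.2) • v i j) h)) ^ (1 / (Module.finrank ℝ V : ℝ))
      ≤ ENNReal.ofReal (C * Q ^ M * h ^ (Module.finrank ℝ V + 1)) * ∏ i, (∑ j ∈ s i, μ i j univ) ^ (1 / (Module.finrank ℝ V : ℝ)) := by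
  obtain ⟨Φ, hΦ, hΦ1, hΦ2⟩ := exists_gcoord V
  exact mkg_main.{u, v} V (Module.finrank ℝ V) hk Φ hΦ hΦ1 hΦ2 B hB

/-- **LEAF L-MK-GFIN: finitely many weighted graph tubes.**  `mk_graph` (same `C`, `M`) with `μ i j = c i j • Measure.dirac (a i j)` (`Measure.smul_apply`, `Measure.dirac_apply'`, `isClosed_closedBall.measurableSet`, `mem_closedBall`, `dist_eq_norm`, `norm_sub_rev`). -/
theorem mk_graph_fin.{u, v} (V : Type v) [NormedAddCommGroup V] [InnerProductSpace ℝ V] [FiniteDimensional ℝ V] [MeasurableSpace V] [BorelSpace V]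
    (hk : 1 ≤ Module.finrank ℝ V) (B : ℝ) (hB : 0 ≤ B) : ∃ C : ℝ, ∃ M : ℕ, 0 < C ∧ ∀ (h Q : ℝ), 0 < h → 1 ≤ Q →
    ∀ (ι : Type u) (s : Fin (Module.finrank ℝ V + 1) → Finset ι) (v a : Fin (Module.finrank ℝ V + 1) → ι → V)
      (c : Fin (Module.finrank ℝ V + 1) → ι → ℝ≥0∞),
    (∀ i, ∀ j ∈ s i, ‖v i j‖ ≤ B) →
    (∀ j : Fin (Module.finrank ℝ V + 1) → ι, (∀ i, j i ∈ s i) → ∀ t : Fin (Module.finrank ℝ V + 1) → ℝ,
      ∑ i, |t i| ≤ Q * (‖∑ i, t i • v i (j i)‖ + |∑ i, t i|)) →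
    ∫⁻ z : V × ℝ, ∏ i, (∑ j ∈ s i, c i j * ({z : V × ℝ | ‖z.1 + (2 * z.2) • v i j - a i j‖ ≤ h}).indicator 1 z) ^ (1 / (Module.finrank ℝ V : ℝ))
      ≤ ENNReal.ofReal (C * Q ^ M * h ^ (Module.finrank ℝ V + 1)) * ∏ i, (∑ j ∈ s i, c i j) ^ (1 / (Module.finrank ℝ V : ℝ)) := by
  obtain ⟨C, M, hC, H⟩ := mk_graph.{u, v} V hk B hB
  refine ⟨C, M, hC, fun h Q hh hQ ι s v a c hv ht => ?_⟩
  have h1 := H h Q hh hQ ι s v (fun i j => c i j • Measure.dirac (a i j)) hv ht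
  have h2 : ∀ (i : Fin (Module.finrank ℝ V + 1)) (j : ι) (z : V × ℝ),
      (c i j • Measure.dirac (a i j)) (closedBall (z.1 + (2 * z.2) • v i j) h)
        = c i j * ({z : V × ℝ | ‖z.1 + (2 * z.2) • v i j - a i j‖ ≤ h}).indicator 1 z := by
    intro i j z
    rw [Measure.smul_apply, Measure.dirac_apply' _ isClosed_closedBall.measurableSet, smul_eq_mul]
    congr 1
    have hiff : a i j ∈ closedBall (z.1 + (2 * z.2) • v i j) h ↔ ‖z.1 + (2 * z.2) • v i j - a i j‖ ≤ h := by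
      rw [mem_closedBall, dist_eq_norm, norm_sub_rev]
    by_cases hz : ‖z.1 + (2 * z.2) • v i j - a i j‖ ≤ h
    · rw [Set.indicator_of_mem (show z ∈ {z : V × ℝ | ‖z.1 + (2 * z.2) • v i j - a i j‖ ≤ h} from hz), Set.indicator_of_mem (hiff.2 hz)]
      rfl
    · rw [Set.indicator_of_notMem (show z ∉ {z : V × ℝ | ‖z.1 + (2 * z.2) • v i j - a i j‖ ≤ h} from hz),
        Set.indicator_of_notMem (fun hh => hz (hiff.1 hh))]
  have h3 : ∀ (i : Fin (Module.finrank ℝ V + 1)) (j : ι), (c i j • Measure.dirac (a i j)) univ = c i j := by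
    intro i j
    rw [Measure.smul_apply, measure_univ, smul_eq_mul, mul_one]
  simp only [h2, h3] at h1
  exact h1

end Claimed.Agent.MK
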