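import Claimed.Agent.Lib.MK.Vis

/-!
# Lib/MK, file 9: THE ENDPOINT MULTILINEAR KAKEYA THEOREM, core form (unit U11)            (architect helper13)            CONTRACT
PAPER-FREE.  Unit cubes `closedBall (ctr k) (1/2)`, `k ∈ ℤ^n`; family `j` consists of sup-norm tubes of radius `1` around lines with direction `v`, `v j = 1`, `|v i| ≤ 1/(4n)` (`i ≠ j`); weights `w ≥ 0`.
**`mk_core`** : `∑_{k ∈ K} ∏_j (∑_{x ∈ A j, tube x meets cube k} w x)^{1/(n-1)} ≤ C_n ∏_j (∑_{A j} w)^{1/(n-1)}`, NO loss in the number or position of the cubes.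
Every `sorry` is a leaf `L-MK-*`.  Statements are frozen; auxiliary lemmas directly above your theorem; edit only your block.
-/

set_option autoImplicit false
open MeasureTheory Set Metric
open scoped ENNReal BigOperators

namespace Claimed.Agent.MK

/-- centre of the unit cube with corner `k` -/
noncomputable def ctr {n : ℕ} (k : Fin n → ℤ) : Fin n → ℝ := fun i => (k i : ℝ) + 1 / 2

/-- the tube `x` meets the cube `k` -/
def hit {n : ℕ} (a v : Fin n → ℝ) (k : Fin n → ℤ) : Prop := (tube a v 1 ∩ closedBall (ctr k) (1 / 2)).Nonempty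

open Classical in
/-- total weight of the tubes of a family through the cube `k` -/
noncomputable def Fk {n : ℕ} {α : Type*} (A : Finset α) (a v : α → Fin n → ℝ) (w : α → ℝ) (k : Fin n → ℤ) : ℝ :=
  ∑ x ∈ A, if hit (a x) (v x) k then w x else 0

/-- at most `7` integers `k` with `|x - (k + 1/2)| ≤ 3` -/
theorem tsum_card_Icc (x : ℝ) : (Finset.Icc ⌈x - 7 / 2⌉ ⌊x + 5 / 2⌋).card ≤ 7 := by
  rw [Int.card_Icc]
  have h1 : ⌊x + 5 / 2⌋ = ⌊x - 7 / 2⌋ + 6 := by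
    have : x + 5 / 2 = (x - 7 / 2) + ((6 : ℤ) : ℝ) := by push_cast; ring
    rw [this, Int.floor_add_intCast]
  have h2 : ⌊x - 7 / 2⌋ ≤ ⌈x - 7 / 2⌉ := Int.floor_le_ceil _
  omega

open Classical in
/-- the balls `closedBall (ctr k) 3` have overlap `≤ 7^n` -/
theorem tsum_overlap {n : ℕ} (K : Finset (Fin n → ℤ)) (x : Fin n → ℝ) :
    (K.filter fun k => x ∈ closedBall (ctr k) 3).card ≤ 7 ^ n := by
  have hsub : (K.filter fun k => x ∈ closedBall (ctr k) 3) ⊆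
      Fintype.piFinset fun i => Finset.Icc ⌈x i - 7 / 2⌉ ⌊x i + 5 / 2⌋ := by
    intro k hk
    have hx : x ∈ closedBall (ctr k) 3 := (Finset.mem_filter.1 hk).2
    rw [mem_closedBall, dist_pi_le_iff (by norm_num)] at hx
    rw [Fintype.mem_piFinset]
    intro i
    have h1 := hx i
    rw [Real.dist_eq, abs_le] at h1
    unfold ctr at h1
    rw [Finset.mem_Icc]
    constructor
    · rw [Int.ceil_le]
      linarith [h1.2]
    · rw [Int.le_floor]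
      linarith [h1.1]
  refine (Finset.card_le_card hsub).trans ?_
  rw [Fintype.card_piFinset]
  calc ∏ i : Fin n, (Finset.Icc ⌈x i - 7 / 2⌉ ⌊x i + 5 / 2⌋).card ≤ ∏ _i : Fin n, 7 :=
        Finset.prod_le_prod' fun i _ => tsum_card_Icc (x i)
    _ = 7 ^ n := by simp

/-- a ball of radius `3` around a cube met by the tube of radius `1` lies in the tube of radius `5` -/
theorem tsum_ball_subset {n : ℕ} (a v : Fin n → ℝ) (k : Fin n → ℤ) (hk : hit a v k) :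
    closedBall (ctr k) 3 ⊆ tube a v 5 := by
  obtain ⟨p, ⟨t, ht⟩, hp⟩ := hk
  intro y hy
  refine ⟨t, ?_⟩
  rw [mem_closedBall, dist_eq_norm] at hy hp
  have e : y - a - t • v = (y - ctr k) - (p - ctr k) + (p - a - t • v) := by abel
  rw [e]
  calc ‖(y - ctr k) - (p - ctr k) + (p - a - t • v)‖ ≤ ‖(y - ctr k) - (p - ctr k)‖ + ‖p - a - t • v‖ := norm_add_le _ _
    _ ≤ (‖y - ctr k‖ + ‖p - ctr k‖) + ‖p - a - t • v‖ := by gcongr; exact norm_sub_le _ _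
    _ ≤ (3 + 1 / 2) + 1 := by gcongr
    _ ≤ 5 := by norm_num

/-- **LEAF L-MK-TSUM: the cylinder estimate summed over the cubes met by one tube.**
PLAN.  `om_sum_overlap` with `Rk k = closedBall (ctr k) 3`, `R = tube a v 5`, overlap `7^n` (`x ∈ closedBall (ctr k) 3` forces `k i ∈ Icc ⌈x i - 7/2⌉ ⌊x i + 5/2⌋`, at most `7` integers; `Fintype.piFinset`, `Fintype.card_piFinset`, `Int.card_Icc`);
inclusion: `p ∈ tube a v 1 ∩ closedBall (ctr k) (1/2)`, `y ∈ closedBall (ctr k) 3`: `‖y - p‖ ≤ 7/2`, same parameter `t`.   `om_line_le` with `r = 5`, `ρ = s`.   Finite: `toReal` of a finite sum (`ENNReal.toReal_sum`, `om_le_volume`). -/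
theorem tube_sum_le {n D : ℕ} {f : (Fin n → ℝ) → ℝ} (hf : Tame n D f) (j : Fin n) (a v : Fin n → ℝ) (hvj : v j = 1)
    (hv : ∀ i, |v i| ≤ 1) (s : ℝ) (hs : 0 < s) (K : Finset (Fin n → ℤ)) (hK : ∀ k ∈ K, hit a v k) :
    ∑ k ∈ K, (om f (closedBall (ctr k) 3) (s • v)).toReal / s ≤ 7 ^ n * (D * 20 ^ (n - 1)) := by
  classical
  have h1 : ∑ k ∈ K, om f (closedBall (ctr k) 3) (s • v) ≤ ((7 ^ n : ℕ) : ℝ≥0∞) * om f (tube a v 5) (s • v) :=
    om_sum_overlap K (fun k => closedBall (ctr k) 3) (fun k _ => measurableSet_closedBall) (7 ^ n)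
      (fun x => tsum_overlap K x) (fun k hk => tsum_ball_subset a v k (hK k hk))
  have h2 : om f (tube a v 5) (s • v) ≤ ENNReal.ofReal (D * s * (4 * 5) ^ (n - 1)) :=
    om_line_le hf j v hvj hv s hs.le a 5 (by norm_num) _ (Subset.refl _)
  have h3 : ∑ k ∈ K, om f (closedBall (ctr k) 3) (s • v) ≤ ((7 ^ n : ℕ) : ℝ≥0∞) * ENNReal.ofReal (D * s * (4 * 5) ^ (n - 1)) :=
    h1.trans (mul_le_mul' le_rfl h2)
  have hfin : ((7 ^ n : ℕ) : ℝ≥0∞) * ENNReal.ofReal (D * s * (4 * 5) ^ (n - 1)) ≠ ⊤ :=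
    ENNReal.mul_ne_top (ENNReal.natCast_ne_top _) ENNReal.ofReal_ne_top
  have hne : ∀ k ∈ K, om f (closedBall (ctr k) 3) (s • v) ≠ ⊤ := fun k hk =>
    ne_top_of_le_ne_top hfin ((Finset.single_le_sum (f := fun k => om f (closedBall (ctr k) 3) (s • v))
      (fun _ _ => zero_le) hk).trans h3)
  have h4 := ENNReal.toReal_mono hfin h3
  rw [ENNReal.toReal_sum hne, ENNReal.toReal_mul, ENNReal.toReal_natCast,
    ENNReal.toReal_ofReal (by positivity)] at h4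
  rw [← Finset.sum_div, div_le_iff₀ hs]
  refine h4.trans (le_of_eq ?_)
  push_cast
  norm_num
  ring

/-- **LEAF L-MK-HOLDER.**  `ENNReal.lintegral_prod_norm_pow_le` with the counting measure on `K` (or induction on the number of factors from `Real.inner_le_Lp_mul_Lq`; or normalise `∑_k X k j = 1` and use `Real.inner_le_nnorm_mul_nnorm`-free AM-GM `Real.geom_mean_le_arith_mean_weighted`). -/
theorem holder_n {n : ℕ} (hn : 1 ≤ n) {κ : Type*} (K : Finset κ) (X : κ → Fin n → ℝ) (hX : ∀ k ∈ K, ∀ j, 0 ≤ X k j) :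
    ∑ k ∈ K, ∏ j, (X k j) ^ (1 / (n : ℝ)) ≤ ∏ j, (∑ k ∈ K, X k j) ^ (1 / (n : ℝ)) := by
  have hn0 : (0 : ℝ) < n := by exact_mod_cast hn
  have hp : (1 / (n : ℝ)) ≠ 0 := by positivity
  have hS0 : ∀ j, 0 ≤ ∑ k ∈ K, X k j := fun j => Finset.sum_nonneg fun k hk => hX k hk j
  by_cases hz : ∃ j, ∑ k ∈ K, X k j = 0
  · obtain ⟨j, hj⟩ := hz
    have hall : ∀ k ∈ K, X k j = 0 := (Finset.sum_eq_zero_iff_of_nonneg (fun k hk => hX k hk j)).1 hj
    have h0 : ∑ k ∈ K, ∏ j, (X k j) ^ (1 / (n : ℝ)) = 0 := Finset.sum_eq_zero fun k hk =>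
      Finset.prod_eq_zero (Finset.mem_univ j) (by rw [hall k hk, Real.zero_rpow hp])
    rw [h0]
    exact Finset.prod_nonneg fun j _ => Real.rpow_nonneg (hS0 j) _
  · have hSpos : ∀ j, 0 < ∑ k ∈ K, X k j := fun j => lt_of_le_of_ne (hS0 j) fun hj => hz ⟨j, hj.symm⟩
    have hP0 : 0 ≤ ∏ j, (∑ k ∈ K, X k j) ^ (1 / (n : ℝ)) :=
      Finset.prod_nonneg fun j _ => Real.rpow_nonneg (hS0 j) _
    have key : ∀ k ∈ K, ∏ j, (X k j) ^ (1 / (n : ℝ)) ≤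
        (∏ j, (∑ k ∈ K, X k j) ^ (1 / (n : ℝ))) * ∑ j, (1 / (n : ℝ)) * (X k j / ∑ k ∈ K, X k j) := by
      intro k hk
      have hq : ∀ j, 0 ≤ X k j / ∑ k ∈ K, X k j := fun j => div_nonneg (hX k hk j) (hSpos j).le
      have hw : ∑ _j : Fin n, (1 / (n : ℝ)) = 1 := by
        rw [Finset.sum_const, Finset.card_univ, Fintype.card_fin, nsmul_eq_mul]
        field_simp
      have := Real.geom_mean_le_arith_mean_weighted Finset.univ (fun _ : Fin n => 1 / (n : ℝ))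
        (fun j => X k j / ∑ k ∈ K, X k j) (fun _ _ => by positivity) hw (fun j _ => hq j)
      calc ∏ j, (X k j) ^ (1 / (n : ℝ))
          = ∏ j, ((∑ k ∈ K, X k j) ^ (1 / (n : ℝ)) * (X k j / ∑ k ∈ K, X k j) ^ (1 / (n : ℝ))) := by
            refine Finset.prod_congr rfl fun j _ => ?_
            rw [← Real.mul_rpow (hSpos j).le (hq j), mul_div_cancel₀ _ (hSpos j).ne']
        _ = (∏ j, (∑ k ∈ K, X k j) ^ (1 / (n : ℝ))) * ∏ j, (X k j / ∑ k ∈ K, X k j) ^ (1 / (n : ℝ)) :=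
            Finset.prod_mul_distrib
        _ ≤ _ := mul_le_mul_of_nonneg_left this hP0
    calc ∑ k ∈ K, ∏ j, (X k j) ^ (1 / (n : ℝ))
        ≤ ∑ k ∈ K, (∏ j, (∑ k ∈ K, X k j) ^ (1 / (n : ℝ))) * ∑ j, (1 / (n : ℝ)) * (X k j / ∑ k ∈ K, X k j) :=
          Finset.sum_le_sum key
      _ = (∏ j, (∑ k ∈ K, X k j) ^ (1 / (n : ℝ))) * ∑ j : Fin n, (1 / (n : ℝ)) := by
          rw [← Finset.mul_sum, Finset.sum_comm]
          congr 1
          refine Finset.sum_congr rfl fun j _ => ?_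
          rw [← Finset.mul_sum, ← Finset.sum_div, div_self (hSpos j).ne', mul_one]
      _ = ∏ j, (∑ k ∈ K, X k j) ^ (1 / (n : ℝ)) := by
          rw [Finset.sum_const, Finset.card_univ, Fintype.card_fin, nsmul_eq_mul]
          field_simp

theorem key_pow2 (x : ℝ) (hx : 1 ≤ x) : ∃ m : ℕ, x ≤ 2 ^ m ∧ (2:ℝ) ^ m ≤ 2 * x := by
  obtain ⟨k, h1, h2⟩ := exists_nat_pow_near hx (by norm_num : (1:ℝ) < 2)
  exact ⟨k + 1, h2.le, by rw [pow_succ]; linarith⟩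

theorem key_deg (n : ℕ) (hn : 1 ≤ n) (S : ℕ) :
    ∃ D : ℕ, 3 ^ n * S < (D + 1) ^ n ∧ (D : ℝ) ≤ 3 * (S : ℝ) ^ (1 / (n : ℝ)) := by
  have hn0 : (n : ℝ) ≠ 0 := by positivity
  have hS : (0:ℝ) ≤ S := Nat.cast_nonneg _
  obtain ⟨y, hy⟩ : ∃ y : ℝ, y = 3 * (S : ℝ) ^ (1 / (n : ℝ)) := ⟨_, rfl⟩
  have hx : 0 ≤ y := by rw [hy]; positivity
  have hyn : y ^ n = 3 ^ n * S := by
    rw [hy, mul_pow, ← Real.rpow_natCast (_ ^ _), ← Real.rpow_mul hS, one_div, inv_mul_cancel₀ hn0,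
      Real.rpow_one]
  rw [← hy]
  refine ⟨⌊y⌋₊, ?_, Nat.floor_le hx⟩
  have h1 := Nat.lt_floor_add_one y
  have h2 : y ^ n < ((⌊y⌋₊ : ℝ) + 1) ^ n := pow_lt_pow_left₀ h1 hx (by omega)
  rw [hyn] at h2
  exact_mod_cast h2

theorem key_small (M : ℝ) (hM : 0 ≤ M) : ∃ s : ℝ, 0 < s ∧ s ≤ 1 ∧ M * s ≤ 1 / 2 := by
  refine ⟨1 / (2 * (M + 1)), by positivity, ?_, ?_⟩
  · rw [div_le_one (by positivity)]; linarith
  · rw [mul_one_div, div_le_iff₀ (by positivity)]; linarith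

theorem key_pow (n : ℕ) (hn : 2 ≤ n) (p : Fin n → ℝ) (hp : ∀ j, 0 < p j) :
    (∏ j, p j ^ (1 / ((n:ℝ) - 1))) * ∏ j, p j = (∏ j, p j ^ (1 / ((n:ℝ) - 1))) ^ n := by
  rw [← Finset.prod_mul_distrib, ← Finset.prod_pow]
  apply Finset.prod_congr rfl
  intro j _
  have hn1 : (n:ℝ) - 1 ≠ 0 := by
    have : (2:ℝ) ≤ n := by exact_mod_cast hn
    intro h; linarith
  have h1 : p j ^ (1 / ((n:ℝ) - 1)) * p j = p j ^ (1 / ((n:ℝ) - 1) + 1) := by
    rw [Real.rpow_add (hp j), Real.rpow_one]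
  rw [h1, ← Real.rpow_natCast, ← Real.rpow_mul (hp j).le]
  congr 1
  field_simp
  ring

theorem key_root (n : ℕ) (hn : 1 ≤ n) (c g : ℝ) (hc : 0 ≤ c) (hg : 0 ≤ g) :
    (c * g ^ n) ^ (1 / (n : ℝ)) = c ^ (1 / (n : ℝ)) * g := by
  have hn0 : (n : ℝ) ≠ 0 := by positivity
  rw [Real.mul_rpow hc (by positivity), ← Real.rpow_natCast g, ← Real.rpow_mul hg, mul_one_div,
    div_self hn0, Real.rpow_one]

theorem key_const (n : ℕ) (hn : 1 ≤ n) (c : ℝ) (hc : 0 ≤ c) (S : Fin n → ℝ) (hS : ∀ j, 0 ≤ S j) :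
    ∏ j, (S j * c) ^ (1 / (n : ℝ)) = c * ∏ j, (S j) ^ (1 / (n : ℝ)) := by
  have hn0 : (n : ℝ) ≠ 0 := by positivity
  have h1 : ∀ j, (S j * c) ^ (1 / (n : ℝ)) = (S j) ^ (1 / (n : ℝ)) * c ^ (1 / (n : ℝ)) :=
    fun j => Real.mul_rpow (hS j) hc
  simp only [h1]
  rw [Finset.prod_mul_distrib, Finset.prod_const, Finset.card_univ, Fintype.card_fin,
    ← Real.rpow_natCast, ← Real.rpow_mul hc, one_div, inv_mul_cancel₀ hn0, Real.rpow_one, mul_comm]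

/-- **LEAF L-MK-KEY: the main inequality at a fixed height `Λ`.**
PLAN.  `G k = ∏_j (Fk ..)^{1/(n-1)}`, `Γ = ∑_K G`.   `m k = ⌈logb 2 (Λ G k)⌉₊`: `Λ G k ≤ 2^(m k) ≤ 2 Λ G k`.   `D = ⌊3 (∑_K 2^(m k))^{1/n}⌋₊`: `3^n ∑ 2^m < (D+1)^n`, `D ≤ 3 (2 Λ Γ)^{1/n}`.   `s > 0` so small that `hsmall` of `vis` holds
(`s = min 1 (1 / (8 (16/3)^n * (n * (∑_j #(A j) + 1)) * (n D + 1) * 12^(n-1)))` or `exists` by continuity at `0`).
`vis` with `κ = ↥K`, `z k = ctr k`, `I k j = (A j).filter (hit · k)`, `μ k j x = w x / Fk (A j) .. k`.   For `k ∈ K`: `cvis n * Λ * G k * ∏_j Fk_j ≤ ∏_j X k j`, `X k j = ∑_{x ∈ I k j} w x * (om../s + 1) = Fk_j * (Wf + 1)`;  `G k * ∏_j Fk_j = (G k)^n`.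
Take `n`-th roots, sum over `k`, `holder_n`.   `∑_k X k j = ∑_{x ∈ A j} w x ∑_{k ∈ K, hit x k} (om../s + 1) ≤ (∑_{A j} w) (7^n (n D) 20^(n-1) + #K)` (`Finset.sum_comm`, `tube_sum_le`). -/
theorem mk_key {n : ℕ} (hn : 2 ≤ n) {α : Type*} (A : Fin n → Finset α) (a v : α → Fin n → ℝ) (w : α → ℝ)
    (hw : ∀ x, 0 ≤ w x) (hv : ∀ j, ∀ x ∈ A j, v x j = 1 ∧ ∀ i, i ≠ j → |v x i| ≤ 1 / (4 * n))
    (K : Finset (Fin n → ℤ)) (hK : ∀ k ∈ K, ∀ j, 0 < Fk (A j) a v w k) (Λ : ℝ)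
    (hΛ : ∀ k ∈ K, 1 ≤ Λ * ∏ j, (Fk (A j) a v w k) ^ (1 / ((n : ℝ) - 1))) :
    (cvis n * Λ) ^ (1 / (n : ℝ)) * ∑ k ∈ K, ∏ j, (Fk (A j) a v w k) ^ (1 / ((n : ℝ) - 1)) ≤
      (7 ^ n * (n * 20 ^ (n - 1)) * (3 * (2 * Λ * ∑ k ∈ K, ∏ j, (Fk (A j) a v w k) ^ (1 / ((n : ℝ) - 1))) ^ (1 / (n : ℝ)))
        + K.card) * ∏ j, (∑ x ∈ A j, w x) ^ (1 / (n : ℝ)) := by
  classical
  have hn1 : 1 ≤ n := by omega
  have hn0 : (n:ℝ) ≠ 0 := by positivity
  obtain ⟨G, hG⟩ : ∃ G : (Fin n → ℤ) → ℝ,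
      G = fun k => ∏ j, (Fk (A j) a v w k) ^ (1 / ((n : ℝ) - 1)) := ⟨_, rfl⟩
  have hGk : ∀ k, ∏ j, (Fk (A j) a v w k) ^ (1 / ((n : ℝ) - 1)) = G k := fun k => by rw [hG]
  simp only [hGk] at hΛ ⊢
  have hGpos : ∀ k ∈ K, 0 < G k := by
    intro k hk
    rw [← hGk]
    exact Finset.prod_pos fun j _ => Real.rpow_pos_of_pos (hK k hk j) _
  have hm : ∀ k, ∃ m : ℕ, k ∈ K → (Λ * G k ≤ 2 ^ m ∧ (2:ℝ) ^ m ≤ 2 * (Λ * G k)) := by
    intro k
    by_cases hk : k ∈ K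
    · obtain ⟨m, h1, h2⟩ := key_pow2 _ (hΛ k hk)
      exact ⟨m, fun _ => ⟨h1, h2⟩⟩
    · exact ⟨0, fun h => absurd h hk⟩
  choose m hm using hm
  obtain ⟨D, hD1, hD2⟩ := key_deg n hn1 (∑ k ∈ K, 2 ^ m k)
  have hS : ((∑ k ∈ K, 2 ^ m k : ℕ) : ℝ) ≤ 2 * Λ * ∑ k ∈ K, G k := by
    push_cast
    rw [Finset.mul_sum]
    apply Finset.sum_le_sum
    intro k hk
    have := (hm k hk).2
    linarith
  have hD3 : (D:ℝ) ≤ 3 * (2 * Λ * ∑ k ∈ K, G k) ^ (1 / (n:ℝ)) := by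
    refine hD2.trans ?_
    have := Real.rpow_le_rpow (Nat.cast_nonneg _) hS (by positivity : 0 ≤ 1 / (n:ℝ))
    linarith
  obtain ⟨s, hs, hs1, hsm⟩ := key_small
    (4 * (16 / 3 : ℝ) ^ n * ∑ j, ((A j).card * (((n * D : ℕ) : ℝ) * 12 ^ (n - 1))))
    (mul_nonneg (by positivity) (Finset.sum_nonneg fun j _ => by positivity))
  have hFk : ∀ k j, ∑ x ∈ (A j).filter (fun x => hit (a x) (v x) k), w x = Fk (A j) a v w k := by
    intro k j
    rw [Finset.sum_filter]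
    unfold Fk
    apply Finset.sum_congr rfl
    intro x _
    congr
  have e1 : ∀ (k : ↥K) j, ∀ i ∈ (A j).filter (fun x => hit (a x) (v x) k.1), 0 ≤ w i / Fk (A j) a v w k.1 :=
    fun k j i _ => div_nonneg (hw i) (hK k.1 k.2 j).le
  have e2 : ∀ (k : ↥K) j, ∑ i ∈ (A j).filter (fun x => hit (a x) (v x) k.1), w i / Fk (A j) a v w k.1 = 1 := by
    intro k j
    rw [← Finset.sum_div, hFk]
    exact div_self (hK k.1 k.2 j).ne'
  have e3 : ∀ (k : ↥K) j, ∀ i ∈ (A j).filter (fun x => hit (a x) (v x) k.1),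
      v i j = 1 ∧ ∀ l, l ≠ j → |v i l| ≤ 1 / (4 * n) :=
    fun k j i hi => hv j i (Finset.mem_filter.1 hi).1
  have e4 : 3 ^ n * ∑ k : ↥K, 2 ^ m k.1 < (D + 1) ^ n := by
    rw [Finset.sum_coe_sort K (fun k => 2 ^ m k)]
    exact hD1
  have e5 : ∀ k : ↥K, 4 * (16 / 3 : ℝ) ^ n * ∑ j, ((((A j).filter (fun x => hit (a x) (v x) k.1)).card : ℝ)
      * (((n * D : ℕ) : ℝ) * s * 12 ^ (n - 1))) ≤ 1 / 2 := by
    intro k
    have h6 : 4 * (16 / 3 : ℝ) ^ n * ∑ j, ((((A j).filter (fun x => hit (a x) (v x) k.1)).card : ℝ)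
        * (((n * D : ℕ) : ℝ) * s * 12 ^ (n - 1))) ≤
        4 * (16 / 3 : ℝ) ^ n * ∑ j, ((A j).card * (((n * D : ℕ) : ℝ) * 12 ^ (n - 1)) * s) := by
      apply mul_le_mul_of_nonneg_left _ (by positivity)
      apply Finset.sum_le_sum
      intro j _
      have hc : (((A j).filter (fun x => hit (a x) (v x) k.1)).card : ℝ) ≤ (A j).card := by
        exact_mod_cast Finset.card_filter_le _ _
      calc (((A j).filter (fun x => hit (a x) (v x) k.1)).card : ℝ) * (((n * D : ℕ) : ℝ) * s * 12 ^ (n - 1))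
          ≤ ((A j).card : ℝ) * (((n * D : ℕ) : ℝ) * s * 12 ^ (n - 1)) :=
            mul_le_mul_of_nonneg_right hc (by positivity)
        _ = (A j).card * (((n * D : ℕ) : ℝ) * 12 ^ (n - 1)) * s := by ring
    have h7 : 4 * (16 / 3 : ℝ) ^ n * ∑ j, ((A j).card * (((n * D : ℕ) : ℝ) * 12 ^ (n - 1)) * s) =
        (4 * (16 / 3 : ℝ) ^ n * ∑ j, ((A j).card * (((n * D : ℕ) : ℝ) * 12 ^ (n - 1)))) * s := by
      rw [← Finset.sum_mul]
      ring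
    exact (h6.trans h7.le).trans hsm
  obtain ⟨f, hf, hvis⟩ := vis hn (κ := ↥K) (fun k => ctr k.1)
    (fun k j => (A j).filter fun x => hit (a x) (v x) k.1)
    (fun k j x => w x / Fk (A j) a v w k.1) v e1 e2 e3 (fun k => m k.1) D e4 s hs hs1 e5
  obtain ⟨X, hX⟩ : ∃ X : (Fin n → ℤ) → Fin n → ℝ, X = fun k j =>
      ∑ x ∈ (A j).filter (fun x => hit (a x) (v x) k),
        w x * ((om f (closedBall (ctr k) 3) (s • v x)).toReal / s + 1) := ⟨_, rfl⟩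
  have hX0 : ∀ k j, 0 ≤ X k j := by
    intro k j
    rw [hX]
    apply Finset.sum_nonneg
    intro x _
    exact mul_nonneg (hw x) (add_nonneg (div_nonneg ENNReal.toReal_nonneg hs.le) zero_le_one)
  have hXeq : ∀ k ∈ K, ∀ j, X k j = Fk (A j) a v w k *
      (Wf f (ctr k) s ((A j).filter fun x => hit (a x) (v x) k) (fun x => w x / Fk (A j) a v w k) v + 1) := by
    intro k hk j
    have hne := (hK k hk j).ne'
    rw [hX, mul_add, mul_one]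
    nth_rewrite 3 [← hFk]
    unfold Wf
    rw [Finset.mul_sum, ← Finset.sum_add_distrib]
    apply Finset.sum_congr rfl
    intro x _
    field_simp
  have hcv : 0 < cvis n := by
    unfold cvis
    positivity
  have hper : ∀ k ∈ K, (cvis n * Λ) ^ (1/(n:ℝ)) * G k ≤ ∏ j, (X k j) ^ (1/(n:ℝ)) := by
    intro k hk
    have hg := hGpos k hk
    have hΛ0 : 0 < Λ := by
      by_contra h
      push Not at h
      have := hΛ k hk
      nlinarith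
    have h1 := hvis ⟨k, hk⟩
    simp only at h1
    have hP : 0 < ∏ j, Fk (A j) a v w k := Finset.prod_pos fun j _ => hK k hk j
    have h2 : ∏ j, X k j = (∏ j, Fk (A j) a v w k) * ∏ j,
      (Wf f (ctr k) s ((A j).filter fun x => hit (a x) (v x) k) (fun x => w x / Fk (A j) a v w k) v + 1) := by
      rw [← Finset.prod_mul_distrib]
      exact Finset.prod_congr rfl fun j _ => hXeq k hk j
    have h3 : G k * ∏ j, Fk (A j) a v w k = G k ^ n := by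
      rw [← hGk]
      exact key_pow n hn _ (hK k hk)
    have h4 : cvis n * Λ * G k ^ n ≤ ∏ j, X k j := by
      rw [h2, ← h3]
      have h5 := (hm k hk).1
      calc cvis n * Λ * (G k * ∏ j, Fk (A j) a v w k)
          = (∏ j, Fk (A j) a v w k) * (cvis n * (Λ * G k)) := by ring
        _ ≤ (∏ j, Fk (A j) a v w k) * (cvis n * 2 ^ m k) := by gcongr
        _ ≤ _ := by gcongr
    rw [← key_root n hn1 _ _ (by positivity) hg.le, Real.finsetProd_rpow _ _ (fun j _ => hX0 k j)]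
    exact Real.rpow_le_rpow (by positivity) h4 (by positivity)
  obtain ⟨Cst, hCst⟩ : ∃ Cst : ℝ, Cst = 7 ^ n * (((n * D : ℕ) : ℝ) * 20 ^ (n - 1)) + K.card := ⟨_, rfl⟩
  have hCst0 : 0 ≤ Cst := by rw [hCst]; positivity
  have hsumX : ∀ j, ∑ k ∈ K, X k j ≤ (∑ x ∈ A j, w x) * Cst := by
    intro j
    rw [hX]
    simp only [Finset.sum_filter]
    rw [Finset.sum_comm, Finset.sum_mul]
    apply Finset.sum_le_sum
    intro x hx
    rw [← Finset.sum_filter, ← Finset.mul_sum]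
    apply mul_le_mul_of_nonneg_left _ (hw x)
    rw [Finset.sum_add_distrib, hCst]
    apply add_le_add
    · apply tube_sum_le hf j (a x) (v x) (hv j x hx).1 _ s hs
      · intro k hk
        exact (Finset.mem_filter.1 hk).2
      · intro i
        by_cases hij : i = j
        · rw [hij, (hv j x hx).1]; simp
        · refine ((hv j x hx).2 i hij).trans ?_
          rw [div_le_one (by positivity)]
          have : (1:ℝ) ≤ n := by exact_mod_cast hn1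
          linarith
    · simp only [Finset.sum_const, nsmul_eq_mul, mul_one]
      exact_mod_cast Finset.card_filter_le _ _
  have hw0 : ∀ j, 0 ≤ ∑ x ∈ A j, w x := fun j => Finset.sum_nonneg fun x _ => hw x
  calc (cvis n * Λ) ^ (1 / (n : ℝ)) * ∑ k ∈ K, G k
      = ∑ k ∈ K, (cvis n * Λ) ^ (1 / (n : ℝ)) * G k := by rw [Finset.mul_sum]
    _ ≤ ∑ k ∈ K, ∏ j, (X k j) ^ (1/(n:ℝ)) := Finset.sum_le_sum hper
    _ ≤ ∏ j, (∑ k ∈ K, X k j) ^ (1 / (n : ℝ)) := holder_n hn1 K X fun k _ j => hX0 k j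
    _ ≤ ∏ j, ((∑ x ∈ A j, w x) * Cst) ^ (1 / (n : ℝ)) := by
        apply Finset.prod_le_prod
        · intro j _
          exact Real.rpow_nonneg (Finset.sum_nonneg fun k _ => hX0 k j) _
        · intro j _
          exact Real.rpow_le_rpow (Finset.sum_nonneg fun k _ => hX0 k j) (hsumX j) (by positivity)
    _ = Cst * ∏ j, (∑ x ∈ A j, w x) ^ (1 / (n : ℝ)) := key_const n hn1 Cst hCst0 _ hw0
    _ ≤ _ := by
        apply mul_le_mul_of_nonneg_right _ (Finset.prod_nonneg fun j _ => Real.rpow_nonneg (hw0 j) _)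
        rw [hCst]
        apply add_le_add _ le_rfl
        push_cast
        calc (7:ℝ) ^ n * ((n:ℝ) * D * 20 ^ (n - 1)) = 7 ^ n * (n * 20 ^ (n - 1)) * D := by ring
          _ ≤ _ := by gcongr

/-- **LEAF L-MK-ALG.**  Divide by `Λ^{1/n}` and let `Λ → ∞` (or take `Λ ≥ max Λ₀ (card^n / Γ)`, then `card ≤ (Λ Γ)^{1/n}`): `c^{1/n} Γ ≤ (C + 1) Γ^{1/n} S`, so `Γ^{(n-1)/n} ≤ (C+1) c^{-1/n} S`; raise to the power `n/(n-1)`. -/
theorem alg_end {n : ℕ} (hn : 2 ≤ n) (Γ S c C card Λ₀ : ℝ) (hΓ : 0 < Γ) (hS : 0 ≤ S) (hc : 0 < c) (hC : 0 ≤ C)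
    (hcard : 0 ≤ card)
    (h : ∀ Λ : ℝ, Λ₀ ≤ Λ → (c * Λ) ^ (1 / (n : ℝ)) * Γ ≤ (C * (Λ * Γ) ^ (1 / (n : ℝ)) + card) * S) :
    Γ ≤ ((C + 1) / c ^ (1 / (n : ℝ))) ^ ((n : ℝ) / ((n : ℝ) - 1)) * S ^ ((n : ℝ) / ((n : ℝ) - 1)) := by
  have hn1 : (1 : ℝ) < n := by exact_mod_cast (by omega : 1 < n)
  have hn0 : (0 : ℝ) < n := by linarith
  have hnn : n ≠ 0 := by omega
  set p : ℝ := 1 / (n : ℝ) with hp
  have hp0 : 0 < p := by positivity
  set Λ : ℝ := max Λ₀ (card ^ n / Γ + 1) with hΛ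
  have hΛ1 : card ^ n / Γ + 1 ≤ Λ := le_max_right _ _
  have hΛpos : 0 < Λ := lt_of_lt_of_le (by positivity) hΛ1
  have h1 := h Λ (le_max_left _ _)
  have hcardle : card ≤ (Λ * Γ) ^ p := by
    have h2 : card ^ n ≤ Λ * Γ := by
      have h3 : (card ^ n / Γ + 1) * Γ ≤ Λ * Γ := mul_le_mul_of_nonneg_right hΛ1 hΓ.le
      have e : (card ^ n / Γ + 1) * Γ = card ^ n + Γ := by field_simp
      linarith
    calc card = (card ^ n) ^ p := by rw [hp, one_div, Real.pow_rpow_inv_natCast hcard hnn]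
      _ ≤ (Λ * Γ) ^ p := Real.rpow_le_rpow (by positivity) h2 hp0.le
  have hLp : 0 < Λ ^ p := Real.rpow_pos_of_pos hΛpos _
  have hGp : 0 < Γ ^ p := Real.rpow_pos_of_pos hΓ _
  have hcp : 0 < c ^ p := Real.rpow_pos_of_pos hc _
  have h2 : c ^ p * Λ ^ p * Γ ≤ (C + 1) * (Λ ^ p * Γ ^ p) * S := by
    rw [← Real.mul_rpow hc.le hΛpos.le, ← Real.mul_rpow hΛpos.le hΓ.le]
    refine h1.trans (mul_le_mul_of_nonneg_right ?_ hS)
    linarith
  have h3 : c ^ p * Γ ≤ (C + 1) * Γ ^ p * S := by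
    have : Λ ^ p * (c ^ p * Γ) ≤ Λ ^ p * ((C + 1) * Γ ^ p * S) := by
      calc Λ ^ p * (c ^ p * Γ) = c ^ p * Λ ^ p * Γ := by ring
        _ ≤ (C + 1) * (Λ ^ p * Γ ^ p) * S := h2
        _ = _ := by ring
    exact le_of_mul_le_mul_left this hLp
  have h4 : Γ ^ (1 - p) ≤ (C + 1) / c ^ p * S := by
    rw [Real.rpow_sub hΓ, Real.rpow_one, div_le_iff₀ hGp, div_mul_eq_mul_div, div_mul_eq_mul_div, le_div_iff₀ hcp]
    calc Γ * c ^ p = c ^ p * Γ := by ring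
      _ ≤ (C + 1) * Γ ^ p * S := h3
      _ = _ := by ring
  have hq0 : 0 < (n : ℝ) / ((n : ℝ) - 1) := div_pos hn0 (by linarith)
  have hB0 : 0 ≤ (C + 1) / c ^ p := by positivity
  have h5 : (Γ ^ (1 - p)) ^ ((n : ℝ) / ((n : ℝ) - 1)) ≤ ((C + 1) / c ^ p * S) ^ ((n : ℝ) / ((n : ℝ) - 1)) :=
    Real.rpow_le_rpow (Real.rpow_nonneg hΓ.le _) h4 hq0.le
  rw [← Real.rpow_mul hΓ.le, Real.mul_rpow hB0 hS] at h5
  have e : (1 - p) * ((n : ℝ) / ((n : ℝ) - 1)) = 1 := by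
    rw [hp]
    have : (n : ℝ) - 1 ≠ 0 := by linarith
    field_simp
  rwa [e, Real.rpow_one] at h5

/-- the constant of `mk_core` -/
noncomputable def cmk (n : ℕ) : ℝ :=
  ((7 ^ n * (n * 20 ^ (n - 1)) * 3 * 2 + 1) / (cvis n) ^ (1 / (n : ℝ))) ^ ((n : ℝ) / ((n : ℝ) - 1))

/-- `Fk ≥ 0` -/
theorem core_Fk_nonneg {n : ℕ} {α : Type*} (A : Finset α) (a v : α → Fin n → ℝ) (w : α → ℝ) (hw : ∀ x, 0 ≤ w x)
    (k : Fin n → ℤ) : 0 ≤ Fk A a v w k := by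
  classical
  unfold Fk
  refine Finset.sum_nonneg fun x _ => ?_
  split_ifs
  · exact hw x
  · exact le_rfl

/-- `cvis n > 0` -/
theorem core_cvis_pos {n : ℕ} (hn : 2 ≤ n) : 0 < cvis n := by
  have hn0 : (0 : ℝ) < n := by
    have : 0 < n := by omega
    exact_mod_cast this
  unfold cvis
  positivity

/-- **LEAF L-MK-CORE: ENDPOINT MULTILINEAR KAKEYA, core form.**
PLAN.  `K' = K.filter (∀ j, 0 < Fk ..)`: the other terms vanish (`Real.zero_rpow`, `Fk ≥ 0`).   `K' = ∅`: trivial.   Otherwise `Γ > 0`, `mk_key` for `Λ ≥ Λ₀ := max over K' of 1/G k`, `alg_end` with `S = ∏_j (∑ w)^{1/n}`, `c = cvis n`,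
`C = 7^n n 20^(n-1) 3 * 2` (`(2 Λ Γ)^{1/n} ≤ 2 (Λ Γ)^{1/n}`);  `S^{n/(n-1)} = ∏_j (∑ w)^{1/(n-1)}` (`Real.finset_prod_rpow`, `Real.rpow_mul`). -/
theorem mk_core {n : ℕ} (hn : 2 ≤ n) {α : Type*} (A : Fin n → Finset α) (a v : α → Fin n → ℝ) (w : α → ℝ)
    (hw : ∀ x, 0 ≤ w x) (hv : ∀ j, ∀ x ∈ A j, v x j = 1 ∧ ∀ i, i ≠ j → |v x i| ≤ 1 / (4 * n))
    (K : Finset (Fin n → ℤ)) :
    ∑ k ∈ K, ∏ j, (Fk (A j) a v w k) ^ (1 / ((n : ℝ) - 1)) ≤ cmk n * ∏ j, (∑ x ∈ A j, w x) ^ (1 / ((n : ℝ) - 1)) := by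
  classical
  have hn2 : (2 : ℝ) ≤ n := by exact_mod_cast hn
  have hn0 : (0 : ℝ) < n := by linarith
  have hn1 : (0 : ℝ) < (n : ℝ) - 1 := by linarith
  have hF0 : ∀ j k, 0 ≤ Fk (A j) a v w k := fun j k => core_Fk_nonneg _ _ _ _ hw k
  have hS0 : ∀ j, 0 ≤ ∑ x ∈ A j, w x := fun j => Finset.sum_nonneg fun x _ => hw x
  have hcv : 0 < cvis n := core_cvis_pos hn
  have hcmk : 0 ≤ cmk n := by
    unfold cmk
    positivity
  obtain ⟨G, hG⟩ : ∃ G : (Fin n → ℤ) → ℝ, ∀ k, G k = ∏ j, (Fk (A j) a v w k) ^ (1 / ((n : ℝ) - 1)) := ⟨_, fun _ => rfl⟩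
  have hG0 : ∀ k, 0 ≤ G k := fun k => by
    rw [hG]
    exact Finset.prod_nonneg fun j _ => Real.rpow_nonneg (hF0 j k) _
  obtain ⟨K', hK'⟩ : ∃ K' : Finset (Fin n → ℤ), K' = K.filter (fun k => ∀ j, 0 < Fk (A j) a v w k) := ⟨_, rfl⟩
  have hmem : ∀ k ∈ K', ∀ j, 0 < Fk (A j) a v w k := fun k hk => by
    rw [hK'] at hk
    exact (Finset.mem_filter.1 hk).2
  have hsum : ∑ k ∈ K, G k = ∑ k ∈ K', G k := by
    rw [hK', Finset.sum_filter]
    refine Finset.sum_congr rfl fun k _ => ?_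
    split_ifs with h
    · rfl
    · push Not at h
      obtain ⟨j, hj⟩ := h
      have h0 : Fk (A j) a v w k = 0 := le_antisymm hj (hF0 j k)
      rw [hG]
      exact Finset.prod_eq_zero (Finset.mem_univ j) (by rw [h0, Real.zero_rpow (by positivity)])
  simp only [← hG]
  rw [hsum]
  rcases K'.eq_empty_or_nonempty with hE | hNE
  · rw [hE, Finset.sum_empty]
    exact mul_nonneg hcmk (Finset.prod_nonneg fun j _ => Real.rpow_nonneg (hS0 j) _)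
  have hGpos : ∀ k ∈ K', 0 < G k := fun k hk => by
    rw [hG]
    exact Finset.prod_pos fun j _ => Real.rpow_pos_of_pos (hmem k hk j) _
  have hΓ : 0 < ∑ k ∈ K', G k := Finset.sum_pos hGpos hNE
  have hS : 0 ≤ ∏ j, (∑ x ∈ A j, w x) ^ (1 / (n : ℝ)) :=
    Finset.prod_nonneg fun j _ => Real.rpow_nonneg (hS0 j) _
  have key := alg_end hn (∑ k ∈ K', G k) (∏ j, (∑ x ∈ A j, w x) ^ (1 / (n : ℝ))) (cvis n)
    (7 ^ n * (n * 20 ^ (n - 1)) * 3 * 2) K'.card (∑ k ∈ K', 1 / G k) hΓ hS hcv (by positivity) (by positivity) ?_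
  · refine key.trans (le_of_eq ?_)
    have e1 : (∏ j, (∑ x ∈ A j, w x) ^ (1 / (n : ℝ))) ^ ((n : ℝ) / ((n : ℝ) - 1)) =
        ∏ j, (∑ x ∈ A j, w x) ^ (1 / ((n : ℝ) - 1)) := by
      rw [← Real.finsetProd_rpow _ _ (fun j _ => Real.rpow_nonneg (hS0 j) _)]
      refine Finset.prod_congr rfl fun j _ => ?_
      rw [← Real.rpow_mul (hS0 j)]
      congr 1
      field_simp
    rw [e1]
    rfl
  · intro Λ hΛ
    have hΛ1 : ∀ k ∈ K', 1 ≤ Λ * G k := fun k hk => by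
      have h1 : 1 / G k ≤ ∑ k ∈ K', 1 / G k :=
        Finset.single_le_sum (f := fun k => 1 / G k) (fun i hi => (one_div_pos.2 (hGpos i hi)).le) hk
      have h2 : 1 / G k ≤ Λ := h1.trans hΛ
      rwa [div_le_iff₀ (hGpos k hk)] at h2
    have hΛ0 : 0 ≤ Λ := le_trans (Finset.sum_nonneg fun i hi => (one_div_pos.2 (hGpos i hi)).le) hΛ
    have hk := mk_key hn A a v w hw hv K' hmem Λ (fun k hk => by rw [← hG]; exact hΛ1 k hk)
    simp only [← hG] at hk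
    refine hk.trans ?_
    refine mul_le_mul_of_nonneg_right ?_ hS
    have h2 : (2 * Λ * ∑ k ∈ K', G k) ^ (1 / (n : ℝ)) ≤ 2 * (Λ * ∑ k ∈ K', G k) ^ (1 / (n : ℝ)) := by
      rw [mul_assoc, Real.mul_rpow (by norm_num) (mul_nonneg hΛ0 hΓ.le)]
      refine mul_le_mul_of_nonneg_right ?_ (Real.rpow_nonneg (mul_nonneg hΛ0 hΓ.le) _)
      calc (2 : ℝ) ^ (1 / (n : ℝ)) ≤ (2 : ℝ) ^ (1 : ℝ) := by
            refine Real.rpow_le_rpow_of_exponent_le (by norm_num) ?_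
            rw [div_le_one hn0]
            linarith
        _ = 2 := Real.rpow_one 2
    have h3 : (0 : ℝ) ≤ 7 ^ n * (n * 20 ^ (n - 1)) := by positivity
    calc 7 ^ n * (n * 20 ^ (n - 1)) * (3 * (2 * Λ * ∑ k ∈ K', G k) ^ (1 / (n : ℝ))) + (K'.card : ℝ)
        ≤ 7 ^ n * (n * 20 ^ (n - 1)) * (3 * (2 * (Λ * ∑ k ∈ K', G k) ^ (1 / (n : ℝ)))) + (K'.card : ℝ) := by
          gcongr
      _ = 7 ^ n * (n * 20 ^ (n - 1)) * 3 * 2 * (Λ * ∑ k ∈ K', G k) ^ (1 / (n : ℝ)) + (K'.card : ℝ) := by ring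

end Claimed.Agent.MK
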