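import Mathlib

/-!
# Lib/MK: the ENDPOINT multilinear Kakeya theorem (Guth 2010), elementary proof            (architect helper13)
File 1: definitions.  PAPER-FREE.  Plan of the whole proof: report 856 (`select body from report where id=856`).

`X = Fin n → ℝ` with the sup norm and Lebesgue measure.
* `dis f R h` : points `x ∈ R` where `sign (f (x + h)) ≠ sign (f x)`;   `om f R h = volume (dis f R h)`.
  `om f R (s • v) / s` for ONE fixed tiny `s` plays the role of the directed volume of `Z(f) ∩ R` in the direction `v`.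
* `Tame n D f` : all we use of a nonzero polynomial of degree `≤ D`.
* `box α ℓ` half-open box, `tube a v r` sup-norm neighbourhood of the full line `a + ℝ v`.
-/

set_option autoImplicit false
open MeasureTheory Set
open scoped ENNReal BigOperators

namespace Claimed.Agent.MK

/-- points of `R` where the sign of `f` changes under the translation by `h` -/
def dis {n : ℕ} (f : (Fin n → ℝ) → ℝ) (R : Set (Fin n → ℝ)) (h : Fin n → ℝ) : Set (Fin n → ℝ) :=
  {x | x ∈ R ∧ Real.sign (f (x + h)) ≠ Real.sign (f x)}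

/-- the volume of `dis f R h` -/
noncomputable def om {n : ℕ} (f : (Fin n → ℝ) → ℝ) (R : Set (Fin n → ℝ)) (h : Fin n → ℝ) : ℝ≥0∞ :=
  volume (dis f R h)

/-- what we use of a nonzero polynomial of (total) degree `≤ D` -/
structure Tame (n D : ℕ) (f : (Fin n → ℝ) → ℝ) : Prop where
  cont : Continuous f
  null : volume {x | f x = 0} = 0
  line : ∀ a v : Fin n → ℝ, (∀ t : ℝ, f (a + t • v) = 0) ∨
    ∃ Z : Finset ℝ, Z.card ≤ D ∧ ∀ t : ℝ, f (a + t • v) = 0 → t ∈ Z

/-- half-open box with corner `α` and sides `ℓ` -/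
def box {n : ℕ} (α ℓ : Fin n → ℝ) : Set (Fin n → ℝ) := {x | ∀ i, α i ≤ x i ∧ x i < α i + ℓ i}

/-- closed `r`-neighbourhood (sup norm) of the full line `a + ℝ v` -/
def tube {n : ℕ} (a v : Fin n → ℝ) (r : ℝ) : Set (Fin n → ℝ) := {x | ∃ t : ℝ, ‖x - a - t • v‖ ≤ r}

/-- the dyadic box of shape `a` and index `b` in the unit cube -/
def dbox {n : ℕ} (a : Fin n → ℕ) (b : ∀ j, Fin (2 ^ a j)) : Set (Fin n → ℝ) :=
  box (fun j => ((b j : ℕ) : ℝ) / 2 ^ a j) (fun j => 1 / 2 ^ a j)

end Claimed.Agent.MK
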