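import Claimed.Agent.Lib.MK.Graph

/-!
# Lib/MK, file 12: `mk_graph` WITH THE EXPLICIT EXPONENT `M = (k+1)((k+1)² + (k+1))` OF THE TRANSVERSALITY LOSS            (helper162; clone of `mkg_main`, `mk_graph` of helper13's file 11)
PAPER-FREE, no sorry.   Needed by consumers for which the bound `B` of the velocities is chosen AFTER the exponent (row 257, FR3/INFL).
`mk_graph_exp` has `k` as a free variable with `finrank V = k`: no cast of `Fin (finrank V + 1)` is left to the consumer.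
-/

set_option autoImplicit false
open MeasureTheory Set Metric
open scoped ENNReal BigOperators
open Claimed.Agent.R252

namespace Claimed.Agent.MK

theorem mkg_main_exp.{u, v} (V : Type v) [NormedAddCommGroup V] [InnerProductSpace ℝ V] [FiniteDimensional ℝ V] [MeasurableSpace V] [BorelSpace V]
    (k : ℕ) (hk : 1 ≤ k) (Φ : (V × ℝ) ≃L[ℝ] (Fin (k + 1) → ℝ)) (hΦ : MeasurePreserving Φ volume volume)
    (hΦ1 : ∀ z i, |Φ z i| ≤ ‖z‖) (hΦ2 : ∀ z, ‖z.1‖ + |z.2| ≤ ∑ i, |Φ z i|)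
    (B : ℝ) (hB : 0 ≤ B) : ∃ C : ℝ, 0 < C ∧ ∀ (h Q : ℝ), 0 < h → 1 ≤ Q →
    ∀ (ι : Type u) (s : Fin (k + 1) → Finset ι) (v : Fin (k + 1) → ι → V)
      (μ : Fin (k + 1) → ι → Measure V),
    (∀ i, ∀ j ∈ s i, ‖v i j‖ ≤ B) →
    (∀ j : Fin (k + 1) → ι, (∀ i, j i ∈ s i) → ∀ t : Fin (k + 1) → ℝ,
      ∑ i, |t i| ≤ Q * (‖∑ i, t i • v i (j i)‖ + |∑ i, t i|)) →
    ∫⁻ z : V × ℝ, ∏ i, (∑ j ∈ s i, μ i j (closedBall (z.1 + (2 * z.2) • v i j) h)) ^ (1 / (k : ℝ))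
      ≤ ENNReal.ofReal (C * Q ^ ((k + 1) * ((k + 1) ^ 2 + (k + 1))) * h ^ (k + 1)) * ∏ i, (∑ j ∈ s i, μ i j univ) ^ (1 / (k : ℝ)) := by
  obtain ⟨C0, hC0, H⟩ := mke_meas.{u} (k + 1) (by omega)
  set b : ℝ := 2 * B + 1 with hb
  have hb1 : 1 ≤ b := by rw [hb]; linarith
  have hb0 : 0 < b := by linarith
  refine ⟨C0 * (((k + 1).factorial : ℝ) * b ^ (k + 1)) ^ ((k + 1) ^ 2 + (k + 1)), by positivity, ?_⟩
  intro h Q hh hQ ι s v μ hv ht
  have hQ0 : 0 < Q := by linarith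
  set θ : ℝ := 1 / (((k + 1).factorial : ℝ) * (Q * b) ^ (k + 1)) with hθ
  have hden : 1 ≤ ((k + 1).factorial : ℝ) * (Q * b) ^ (k + 1) := by
    have h1 : (1 : ℝ) ≤ ((k + 1).factorial : ℝ) := by exact_mod_cast Nat.succ_le_of_lt (Nat.factorial_pos _)
    have h2 : (1 : ℝ) ≤ (Q * b) ^ (k + 1) := one_le_pow₀ (by nlinarith)
    nlinarith
  have hθ0 : 0 < θ := by rw [hθ]; positivity
  have hθ1 : θ ≤ 1 := by
    rw [hθ]
    exact (div_le_one (by linarith)).2 hden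
  have hcont : Continuous fun a : V => Φ (a, (0 : ℝ)) := Φ.continuous.comp (by fun_prop)
  have key := H h θ hh hθ0 hθ1 (Fin (k + 1) × ι) (fun i => (s i).map (Function.Embedding.sectR i ι))
    (fun a => b⁻¹ • Φ ((-2 : ℝ) • v a.1 a.2, 1)) (fun a => (μ a.1 a.2).map fun x => Φ (x, (0 : ℝ)))
    (by
      intro i a ha κ
      obtain ⟨j, hj, rfl⟩ := Finset.mem_map.1 ha
      simp only [Function.Embedding.sectR_apply, Pi.smul_apply, smul_eq_mul]
      rw [abs_mul, abs_of_pos (inv_pos.2 hb0), inv_mul_le_iff₀ hb0, mul_one]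
      refine (hΦ1 _ κ).trans ?_
      rw [Prod.norm_def]
      refine max_le ?_ ?_
      · simp only [norm_smul, norm_neg, Real.norm_ofNat]
        have := hv i j hj
        rw [hb]
        linarith
      · simpa using hb1)
    (by
      intro a ha
      rw [Fintype.mem_piFinset] at ha
      have h1 : ∀ i, ∃ j ∈ s i, a i = (i, j) := by
        intro i
        obtain ⟨j, hj, hj'⟩ := Finset.mem_map.1 (ha i)
        exact ⟨j, hj, hj'.symm⟩
      choose j hj hj' using h1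
      have h2 := mkg_det Φ hΦ2 b Q hb0 hQ0 (fun i => v i (j i)) (ht j hj)
      have h3 : (Matrix.of fun i => b⁻¹ • Φ ((-2 : ℝ) • v (a i).1 (a i).2, 1)) = Matrix.of fun i => b⁻¹ • Φ ((-2 : ℝ) • v i (j i), 1) := by
        congr 1
        funext i
        rw [hj' i]
      rw [h3]
      exact h2)
  have hexp : (1 : ℝ) / (((k + 1 : ℕ) : ℝ) - 1) = 1 / (k : ℝ) := by
    push_cast
    rw [add_sub_cancel_right]
  rw [hexp] at key
  simp only [Finset.sum_map, Function.Embedding.sectR_apply] at key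
  have hconst : C0 * (1 / θ) ^ ((k + 1) ^ 2 + (k + 1)) * h ^ (k + 1)
      = C0 * (((k + 1).factorial : ℝ) * b ^ (k + 1)) ^ ((k + 1) ^ 2 + (k + 1)) * Q ^ ((k + 1) * ((k + 1) ^ 2 + (k + 1))) * h ^ (k + 1) := by
    rw [hθ, one_div_one_div]
    generalize (k + 1) ^ 2 + (k + 1) = N
    generalize ((k + 1).factorial : ℝ) = F
    generalize k + 1 = m
    rw [mul_pow Q b, pow_mul Q, mul_pow, mul_pow, mul_pow]
    ring
  rw [hconst] at key
  have huniv : ∀ i j, ((μ i j).map fun x => Φ (x, (0 : ℝ))) univ = μ i j univ := by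
    intro i j
    rw [Measure.map_apply hcont.measurable MeasurableSet.univ, preimage_univ]
  simp only [huniv] at key
  refine le_trans ?_ key
  rw [← hΦ.lintegral_comp_emb Φ.toHomeomorph.measurableEmbedding]
  refine lintegral_mono fun z => ?_
  refine Finset.prod_le_prod' fun i _ => ?_
  refine ENNReal.rpow_le_rpow (Finset.sum_le_sum fun j _ => ?_) (by positivity)
  refine le_trans (measure_mono ?_) (Measure.le_map_apply hcont.aemeasurable _)
  intro a ha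
  exact mkg_tube Φ hΦ1 b hb0.ne' z (v i j) a h ha

/-- **endpoint multilinear Kakeya for graph tubes, measure form, explicit exponent.** -/
theorem mk_graph_exp.{u, v} (V : Type v) [NormedAddCommGroup V] [InnerProductSpace ℝ V] [FiniteDimensional ℝ V] [MeasurableSpace V] [BorelSpace V]
    (k : ℕ) (hfin : Module.finrank ℝ V = k) (hk : 1 ≤ k) (B : ℝ) (hB : 0 ≤ B) : ∃ C : ℝ, 0 < C ∧ ∀ (h Q : ℝ), 0 < h → 1 ≤ Q →
    ∀ (ι : Type u) (s : Fin (k + 1) → Finset ι) (v : Fin (k + 1) → ι → V) (μ : Fin (k + 1) → ι → Measure V),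
    (∀ i, ∀ j ∈ s i, ‖v i j‖ ≤ B) →
    (∀ j : Fin (k + 1) → ι, (∀ i, j i ∈ s i) → ∀ t : Fin (k + 1) → ℝ,
      ∑ i, |t i| ≤ Q * (‖∑ i, t i • v i (j i)‖ + |∑ i, t i|)) →
    ∫⁻ z : V × ℝ, ∏ i, (∑ j ∈ s i, μ i j (closedBall (z.1 + (2 * z.2) • v i j) h)) ^ (1 / (k : ℝ))
      ≤ ENNReal.ofReal (C * Q ^ ((k + 1) * ((k + 1) ^ 2 + (k + 1))) * h ^ (k + 1)) * ∏ i, (∑ j ∈ s i, μ i j univ) ^ (1 / (k : ℝ)) := by
  subst hfin
  obtain ⟨Φ, hΦ, hΦ1, hΦ2⟩ := exists_gcoord V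
  exact mkg_main_exp.{u, v} V (Module.finrank ℝ V) hk Φ hΦ hΦ1 hΦ2 B hB

end Claimed.Agent.MK
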