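import Claimed.Agent.Lib.MK.Om

/-!
# Lib/MK, file 3: root count on lines = the cylinder estimate (unit U5), affine changes of variables (U7)            (architect helper13)            CONTRACT
PAPER-FREE, Mathlib only.  Every `sorry` is a leaf `L-MK-*`.  Statements are frozen; auxiliary lemmas directly above your theorem; edit only your block.
-/

set_option autoImplicit false
open MeasureTheory Set Metric
open scoped ENNReal BigOperators

namespace Claimed.Agent.MK

/-- **LEAF L-MK-ROOT1 (one variable).**  `q : ℝ → ℝ` continuous, identically `0` or with all zeros in a finset of `≤ D` points.   If `sign (q (t+ρ)) ≠ sign (q t)` then `q` has a zero in `[t, t+ρ]`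
(one of the two values is `0`, or they have opposite strict signs: `intermediate_value_Icc`/`intermediate_value_Icc'`), so `t ∈ ⋃_{r ∈ Z} Icc (r-ρ) r`; `measure_biUnion_finset_le`, `Real.volume_Icc`. -/
theorem root_count_one (q : ℝ → ℝ) (hq : Continuous q) (D : ℕ)
    (hZ : (∀ t, q t = 0) ∨ ∃ Z : Finset ℝ, Z.card ≤ D ∧ ∀ t, q t = 0 → t ∈ Z) (ρ : ℝ) (hρ : 0 ≤ ρ) :
    volume {t : ℝ | Real.sign (q (t + ρ)) ≠ Real.sign (q t)} ≤ ENNReal.ofReal (D * ρ) := by
  rcases hZ with h0 | ⟨Z, hcard, hZ⟩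
  · have : {t : ℝ | Real.sign (q (t + ρ)) ≠ Real.sign (q t)} = ∅ := by
      ext t
      simp [h0]
    rw [this, measure_empty]
    exact zero_le
  · have hsub : {t : ℝ | Real.sign (q (t + ρ)) ≠ Real.sign (q t)} ⊆ ⋃ r ∈ Z, Icc (r - ρ) r := by
      intro t ht
      have hle : t ≤ t + ρ := by linarith
      have hex : ∃ s ∈ Icc t (t + ρ), q s = 0 := by
        rcases lt_trichotomy (q t) 0 with h1 | h1 | h1
        · rcases lt_trichotomy (q (t + ρ)) 0 with h2 | h2 | h2
          · exact absurd (by rw [Real.sign_of_neg h1, Real.sign_of_neg h2]) ht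
          · exact ⟨t + ρ, ⟨hle, le_rfl⟩, h2⟩
          · obtain ⟨s, hs, hs0⟩ := intermediate_value_Icc hle hq.continuousOn ⟨h1.le, h2.le⟩
            exact ⟨s, hs, hs0⟩
        · exact ⟨t, ⟨le_rfl, hle⟩, h1⟩
        · rcases lt_trichotomy (q (t + ρ)) 0 with h2 | h2 | h2
          · obtain ⟨s, hs, hs0⟩ := intermediate_value_Icc' hle hq.continuousOn ⟨h2.le, h1.le⟩
            exact ⟨s, hs, hs0⟩
          · exact ⟨t + ρ, ⟨hle, le_rfl⟩, h2⟩
          · exact absurd (by rw [Real.sign_of_pos h1, Real.sign_of_pos h2]) ht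
      obtain ⟨s, hs, hs0⟩ := hex
      refine mem_iUnion₂.2 ⟨s, hZ s hs0, ?_, hs.1⟩
      linarith [hs.2]
    calc volume {t : ℝ | Real.sign (q (t + ρ)) ≠ Real.sign (q t)}
        ≤ volume (⋃ r ∈ Z, Icc (r - ρ) r) := measure_mono hsub
      _ ≤ ∑ r ∈ Z, volume (Icc (r - ρ) r) := measure_biUnion_finset_le _ _
      _ = ∑ _r ∈ Z, ENNReal.ofReal ρ := by
          refine Finset.sum_congr rfl fun r _ => ?_
          rw [Real.volume_Icc]
          congr 1
          ring
      _ = ENNReal.ofReal (Z.card * ρ) := by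
          rw [Finset.sum_const, nsmul_eq_mul, ENNReal.ofReal_mul (Nat.cast_nonneg _), ENNReal.ofReal_natCast]
      _ ≤ ENNReal.ofReal (D * ρ) :=
          ENNReal.ofReal_le_ofReal (mul_le_mul_of_nonneg_right (by exact_mod_cast hcard) hρ)

/-- the cylinder around the `j`-th axis through `a` -/
theorem om_axis_cyl_meas {n : ℕ} (j : Fin n) (a : Fin n → ℝ) (r : ℝ) :
    MeasurableSet {x : Fin n → ℝ | ∀ i, i ≠ j → |x i - a i| ≤ r} := by
  rw [Set.ofPred_forall]
  refine MeasurableSet.iInter fun i => ?_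
  by_cases h : i = j
  · simp [h]
  · have : {x : Fin n → ℝ | i ≠ j → |x i - a i| ≤ r} = {x | |x i - a i| ≤ r} := by
      ext x
      simp [h]
    rw [this]
    exact (isClosed_le (by fun_prop) continuous_const).measurableSet

theorem om_axis_insert {m : ℕ} (j : Fin (m + 1)) (t : ℝ) (y : Fin m → ℝ) :
    (j.insertNth t y : Fin (m + 1) → ℝ) = j.insertNth 0 y + t • Pi.single j 1 := by
  ext i
  rcases Fin.eq_self_or_eq_succAbove j i with rfl | ⟨k, rfl⟩
  · simp
  · simp [Fin.succAbove_ne]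

theorem om_axis_slice {m D : ℕ} {f : (Fin (m + 1) → ℝ) → ℝ} (hf : Tame (m + 1) D f) (j : Fin (m + 1))
    (ρ : ℝ) (hρ : 0 ≤ ρ) (y : Fin m → ℝ) :
    volume {t : ℝ | Real.sign (f ((j.insertNth t y : Fin (m + 1) → ℝ) + Pi.single j ρ))
      ≠ Real.sign (f (j.insertNth t y))} ≤ ENNReal.ofReal (D * ρ) := by
  have h := root_count_one (fun t => f (j.insertNth 0 y + t • Pi.single j 1))
    (hf.cont.comp (by fun_prop)) D (hf.line _ _) ρ hρ
  refine le_trans (le_of_eq ?_) h
  congr 1
  ext t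
  simp only [Set.mem_ofPred_eq]
  rw [om_axis_insert j t y, add_smul, add_assoc]
  have : ρ • (Pi.single j 1 : Fin (m + 1) → ℝ) = Pi.single j ρ := by
    ext i
    by_cases hi : i = j
    · subst hi; simp
    · simp [hi]
  rw [this]

/-- **LEAF L-MK-ROOT2 (axis direction).**  `R` inside the cylinder `|x_i - a_i| ≤ r` (`i ≠ j`).   Fubini in the coordinate `j`: with `ν i = volume.restrict (Icc (a i - r) (a i + r))` (`i ≠ j`), `ν j = volume`,
`volume S = (Measure.pi ν) S` for `S` inside the cylinder (`Measure.restrict_pi_pi`/`volume_pi`), `lintegral_eq_lmarginal_univ`, `lmarginal_erase` (integrate `x_j` first: `root_count_one` for `t ↦ f (update x j t)`,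
`update x j (t + ρ) = update x j t + Pi.single j ρ`, `Tame.line` with `v = Pi.single j 1`), the remaining integral of a constant is `∏_{i ≠ j} 2 r`. -/
theorem om_axis_le {n D : ℕ} {f : (Fin n → ℝ) → ℝ} (hf : Tame n D f) (j : Fin n) (ρ : ℝ) (hρ : 0 ≤ ρ)
    (a : Fin n → ℝ) (r : ℝ) (hr : 0 ≤ r) (R : Set (Fin n → ℝ)) (hR : ∀ x ∈ R, ∀ i, i ≠ j → |x i - a i| ≤ r) :
    om f R (Pi.single j ρ) ≤ ENNReal.ofReal (D * ρ * (2 * r) ^ (n - 1)) := by
  obtain ⟨m, rfl⟩ : ∃ m, n = m + 1 := ⟨n - 1, by have := j.pos; omega⟩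
  refine (om_mono (R' := {x | ∀ i, i ≠ j → |x i - a i| ≤ r}) hR).trans ?_
  have hS : MeasurableSet (dis f {x | ∀ i, i ≠ j → |x i - a i| ≤ r} (Pi.single j ρ)) :=
    measurableSet_dis hf.cont.measurable (om_axis_cyl_meas j a r) _
  have mp := (volume_preserving_piFinSuccAbove (fun _ : Fin (m + 1) => ℝ) j).symm
  unfold om
  rw [← mp.measure_preimage hS.nullMeasurableSet, Measure.volume_eq_prod,
    Measure.prod_apply_symm (mp.measurable hS)]
  have hb : ∀ y : Fin m → ℝ,
      volume ((fun t : ℝ => (t, y)) ⁻¹' ((MeasurableEquiv.piFinSuccAbove (fun _ : Fin (m + 1) => ℝ) j).symm ⁻¹'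
        dis f {x | ∀ i, i ≠ j → |x i - a i| ≤ r} (Pi.single j ρ)))
      ≤ (closedBall (fun k => a (j.succAbove k)) r).indicator (fun _ => ENNReal.ofReal (D * ρ)) y := by
    intro y
    by_cases hy : y ∈ closedBall (fun k => a (j.succAbove k)) r
    · rw [Set.indicator_of_mem hy]
      refine (measure_mono ?_).trans (om_axis_slice hf j ρ hρ y)
      intro t ht
      exact ht.2
    · rw [Set.indicator_of_notMem hy]
      refine le_of_eq (measure_eq_zero_iff_ae_notMem.2 (ae_of_all _ fun t ht => hy ?_))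
      rw [mem_closedBall, dist_pi_le_iff hr]
      intro k
      have h1 : |(j.insertNth t y : Fin (m + 1) → ℝ) (j.succAbove k) - a (j.succAbove k)| ≤ r :=
        ht.1 (j.succAbove k) (Fin.succAbove_ne j k)
      rw [Fin.insertNth_apply_succAbove] at h1
      rw [Real.dist_eq]
      exact h1
  refine (lintegral_mono hb).trans ?_
  rw [lintegral_indicator_const measurableSet_closedBall, Real.volume_pi_closedBall _ hr,
    ← ENNReal.ofReal_mul (by positivity)]
  simp

/-- **LEAF L-MK-AFF (1).**  Continuity: composition; lines go to lines: `x0 + B (a + t • v) = (x0 + B a) + t • B v`; null: `{y | f (x0 + B y) = 0} = (fun y => x0 + B y) ⁻¹' {f = 0}`,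
`Measure.addHaar_preimage_linearMap` (`hB`), `measure_preimage_add`. -/
theorem Tame.comp_affine {n D : ℕ} {f : (Fin n → ℝ) → ℝ} (hf : Tame n D f) (x0 : Fin n → ℝ)
    (B : (Fin n → ℝ) →ₗ[ℝ] (Fin n → ℝ)) (hB : LinearMap.det B ≠ 0) : Tame n D (fun y => f (x0 + B y)) := by
  refine ⟨hf.cont.comp (continuous_const.add B.continuous_of_finiteDimensional), ?_, fun a v => ?_⟩
  · have e : {y | f (x0 + B y) = 0} = B ⁻¹' ((fun z => x0 + z) ⁻¹' {x | f x = 0}) := rfl
    rw [e, Measure.addHaar_preimage_linearMap volume hB, measure_preimage_add, hf.null, mul_zero]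
  · have e : ∀ t : ℝ, x0 + B (a + t • v) = (x0 + B a) + t • B v := fun t => by
      rw [map_add, map_smul, add_assoc]
    simp only [e]
    exact hf.line (x0 + B a) (B v)

/-- **LEAF L-MK-AFF (2).**  `B` is injective, hence bijective; `closedBall 0 κ ⊆ B '' closedBall 0 1`; `Measure.addHaar_image_linearMap`, `Real.volume_pi_closedBall`: `(2κ)^n ≤ |det B| 2^n`. -/
theorem det_lower {n : ℕ} (B : (Fin n → ℝ) →ₗ[ℝ] (Fin n → ℝ)) (κ : ℝ) (hκ : 0 < κ) (hB : ∀ y, κ * ‖y‖ ≤ ‖B y‖) :
    κ ^ n ≤ |LinearMap.det B| := by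
  have hinj : Function.Injective B := by
    rw [injective_iff_map_eq_zero]
    intro y hy
    have h1 := hB y
    rw [hy, norm_zero] at h1
    have h2 : ‖y‖ ≤ 0 := by
      by_contra hcon
      have := mul_pos hκ (not_le.1 hcon)
      linarith
    exact norm_le_zero_iff.1 h2
  have hsurj : Function.Surjective B := LinearMap.injective_iff_surjective.1 hinj
  have hsub : closedBall (0 : Fin n → ℝ) κ ⊆ B '' closedBall (0 : Fin n → ℝ) 1 := by
    intro z hz
    obtain ⟨y, rfl⟩ := hsurj z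
    refine ⟨y, ?_, rfl⟩
    rw [mem_closedBall_zero_iff] at hz ⊢
    have h1 := (hB y).trans hz
    by_contra hcon
    have h2 : κ * 1 < κ * ‖y‖ := mul_lt_mul_of_pos_left (not_le.1 hcon) hκ
    linarith
  have hvol := measure_mono (μ := (volume : Measure (Fin n → ℝ))) hsub
  rw [Measure.addHaar_image_linearMap, Real.volume_pi_closedBall _ hκ.le, Real.volume_pi_closedBall _ zero_le_one,
    ← ENNReal.ofReal_mul (abs_nonneg _), Fintype.card_fin,
    ENNReal.ofReal_le_ofReal_iff (by positivity)] at hvol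
  rw [mul_pow, mul_one] at hvol
  have h2 : (0 : ℝ) < 2 ^ n := by positivity
  nlinarith

/-- **LEAF L-MK-AFF (3).**  `dis (f ∘ aff) U h ⊆ aff ⁻¹' dis f R (B h)`; `Measure.addHaar_preimage_linearMap`, `measure_preimage_add`, `det_lower`. -/
theorem om_comp_affine_le {n : ℕ} (f : (Fin n → ℝ) → ℝ) (x0 : Fin n → ℝ) (B : (Fin n → ℝ) →ₗ[ℝ] (Fin n → ℝ)) (κ : ℝ)
    (hκ : 0 < κ) (hB : ∀ y, κ * ‖y‖ ≤ ‖B y‖) (U R : Set (Fin n → ℝ)) (hUR : ∀ y ∈ U, x0 + B y ∈ R) (h : Fin n → ℝ) :
    om (fun y => f (x0 + B y)) U h ≤ ENNReal.ofReal ((κ ^ n)⁻¹) * om f R (B h) := by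
  have hdet := det_lower B κ hκ hB
  have hκn : 0 < κ ^ n := pow_pos hκ n
  have hne : LinearMap.det B ≠ 0 := by
    intro h0
    rw [h0, abs_zero] at hdet
    linarith
  have hsub : dis (fun y => f (x0 + B y)) U h ⊆ B ⁻¹' ((fun z => x0 + z) ⁻¹' dis f R (B h)) := by
    intro y hy
    refine ⟨hUR y hy.1, ?_⟩
    have h2 := hy.2
    simp only [map_add] at h2
    rwa [add_assoc]
  unfold om
  refine (measure_mono hsub).trans ?_
  rw [Measure.addHaar_preimage_linearMap volume hne, measure_preimage_add]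
  refine mul_le_mul' (ENNReal.ofReal_le_ofReal ?_) le_rfl
  rw [abs_inv]
  exact inv_anti₀ hκn hdet

/-- the shear `y ↦ y + y j • (v - e_j)` -/
noncomputable def omShear {n : ℕ} (j : Fin n) (v : Fin n → ℝ) : (Fin n → ℝ) →ₗ[ℝ] (Fin n → ℝ) :=
  LinearMap.transvection (LinearMap.proj j : (Fin n → ℝ) →ₗ[ℝ] ℝ) (v - Pi.single j 1)

theorem omShear_apply {n : ℕ} (j : Fin n) (v y : Fin n → ℝ) :
    omShear j v y = y + y j • (v - Pi.single j 1) := rfl

theorem omShear_det {n : ℕ} (j : Fin n) (v : Fin n → ℝ) (hvj : v j = 1) :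
    LinearMap.det (omShear j v) = 1 := by
  unfold omShear
  rw [LinearMap.transvection.det]
  simp [hvj]

theorem omShear_single {n : ℕ} (j : Fin n) (v : Fin n → ℝ) (ρ : ℝ) :
    omShear j v (Pi.single j ρ) = ρ • v := by
  rw [omShear_apply, Pi.single_eq_same, smul_sub]
  have : ρ • (Pi.single j 1 : Fin n → ℝ) = Pi.single j ρ := by
    ext i
    by_cases hi : i = j
    · subst hi; simp
    · simp [hi]
  rw [this]
  abel

/-- **LEAF L-MK-CYL: the cylinder estimate.**  Shear `Ψ y = y + y j • (v - Pi.single j 1)` (linear, `Ψ (Pi.single j ρ) = ρ • v`, `det Ψ = 1`: `LinearMap.det_toLin'`, `Matrix.det_one_add_replicateCol_mul_replicateRow`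
or: `Ψ` is unipotent).  `om f R (ρ • v) = om (f ∘ Ψ) (Ψ ⁻¹' R) (Pi.single j ρ)` (`Measure.addHaar_preimage_linearMap`), `Tame.comp_affine`, `om_axis_le`:
for `y = Ψ⁻¹ x`, `x ∈ tube a v r`: `y i - (a i - a j * v i) = (x i - a i - t v i) - (x j - a j - t) v i`, so `|..| ≤ 2 r`. -/
theorem om_line_le {n D : ℕ} {f : (Fin n → ℝ) → ℝ} (hf : Tame n D f) (j : Fin n) (v : Fin n → ℝ) (hvj : v j = 1)
    (hv : ∀ i, |v i| ≤ 1) (ρ : ℝ) (hρ : 0 ≤ ρ) (a : Fin n → ℝ) (r : ℝ) (hr : 0 ≤ r) (R : Set (Fin n → ℝ))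
    (hR : R ⊆ tube a v r) : om f R (ρ • v) ≤ ENNReal.ofReal (D * ρ * (4 * r) ^ (n - 1)) := by
  have hdet := omShear_det j v hvj
  have hT := hf.comp_affine 0 (omShear j v) (by rw [hdet]; exact one_ne_zero)
  have h1 : om f R (ρ • v) = om (fun y => f (0 + omShear j v y)) (omShear j v ⁻¹' R) (Pi.single j ρ) := by
    unfold om
    have e : dis (fun y => f (0 + omShear j v y)) (omShear j v ⁻¹' R) (Pi.single j ρ)
        = omShear j v ⁻¹' dis f R (ρ • v) := by
      ext y
      simp only [dis, Set.mem_ofPred_eq, Set.mem_preimage, map_add, omShear_single, zero_add]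
    rw [e, Measure.addHaar_preimage_linearMap _ (by rw [hdet]; exact one_ne_zero), hdet]
    simp
  rw [h1]
  have h2 := om_axis_le hT j ρ hρ (fun i => a i - a j * v i) (2 * r) (by positivity)
    (omShear j v ⁻¹' R) ?_
  · refine h2.trans (le_of_eq ?_)
    congr 3
    ring
  · intro y hy i hij
    obtain ⟨t, ht⟩ := hR hy
    rw [pi_norm_le_iff_of_nonneg hr] at ht
    have hi := ht i
    have hj := ht j
    simp only [omShear_apply, Pi.sub_apply, Pi.add_apply, Pi.smul_apply, smul_eq_mul, Pi.single_eq_same,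
      Pi.single_eq_of_ne hij, hvj, Real.norm_eq_abs, sub_zero, sub_self, mul_zero, add_zero,
      mul_one] at hi hj
    have e : y i - (a i - a j * v i) = (y i + y j * v i - a i - t * v i) - (y j - a j - t) * v i := by
      ring
    rw [e]
    calc |(y i + y j * v i - a i - t * v i) - (y j - a j - t) * v i|
        ≤ |y i + y j * v i - a i - t * v i| + |(y j - a j - t) * v i| := abs_sub _ _
      _ ≤ r + r * 1 := by
          rw [abs_mul]
          exact add_le_add hi (mul_le_mul hj (hv i) (abs_nonneg _) hr)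
      _ = 2 * r := by ring

end Claimed.Agent.MK
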