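import Claimed.Agent.Lib.MK.Om

/-!
# Lib/MK, file 5: Poincare inequality on a box by Fubini (unit U6); replaces the isoperimetric inequality            (architect helper13)            CONTRACT
PAPER-FREE, Mathlib only.  Every `sorry` is a leaf `L-MK-*`.  Statements are frozen; auxiliary lemmas directly above your theorem; edit only your block.
-/

set_option autoImplicit false
open MeasureTheory Set Metric
open scoped ENNReal BigOperators

namespace Claimed.Agent.MK

section hyb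
variable {n : ℕ} (μ : Fin n → Measure ℝ) [∀ i, IsFiniteMeasure (μ i)]

theorem hyb_lmarginal_self (s : Finset (Fin n)) (K : (Fin n → ℝ) → ℝ≥0∞) (x : Fin n → ℝ) :
    (∫⋯∫⁻_s, (∫⋯∫⁻_s, K ∂μ) ∂μ) x = (∏ i ∈ s, μ i univ) * (∫⋯∫⁻_s, K ∂μ) x := by
  have h1 : ∀ w : (∀ i : s, ℝ), (∫⋯∫⁻_s, K ∂μ) (Function.updateFinset x s w) = (∫⋯∫⁻_s, K ∂μ) x := by
    intro w
    apply lmarginal_congr
    intro i hi
    simp [Function.updateFinset, hi]
  conv_lhs => rw [lmarginal]
  simp_rw [h1]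
  rw [lintegral_const, Measure.pi_univ, mul_comm]
  congr 1
  exact Finset.prod_coe_sort s (fun i => μ i univ)

theorem hyb_B (s : Finset (Fin n)) (K : (Fin n → ℝ) → ℝ≥0∞) (hK : Measurable K) :
    ∫⁻ y, (∫⋯∫⁻_s, K ∂μ) y ∂(Measure.pi μ) = (∏ i ∈ s, μ i univ) * ∫⁻ y, K y ∂(Measure.pi μ) := by
  have x0 : Fin n → ℝ := fun _ => 0
  rw [lintegral_eq_lmarginal_univ x0, lintegral_eq_lmarginal_univ x0]
  have hu : (Finset.univ : Finset (Fin n)) = sᶜ ∪ s := by rw [Finset.union_comm, Finset.union_compl]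
  have hd : Disjoint sᶜ s := disjoint_compl_left
  rw [hu, lmarginal_union μ _ (hK.lmarginal μ) hd, lmarginal_union μ _ hK hd]
  have h2 : (∫⋯∫⁻_s, (∫⋯∫⁻_s, K ∂μ) ∂μ) = fun x => (∏ i ∈ s, μ i univ) * (∫⋯∫⁻_s, K ∂μ) x := by
    funext x; exact hyb_lmarginal_self μ s K x
  rw [h2]
  simp only [lmarginal]
  rw [lintegral_const_mul']
  exact ENNReal.prod_ne_top fun i _ => measure_ne_top _ _

end hyb

/-- **LEAF L-MK-HYB: the hybrid argument.**   `G` a measurable "pseudo-distance".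
PLAN (`lmarginal` API, `Mathlib/MeasureTheory/Integral/Marginal.lean`).   For `s : Finset (Fin n)` put `Φ s y = (∫⋯∫⁻_s, (fun w => G y w) ∂μ) y`, `T s = ∫⁻ y, Φ s y ∂(Measure.pi μ)`, `K j w = ∫⁻ r, G w (update w j r) ∂(μ j)`.
(A) `j ∉ s`: `Φ (insert j s) y ≤ μ j univ * Φ s y + (∫⋯∫⁻_s, K j ∂μ) y`  (`lmarginal_insert'`, `htri y w (update w j r)`, `lintegral_add_left`, `lintegral_const`).
(B) `∫⁻ y, (∫⋯∫⁻_s, K ∂μ) y ∂(pi μ) = (∏ i ∈ s, μ i univ) * ∫⁻ K ∂(pi μ)`  (`lintegral_eq_lmarginal_univ`, `lmarginal_union` for `univ = s ∪ sᶜ`; `∫⋯∫⁻_s, K` does not depend on the coordinates in `s`: `lmarginal_congr`; `Measure.pi_univ`).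
(C) induction on `s`: `T s ≤ ∑ j ∈ s, (∏ i ∈ s.erase j, μ i univ) * ∫⁻ K j`;  `T ∅ = 0` (`hdiag`), `T univ` = left side (`lmarginal_univ`). -/
theorem two_point {n : ℕ} (μ : Fin n → Measure ℝ) [∀ i, IsFiniteMeasure (μ i)] (G : (Fin n → ℝ) → (Fin n → ℝ) → ℝ≥0∞)
    (hG : Measurable (Function.uncurry G)) (htri : ∀ x y w, G x w ≤ G x y + G y w) (hdiag : ∀ x, G x x = 0) :
    ∫⁻ y, ∫⁻ y', G y y' ∂(Measure.pi μ) ∂(Measure.pi μ) ≤
      ∑ j, (∏ i ∈ Finset.univ.erase j, μ i univ) * ∫⁻ u, ∫⁻ r, G u (Function.update u j r) ∂(μ j) ∂(Measure.pi μ) := by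
  classical
  have hGy : ∀ y, Measurable (G y) := fun y => hG.comp (measurable_const.prodMk measurable_id)
  set K : Fin n → (Fin n → ℝ) → ℝ≥0∞ := fun j w => ∫⁻ r, G w (Function.update w j r) ∂(μ j) with hKdef
  have hK : ∀ j, Measurable (K j) := by
    intro j
    have : Measurable (fun p : (Fin n → ℝ) × ℝ => G p.1 (Function.update p.1 j p.2)) :=
      hG.comp (measurable_fst.prodMk measurable_update')
    exact this.lintegral_prod_right'
  -- (A)
  have hA : ∀ (s : Finset (Fin n)) (j : Fin n), j ∉ s → ∀ y,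
      (∫⋯∫⁻_insert j s, G y ∂μ) y ≤ μ j univ * (∫⋯∫⁻_s, G y ∂μ) y + (∫⋯∫⁻_s, K j ∂μ) y := by
    intro s j hj y
    rw [lmarginal_insert' _ (hGy y) hj]
    have h1 : (fun w => ∫⁻ r, G y (Function.update w j r) ∂(μ j)) ≤ fun w => μ j univ * G y w + K j w := by
      intro w
      calc ∫⁻ r, G y (Function.update w j r) ∂(μ j)
          ≤ ∫⁻ r, (G y w + G w (Function.update w j r)) ∂(μ j) := lintegral_mono fun r => htri _ _ _
        _ = μ j univ * G y w + K j w := by
            rw [lintegral_add_left measurable_const, lintegral_const, mul_comm]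
    refine (lmarginal_mono h1 y).trans (le_of_eq ?_)
    simp only [lmarginal]
    have hm : Measurable fun w : (∀ i : s, ℝ) => K j (Function.updateFinset y s w) :=
      (hK j).comp measurable_updateFinset
    rw [lintegral_add_right _ hm, lintegral_const_mul' _ _ (measure_ne_top _ _)]
  -- (C)
  have hC : ∀ s : Finset (Fin n), ∫⁻ y, (∫⋯∫⁻_s, G y ∂μ) y ∂(Measure.pi μ) ≤
      ∑ j ∈ s, (∏ i ∈ s.erase j, μ i univ) * ∫⁻ u, K j u ∂(Measure.pi μ) := by
    intro s
    induction s using Finset.induction_on with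
    | empty => simp [hdiag]
    | insert j s hj ih =>
      calc ∫⁻ y, (∫⋯∫⁻_insert j s, G y ∂μ) y ∂(Measure.pi μ)
          ≤ ∫⁻ y, (μ j univ * (∫⋯∫⁻_s, G y ∂μ) y + (∫⋯∫⁻_s, K j ∂μ) y) ∂(Measure.pi μ) :=
            lintegral_mono fun y => hA s j hj y
        _ = μ j univ * ∫⁻ y, (∫⋯∫⁻_s, G y ∂μ) y ∂(Measure.pi μ)
              + (∏ i ∈ s, μ i univ) * ∫⁻ u, K j u ∂(Measure.pi μ) := by
            rw [lintegral_add_right _ ((hK j).lmarginal μ), lintegral_const_mul' _ _ (measure_ne_top _ _),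
              hyb_B μ s (K j) (hK j)]
        _ ≤ μ j univ * (∑ j' ∈ s, (∏ i ∈ s.erase j', μ i univ) * ∫⁻ u, K j' u ∂(Measure.pi μ))
              + (∏ i ∈ s, μ i univ) * ∫⁻ u, K j u ∂(Measure.pi μ) := by gcongr
        _ = ∑ j' ∈ insert j s, (∏ i ∈ (insert j s).erase j', μ i univ) * ∫⁻ u, K j' u ∂(Measure.pi μ) := by
            rw [Finset.sum_insert hj, Finset.erase_insert hj, add_comm, Finset.mul_sum]
            congr 1
            refine Finset.sum_congr rfl fun j' hj' => ?_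
            have hne : j' ≠ j := fun h => hj (h ▸ hj')
            rw [Finset.erase_insert_of_ne (Ne.symm hne), Finset.prod_insert (by simp [hj]), mul_assoc]
  have h := hC Finset.univ
  have h3 : ∀ y, (∫⋯∫⁻_Finset.univ, G y ∂μ) y = ∫⁻ y', G y y' ∂(Measure.pi μ) := fun y =>
    (lintegral_eq_lmarginal_univ y).symm
  simp_rw [h3] at h
  exact h

theorem box_eq_pi {n : ℕ} (α ℓ : Fin n → ℝ) : box α ℓ = Set.pi univ fun i => Ico (α i) (α i + ℓ i) := by
  ext x; simp [box, Set.mem_pi]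

theorem measurableSet_box {n : ℕ} (α ℓ : Fin n → ℝ) : MeasurableSet (box α ℓ) := by
  rw [box_eq_pi]; exact MeasurableSet.univ_pi fun _ => measurableSet_Ico

theorem volume_box {n : ℕ} (α ℓ : Fin n → ℝ) : volume (box α ℓ) = ∏ i, ENNReal.ofReal (ℓ i) := by
  rw [box_eq_pi, Real.volume_pi_Ico]; simp

/-- the sign-disagreement kernel -/
noncomputable def sgG {n : ℕ} (f : (Fin n → ℝ) → ℝ) (y y' : Fin n → ℝ) : ℝ≥0∞ :=
  if Real.sign (f y) ≠ Real.sign (f y') then 1 else 0

theorem sgG_measurable {n : ℕ} (f : (Fin n → ℝ) → ℝ) (hf : Measurable f) :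
    Measurable (Function.uncurry (sgG f)) := by
  have h1 : Measurable fun p : (Fin n → ℝ) × (Fin n → ℝ) => Real.sign (f p.1) :=
    measurable_sign.comp (hf.comp measurable_fst)
  have h2 : Measurable fun p : (Fin n → ℝ) × (Fin n → ℝ) => Real.sign (f p.2) :=
    measurable_sign.comp (hf.comp measurable_snd)
  have hs : MeasurableSet {p : (Fin n → ℝ) × (Fin n → ℝ) | Real.sign (f p.1) ≠ Real.sign (f p.2)} :=
    (measurableSet_eq_fun h1 h2).compl
  exact Measurable.ite hs measurable_const measurable_const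

theorem sgG_tri {n : ℕ} (f : (Fin n → ℝ) → ℝ) (x y w : Fin n → ℝ) : sgG f x w ≤ sgG f x y + sgG f y w := by
  unfold sgG
  by_cases h1 : Real.sign (f x) = Real.sign (f y)
  · by_cases h2 : Real.sign (f y) = Real.sign (f w)
    · simp [h1, h2]
    · simp [h1, h2]
  · by_cases h3 : Real.sign (f x) = Real.sign (f w)
    · simp [h3]
    · simp only [ne_eq, h3, not_false_eq_true, if_true, h1]
      exact le_self_add

theorem sgG_lintegral {n : ℕ} (f : (Fin n → ℝ) → ℝ) (hf : Measurable f) (A : Set (Fin n → ℝ))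
    (h : Fin n → ℝ) : ∫⁻ u in A, sgG f u (u + h) = om f A h := by
  have hs : MeasurableSet {u : Fin n → ℝ | Real.sign (f (u + h)) ≠ Real.sign (f u)} :=
    (measurableSet_eq_fun (measurable_sign.comp (hf.comp (measurable_id.add_const h)))
      (measurable_sign.comp hf)).compl
  have h1 : (fun u => sgG f u (u + h)) =
      {u : Fin n → ℝ | Real.sign (f (u + h)) ≠ Real.sign (f u)}.indicator 1 := by
    funext u
    unfold sgG
    by_cases hu : Real.sign (f (u + h)) = Real.sign (f u)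
    · simp [hu]
    · have hu' : Real.sign (f u) ≠ Real.sign (f (u + h)) := fun e => hu e.symm
      simp [hu, hu']
  rw [h1, lintegral_indicator_one hs, Measure.restrict_apply hs]
  unfold om dis
  congr 1
  ext u
  simp [and_comm]


theorem poin_halves {n : ℕ} (f : (Fin n → ℝ) → ℝ) (hf : Measurable f) (ν : Measure (Fin n → ℝ)) [IsFiniteMeasure ν]
    (hnull : ν {x | f x = 0} = 0) (hbis : ∫ x, Real.sign (f x) ∂ν = 0) :
    ν {x | 0 < f x} = ν {x | f x < 0} ∧ ν {x | 0 < f x} + ν {x | f x < 0} = ν univ := by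
  have hP : MeasurableSet {x | 0 < f x} := measurableSet_lt measurable_const hf
  have hN : MeasurableSet {x | f x < 0} := measurableSet_lt hf measurable_const
  have hZ : MeasurableSet {x | f x = 0} := measurableSet_eq_fun hf measurable_const
  constructor
  · have h1 : (fun x => Real.sign (f x)) =
        fun x => {x | 0 < f x}.indicator (1 : (Fin n → ℝ) → ℝ) x - {x | f x < 0}.indicator (1 : (Fin n → ℝ) → ℝ) x := by
      funext x
      rcases lt_trichotomy (f x) 0 with h | h | h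
      · have h' : ¬ 0 < f x := not_lt.2 h.le
        simp [Real.sign_of_neg h, h, h']
      · simp [h]
      · have h' : ¬ f x < 0 := not_lt.2 h.le
        simp [Real.sign_of_pos h, h, h']
    have i1 : Integrable ({x | 0 < f x}.indicator (1 : (Fin n → ℝ) → ℝ)) ν :=
      (integrable_const (1 : ℝ)).indicator hP
    have i2 : Integrable ({x | f x < 0}.indicator (1 : (Fin n → ℝ) → ℝ)) ν :=
      (integrable_const (1 : ℝ)).indicator hN
    rw [h1, integral_sub i1 i2] at hbis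
    have e1 : ∫ x, {x | 0 < f x}.indicator (1 : (Fin n → ℝ) → ℝ) x ∂ν = ν.real {x | 0 < f x} :=
      integral_indicator_one hP
    have e2 : ∫ x, {x | f x < 0}.indicator (1 : (Fin n → ℝ) → ℝ) x ∂ν = ν.real {x | f x < 0} :=
      integral_indicator_one hN
    rw [e1, e2, sub_eq_zero] at hbis
    exact (ENNReal.toReal_eq_toReal_iff' (measure_ne_top _ _) (measure_ne_top _ _)).1 hbis
  · have hd : Disjoint {x | 0 < f x} {x | f x < 0} := by
      rw [Set.disjoint_left]; intro x (h1 : 0 < f x) (h2 : f x < 0); exact lt_asymm h1 h2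
    rw [← measure_union hd hN]
    have hu : (univ : Set (Fin n → ℝ)) = ({x | 0 < f x} ∪ {x | f x < 0}) ∪ {x | f x = 0} := by
      ext x
      simp only [mem_univ, mem_union, true_iff]
      change (0 < f x ∨ f x < 0) ∨ f x = 0
      rcases lt_trichotomy (f x) 0 with h | h | h
      · exact Or.inl (Or.inr h)
      · exact Or.inr h
      · exact Or.inl (Or.inl h)
    rw [hu]
    refine le_antisymm (measure_mono subset_union_left) ((measure_union_le _ _).trans ?_)
    rw [hnull, add_zero]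

theorem poin_lower {n : ℕ} (f : (Fin n → ℝ) → ℝ) (hf : Measurable f) (ν : Measure (Fin n → ℝ)) :
    ν {x | 0 < f x} * ν {x | f x < 0} + ν {x | f x < 0} * ν {x | 0 < f x} ≤ ∫⁻ y, ∫⁻ y', sgG f y y' ∂ν ∂ν := by
  have hP : MeasurableSet {x | 0 < f x} := measurableSet_lt measurable_const hf
  have hN : MeasurableSet {x | f x < 0} := measurableSet_lt hf measurable_const
  set P : Set (Fin n → ℝ) := {x | 0 < f x} with hPdef
  set Nn : Set (Fin n → ℝ) := {x | f x < 0} with hNdef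
  have mP : ∀ y, y ∈ P ↔ 0 < f y := fun y => Iff.rfl
  have mN : ∀ y, y ∈ Nn ↔ f y < 0 := fun y => Iff.rfl
  have key : ∀ y y', f y < 0 → 0 < f y' → sgG f y y' = 1 ∧ sgG f y' y = 1 := by
    intro y y' h h'
    have e1 : Real.sign (f y) ≠ Real.sign (f y') := by
      rw [Real.sign_of_neg h, Real.sign_of_pos h']; norm_num
    exact ⟨by simp [sgG, e1], by simp [sgG, e1.symm]⟩
  have h1 : ∀ y, P.indicator (fun _ => ν Nn) y + Nn.indicator (fun _ => ν P) y ≤ ∫⁻ y', sgG f y y' ∂ν := by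
    intro y
    rcases lt_trichotomy (f y) 0 with h | h | h
    · have h' : y ∉ P := fun hh => lt_asymm h ((mP y).1 hh)
      rw [indicator_of_notMem h', indicator_of_mem ((mN y).2 h), zero_add, ← lintegral_indicator_one hP]
      refine lintegral_mono fun y' => ?_
      by_cases hy' : y' ∈ P
      · rw [indicator_of_mem hy', (key y y' h ((mP y').1 hy')).1]; simp
      · rw [indicator_of_notMem hy']; exact zero_le
    · have h1' : y ∉ P := fun hh => by have := (mP y).1 hh; rw [h] at this; exact lt_irrefl _ this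
      have h2' : y ∉ Nn := fun hh => by have := (mN y).1 hh; rw [h] at this; exact lt_irrefl _ this
      rw [indicator_of_notMem h1', indicator_of_notMem h2']; simp
    · have h' : y ∉ Nn := fun hh => lt_asymm h ((mN y).1 hh)
      rw [indicator_of_mem ((mP y).2 h), indicator_of_notMem h', add_zero, ← lintegral_indicator_one hN]
      refine lintegral_mono fun y' => ?_
      by_cases hy' : y' ∈ Nn
      · rw [indicator_of_mem hy', (key y' y ((mN y').1 hy') h).2]; simp
      · rw [indicator_of_notMem hy']; exact zero_le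
  refine le_trans (le_of_eq ?_) (lintegral_mono h1)
  rw [lintegral_add_left (measurable_const.indicator hP), lintegral_indicator_const hP, lintegral_indicator_const hN]
  ring

theorem poin_upper {n : ℕ} (f : (Fin n → ℝ) → ℝ) (hf : Measurable f) (α ℓ : Fin n → ℝ) (j : Fin n) :
    ∫⁻ u in box α ℓ, ∫⁻ r in Ico (α j) (α j + ℓ j), sgG f u (Function.update u j r) ≤
      ∫⁻ t in Ioo (-(ℓ j)) (ℓ j), om f (box α ℓ) (Pi.single j t) := by
  have hA := measurableSet_box α ℓ
  have h1 : ∀ u ∈ box α ℓ, ∫⁻ r in Ico (α j) (α j + ℓ j), sgG f u (Function.update u j r) ≤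
      ∫⁻ t in Ioo (-(ℓ j)) (ℓ j), sgG f u (u + Pi.single j t) := by
    intro u hu
    rw [← lintegral_indicator measurableSet_Ico, ← lintegral_indicator measurableSet_Ioo,
      ← lintegral_add_left_eq_self _ (u j)]
    refine lintegral_mono fun t => ?_
    by_cases ht : u j + t ∈ Ico (α j) (α j + ℓ j)
    · have huj := hu j
      have ht' : t ∈ Ioo (-(ℓ j)) (ℓ j) := ⟨by linarith [ht.1, huj.2], by linarith [ht.2, huj.1]⟩
      rw [indicator_of_mem ht, indicator_of_mem ht']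
      have : Function.update u j (u j + t) = u + Pi.single j t := by
        funext i
        by_cases hi : i = j
        · subst hi; simp
        · simp [hi]
      rw [this]
    · rw [indicator_of_notMem ht]; exact zero_le
  refine (setLIntegral_mono' hA h1).trans (le_of_eq ?_)
  have hm : Measurable (Function.uncurry fun (u : Fin n → ℝ) (t : ℝ) => sgG f u (u + Pi.single j t)) := by
    have h2 : Measurable fun p : (Fin n → ℝ) × ℝ => (p.1, p.1 + Pi.single j p.2) := by
      refine measurable_fst.prodMk (measurable_fst.add ?_)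
      exact (measurable_update (0 : Fin n → ℝ)).comp measurable_snd
    exact (sgG_measurable f hf).comp h2
  rw [lintegral_lintegral_swap hm.aemeasurable]
  refine lintegral_congr fun t => ?_
  exact sgG_lintegral f hf _ _

/-- **LEAF L-MK-POIN: Poincare on one box.**
PLAN.  `A = box α ℓ`, `μ i = volume.restrict (Ico (α i) (α i + ℓ i))`, `Measure.pi μ = volume.restrict A` (`Measure.restrict_pi_pi`, `volume_pi`), `G y y' = if sign (f y) ≠ sign (f y') then 1 else 0`.
Left side of `two_point` `≥ 2 vol(A⁺) vol(A⁻) = vol(A)²/2` where `A^± = A ∩ {±f > 0}`: `hbis` gives `vol A⁺ = vol A⁻` (`sign f = 1_{A⁺} - 1_{A⁻}`), `hnull` gives `vol A⁺ + vol A⁻ = vol A`.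
Right side: `∫⁻ r in Ico .., G u (update u j r) = ∫⁻ t, 1[u j + t ∈ Ico ..] G u (u + Pi.single j t)` (`lintegral_add_left_eq_self`; `update u j (u j + t) = u + Pi.single j t`), for `u ∈ A` only `t ∈ Ioo (-ℓ j) (ℓ j)` contribute; Tonelli (`lintegral_lintegral_swap`):
`≤ ∫⁻ t in Ioo (-ℓ j) (ℓ j), om f A (Pi.single j t)`.   `∏_{i ≠ j} ofReal (ℓ i) = vol A / ofReal (ℓ j)`; divide by `vol A` (finite, nonzero). -/
theorem poincare_box {n : ℕ} (f : (Fin n → ℝ) → ℝ) (hf : Measurable f) (hnull : volume {x | f x = 0} = 0)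
    (α ℓ : Fin n → ℝ) (hℓ : ∀ i, 0 < ℓ i) (hbis : ∫ x in box α ℓ, Real.sign (f x) = 0) :
    volume (box α ℓ) ≤ 2 * ∑ j, (ENNReal.ofReal (ℓ j))⁻¹ *
      ∫⁻ t in Ioo (-(ℓ j)) (ℓ j), om f (box α ℓ) (Pi.single j t) := by
  classical
  set A := box α ℓ with hAdef
  have hA : MeasurableSet A := measurableSet_box α ℓ
  set μ : Fin n → Measure ℝ := fun i => volume.restrict (Ico (α i) (α i + ℓ i)) with hμ
  have hpi : Measure.pi μ = volume.restrict A := by
    rw [hAdef, box_eq_pi, volume_pi, Measure.restrict_pi_pi]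
  have hVfin : volume A ≠ ∞ := by
    rw [hAdef, volume_box]; exact ENNReal.prod_ne_top fun i _ => ENNReal.ofReal_ne_top
  have hV0 : volume A ≠ 0 := by
    rw [hAdef, volume_box, Finset.prod_ne_zero_iff]
    intro i _
    simpa using hℓ i
  have : IsFiniteMeasure (volume.restrict A) := ⟨by rw [Measure.restrict_apply_univ]; exact hVfin.lt_top⟩
  have hnull' : (volume.restrict A) {x | f x = 0} = 0 :=
    le_antisymm ((Measure.restrict_le_self _).trans hnull.le) zero_le
  obtain ⟨he, hs⟩ := poin_halves f hf (volume.restrict A) hnull' hbis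
  rw [Measure.restrict_apply_univ] at hs
  have hlow := poin_lower f hf (volume.restrict A)
  have htp := two_point μ (sgG f) (sgG_measurable f hf) (sgG_tri f) (fun x => by simp [sgG])
  rw [hpi] at htp
  set a := (volume.restrict A) {x | 0 < f x} with ha
  rw [← he] at hlow hs
  -- V * V ≤ 2 * LHS
  have h1 : volume A * volume A ≤ 2 * ∫⁻ y in A, ∫⁻ y' in A, sgG f y y' := by
    calc volume A * volume A = 2 * (a * a + a * a) := by rw [← hs]; ring
      _ ≤ _ := by gcongr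
  have h2 : ∀ j, (∏ i ∈ Finset.univ.erase j, μ i univ) *
      ∫⁻ u in A, ∫⁻ r, sgG f u (Function.update u j r) ∂(μ j) ≤
      volume A * ((ENNReal.ofReal (ℓ j))⁻¹ * ∫⁻ t in Ioo (-(ℓ j)) (ℓ j), om f A (Pi.single j t)) := by
    intro j
    have e1 : (∏ i ∈ Finset.univ.erase j, μ i univ) = volume A * (ENNReal.ofReal (ℓ j))⁻¹ := by
      have e2 : ∀ i, μ i univ = ENNReal.ofReal (ℓ i) := by
        intro i; simp [hμ]
      simp_rw [e2]
      rw [hAdef, volume_box, ← Finset.mul_prod_erase Finset.univ _ (Finset.mem_univ j)]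
      rw [mul_comm (ENNReal.ofReal (ℓ j)), mul_assoc, ENNReal.mul_inv_cancel (by simpa using hℓ j) ENNReal.ofReal_ne_top,
        mul_one]
    rw [e1, mul_assoc]
    gcongr
    exact poin_upper f hf α ℓ j
  have h3 : volume A * volume A ≤ volume A * (2 * ∑ j, (ENNReal.ofReal (ℓ j))⁻¹ *
      ∫⁻ t in Ioo (-(ℓ j)) (ℓ j), om f A (Pi.single j t)) := by
    calc volume A * volume A ≤ 2 * ∫⁻ y in A, ∫⁻ y' in A, sgG f y y' := h1
      _ ≤ 2 * ∑ j, (∏ i ∈ Finset.univ.erase j, μ i univ) *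
            ∫⁻ u in A, ∫⁻ r, sgG f u (Function.update u j r) ∂(μ j) := by gcongr
      _ ≤ 2 * ∑ j, volume A * ((ENNReal.ofReal (ℓ j))⁻¹ * ∫⁻ t in Ioo (-(ℓ j)) (ℓ j), om f A (Pi.single j t)) := by
          refine mul_le_mul_right (Finset.sum_le_sum fun j _ => h2 j) 2
      _ = _ := by rw [← Finset.mul_sum]; ring
  exact (ENNReal.mul_le_mul_iff_right hV0 hVfin).1 h3

theorem dbox_mem {n : ℕ} (a : Fin n → ℕ) (b : ∀ j, Fin (2 ^ a j)) (x : Fin n → ℝ) :
    x ∈ dbox a b ↔ ∀ j, ((b j : ℕ) : ℝ) ≤ x j * 2 ^ a j ∧ x j * 2 ^ a j < ((b j : ℕ) : ℝ) + 1 := by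
  unfold dbox box
  simp only [Set.mem_setOf_eq]
  refine forall_congr' fun j => ?_
  have h2 : (0 : ℝ) < 2 ^ a j := by positivity
  rw [div_le_iff₀ h2, ← add_div, lt_div_iff₀ h2]

theorem dbox_volume {n : ℕ} (a : Fin n → ℕ) (b : ∀ j, Fin (2 ^ a j)) :
    volume (dbox a b) = ∏ j, ENNReal.ofReal (1 / 2 ^ a j) := by
  unfold dbox
  rw [volume_box]

theorem dbox_side_mul (k : ℕ) : ((2 ^ k : ℕ) : ℝ≥0∞) * ENNReal.ofReal (1 / 2 ^ k) = 1 := by
  have h2 : (0 : ℝ) < 2 ^ k := by positivity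
  have e : ((2 ^ k : ℕ) : ℝ≥0∞) = ENNReal.ofReal (2 ^ k) := by
    rw [← ENNReal.ofReal_natCast]
    push_cast
    rfl
  rw [e, ← ENNReal.ofReal_mul h2.le, mul_one_div_cancel h2.ne', ENNReal.ofReal_one]

/-- **LEAF L-MK-TILE (1).**  The dyadic boxes of a fixed shape are pairwise disjoint, lie in the unit cube and there are `∏ 2^(a j)` of them, each of volume `∏ 2^-(a j)`. -/
theorem dbox_facts {n : ℕ} (a : Fin n → ℕ) :
    (∀ b b', b ≠ b' → Disjoint (dbox a b) (dbox a b')) ∧ (∀ b, dbox a b ⊆ box (fun _ => 0) (fun _ => 1)) ∧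
      ∑ b : (∀ j, Fin (2 ^ a j)), volume (dbox a b) = 1 := by
  refine ⟨fun b b' hbb => ?_, fun b x hx => ?_, ?_⟩
  · rw [Set.disjoint_left]
    intro x hx hx'
    rw [dbox_mem] at hx hx'
    refine hbb (funext fun j => Fin.ext ?_)
    have h1 : ((b j : ℕ) : ℝ) < ((b' j : ℕ) : ℝ) + 1 := (hx j).1.trans_lt (hx' j).2
    have h2 : ((b' j : ℕ) : ℝ) < ((b j : ℕ) : ℝ) + 1 := (hx' j).1.trans_lt (hx j).2
    have h1' : (b j : ℕ) < (b' j : ℕ) + 1 := by exact_mod_cast h1
    have h2' : (b' j : ℕ) < (b j : ℕ) + 1 := by exact_mod_cast h2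
    omega
  · rw [dbox_mem] at hx
    intro j
    have h2 : (0 : ℝ) < 2 ^ a j := by positivity
    have hb : ((b j : ℕ) : ℝ) + 1 ≤ 2 ^ a j := by
      have : (b j : ℕ) + 1 ≤ 2 ^ a j := (b j).2
      exact_mod_cast this
    have hb0 : (0 : ℝ) ≤ ((b j : ℕ) : ℝ) := Nat.cast_nonneg _
    constructor
    · by_contra hneg
      have : x j * 2 ^ a j < 0 := mul_neg_of_neg_of_pos (not_le.1 hneg) h2
      linarith [(hx j).1]
    · rw [zero_add]
      by_contra hge
      have : 1 * 2 ^ a j ≤ x j * 2 ^ a j := mul_le_mul_of_nonneg_right (not_lt.1 hge) h2.le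
      linarith [(hx j).2]
  · simp only [dbox_volume]
    rw [Finset.sum_const, Finset.card_univ, Fintype.card_pi, nsmul_eq_mul, Nat.cast_prod, ← Finset.prod_mul_distrib]
    refine Finset.prod_eq_one fun j _ => ?_
    rw [Fintype.card_fin]
    exact dbox_side_mul (a j)

theorem sum_lintegral_le_aux {α ι : Type*} [MeasurableSpace α] (μ : Measure α) (s : Finset ι) (g : ι → α → ℝ≥0∞) :
    ∑ i ∈ s, ∫⁻ x, g i x ∂μ ≤ ∫⁻ x, ∑ i ∈ s, g i x ∂μ := by
  classical
  induction s using Finset.induction_on with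
  | empty => simp
  | insert i s hi ih =>
    simp only [Finset.sum_insert hi]
    exact (add_le_add_right ih _).trans (le_lintegral_add _ _)

theorem dbox_om_sum_le {n : ℕ} (f : (Fin n → ℝ) → ℝ) (a : Fin n → ℕ) (h : Fin n → ℝ) :
    ∑ b : (∀ j, Fin (2 ^ a j)), om f (dbox a b) h ≤ om f (box (fun _ => 0) (fun _ => 1)) h := by
  classical
  obtain ⟨hd, hs, -⟩ := dbox_facts a
  have key := om_sum_overlap (f := f) (R := box (fun _ => 0) (fun _ => 1)) (h := h) (Finset.univ : Finset (∀ j, Fin (2 ^ a j)))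
    (fun b => dbox a b) (fun b _ => measurableSet_box _ _) 1 (fun x => ?_) (fun b _ => hs b)
  · simpa using key
  · refine Finset.card_le_one.2 fun b hb b' hb' => ?_
    by_contra hne
    exact Set.disjoint_left.1 (hd b b' hne) (Finset.mem_filter.1 hb).2 (Finset.mem_filter.1 hb').2

/-- **LEAF L-MK-TILE (2): all boxes of one shape are bisected.**
PLAN.  `poincare_box` for every `dbox a b` (`ℓ j = 1/2^(a j)`), sum over `b` (`dbox_facts`): `1 ≤ 2 ∑_j (ofReal ℓ_j)⁻¹ ∫⁻ t in Ioo, ∑_b om f (dbox a b) (single j t)` (`lintegral_finset_sum`; measurability in `t` is not needed if you use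
`lintegral_finset_sum'`-free route: bound FIRST `∑_b` pointwise?  no: use `Finset.sum_comm`, `lintegral_finset_sum` needs measurability of `t ↦ om ..`: `Measurable.lintegral_prod_right`-type, `measurableSet_dis` jointly; alternative without measurability: `le_lintegral_add`-free:
`∑_b ∫⁻ g_b ≤ ∫⁻ ∑_b g_b` holds for arbitrary functions (`Finset.sum_lintegral_le`? if absent prove by induction from `le_lintegral_add`)).   `∑_b om f (dbox a b) h = volume (⋃_b dis ..) ≤ om f (unit cube) h ≤ E j`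
(`measure_biUnion_finset`, disjointness, `measurableSet_dis`);  `∫⁻ t in Ioo (-ℓ) ℓ, E = 2 ℓ E`. -/
theorem poincare_tiling {n : ℕ} (f : (Fin n → ℝ) → ℝ) (hf : Measurable f) (hnull : volume {x | f x = 0} = 0)
    (a : Fin n → ℕ) (hbis : ∀ b, ∫ x in dbox a b, Real.sign (f x) = 0) (E : Fin n → ℝ≥0∞)
    (hE : ∀ j, ∀ t : ℝ, |t| ≤ 1 / 2 ^ a j → om f (box (fun _ => 0) (fun _ => 1)) (Pi.single j t) ≤ E j) :
    1 ≤ 4 * ∑ j, E j := by
  classical
  obtain ⟨-, -, hsum⟩ := dbox_facts a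
  have hℓ : ∀ j, (0 : ℝ) < 1 / 2 ^ a j := fun j => by positivity
  have h1 : ∀ b : (∀ j, Fin (2 ^ a j)), volume (dbox a b) ≤ 2 * ∑ j, (ENNReal.ofReal (1 / 2 ^ a j))⁻¹ *
      ∫⁻ t in Ioo (-(1 / 2 ^ a j : ℝ)) (1 / 2 ^ a j), om f (dbox a b) (Pi.single j t) := fun b =>
    poincare_box f hf hnull (fun j => ((b j : ℕ) : ℝ) / 2 ^ a j) (fun j => 1 / 2 ^ a j) hℓ (hbis b)
  have h2 : ∀ j, ∑ b : (∀ j, Fin (2 ^ a j)), ∫⁻ t in Ioo (-(1 / 2 ^ a j : ℝ)) (1 / 2 ^ a j), om f (dbox a b) (Pi.single j t)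
      ≤ E j * (2 * ENNReal.ofReal (1 / 2 ^ a j)) := by
    intro j
    refine (sum_lintegral_le_aux _ _ _).trans ?_
    have h3 : ∫⁻ t in Ioo (-(1 / 2 ^ a j : ℝ)) (1 / 2 ^ a j), ∑ b : (∀ j, Fin (2 ^ a j)), om f (dbox a b) (Pi.single j t)
        ≤ ∫⁻ _t in Ioo (-(1 / 2 ^ a j : ℝ)) (1 / 2 ^ a j), E j := by
      refine setLIntegral_mono' measurableSet_Ioo fun t ht => ?_
      exact (dbox_om_sum_le f a _).trans (hE j t (abs_le.2 ⟨ht.1.le, ht.2.le⟩))
    refine h3.trans (le_of_eq ?_)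
    rw [setLIntegral_const, Real.volume_Ioo]
    congr 1
    rw [sub_neg_eq_add, ← two_mul, ENNReal.ofReal_mul (by norm_num)]
    norm_num
  calc (1 : ℝ≥0∞) = ∑ b : (∀ j, Fin (2 ^ a j)), volume (dbox a b) := hsum.symm
    _ ≤ ∑ b : (∀ j, Fin (2 ^ a j)), 2 * ∑ j, (ENNReal.ofReal (1 / 2 ^ a j))⁻¹ *
          ∫⁻ t in Ioo (-(1 / 2 ^ a j : ℝ)) (1 / 2 ^ a j), om f (dbox a b) (Pi.single j t) := Finset.sum_le_sum fun b _ => h1 b
    _ = 2 * ∑ j, (ENNReal.ofReal (1 / 2 ^ a j))⁻¹ * ∑ b : (∀ j, Fin (2 ^ a j)),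
          ∫⁻ t in Ioo (-(1 / 2 ^ a j : ℝ)) (1 / 2 ^ a j), om f (dbox a b) (Pi.single j t) := by
        rw [← Finset.mul_sum, Finset.sum_comm]
        congr 1
        refine Finset.sum_congr rfl fun j _ => ?_
        rw [Finset.mul_sum]
    _ ≤ 2 * ∑ j, (ENNReal.ofReal (1 / 2 ^ a j))⁻¹ * (E j * (2 * ENNReal.ofReal (1 / 2 ^ a j))) := by
        gcongr with j _
        exact h2 j
    _ = 2 * ∑ j, 2 * E j := by
        congr 1
        refine Finset.sum_congr rfl fun j _ => ?_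
        have hne : ENNReal.ofReal (1 / 2 ^ a j) ≠ 0 := (ENNReal.ofReal_pos.2 (hℓ j)).ne'
        have hnt : ENNReal.ofReal (1 / 2 ^ a j) ≠ ⊤ := ENNReal.ofReal_ne_top
        calc (ENNReal.ofReal (1 / 2 ^ a j))⁻¹ * (E j * (2 * ENNReal.ofReal (1 / 2 ^ a j)))
            = ((ENNReal.ofReal (1 / 2 ^ a j))⁻¹ * ENNReal.ofReal (1 / 2 ^ a j)) * (2 * E j) := by ring
          _ = 2 * E j := by rw [ENNReal.inv_mul_cancel hne hnt, one_mul]
    _ = 4 * ∑ j, E j := by
        rw [← Finset.mul_sum, ← mul_assoc]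
        norm_num

end Claimed.Agent.MK
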