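import Claimed.Agent.Lib.MK.Line
import Claimed.Agent.Lib.MK.Poincare

/-!
# Lib/MK, file 6: polygonal paths (unit U8) and the local claim at one cube            (architect helper13)            CONTRACT
PAPER-FREE, Mathlib only.  Every `sorry` is a leaf `L-MK-*`.  Statements are frozen; auxiliary lemmas directly above your theorem; edit only your block.
-/

set_option autoImplicit false
open MeasureTheory Set Metric
open scoped ENNReal BigOperators

namespace Claimed.Agent.MK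

/-- mean direction -/
noncomputable def vbar {n : ℕ} {α : Type*} (I : Finset α) (μ : α → ℝ) (v : α → Fin n → ℝ) : Fin n → ℝ :=
  ∑ i ∈ I, μ i • v i

/-- `y ↦ (1/4) ∑_j y_j • u j` -/
noncomputable def frameMap {n : ℕ} (u : Fin n → Fin n → ℝ) : (Fin n → ℝ) →ₗ[ℝ] (Fin n → ℝ) :=
  (1 / 4 : ℝ) • Fintype.linearCombination ℝ u

/-- averaged "directed volume" of `Z(f)` near `z`, at step `s` -/
noncomputable def Wf {n : ℕ} {α : Type*} (f : (Fin n → ℝ) → ℝ) (z : Fin n → ℝ) (s : ℝ) (I : Finset α) (μ : α → ℝ)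
    (v : α → Fin n → ℝ) : ℝ :=
  ∑ i ∈ I, μ i * ((om f (closedBall z 3) (s • v i)).toReal / s)

/-- one segment of the polygonal path, positive orientation -/
theorem path_pos {n D : ℕ} {f : (Fin n → ℝ) → ℝ} (hf : Tame n D f) (j : Fin n) (w : Fin n → ℝ) (hwj : w j = 1)
    (hw : ∀ k, |w k| ≤ 1) (z : Fin n → ℝ) (r Rad : ℝ) (hr : 0 ≤ r) (hRad : r + 1 / 4 ≤ Rad) (s : ℝ) (hs : 0 < s)
    (c : ℝ) (hc0 : 0 ≤ c) (hc : c ≤ 1 / 4) :
    om f (closedBall z r) (c • w) ≤ ENNReal.ofReal (c / s) * om f (closedBall z Rad) (s • w)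
      + ENNReal.ofReal (D * s * (4 * Rad) ^ (n - 1)) := by
  have hwn : ‖w‖ ≤ 1 := (pi_norm_le_iff_of_nonneg zero_le_one).2 hw
  set N : ℕ := ⌊c / s⌋₊ with hN
  have hNle : (N : ℝ) ≤ c / s := Nat.floor_le (div_nonneg hc0 hs.le)
  have hNs : (N : ℝ) * s ≤ c := by rwa [le_div_iff₀ hs] at hNle
  have hlt : c / s < N + 1 := Nat.lt_floor_add_one _
  have hρ0 : 0 ≤ c - N * s := by linarith
  have hρs : c - N * s ≤ s := by
    rw [div_lt_iff₀ hs] at hlt
    nlinarith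
  have hdec : c • w = N • (s • w) + (c - N * s) • w := by
    rw [← Nat.cast_smul_eq_nsmul ℝ, smul_smul, ← add_smul]
    congr 1
    ring
  have hnorm : ‖s • w‖ ≤ s := by
    rw [norm_smul, Real.norm_of_nonneg hs.le]
    nlinarith
  have hNn : (N : ℝ) * ‖s • w‖ ≤ 1 / 4 :=
    (mul_le_mul_of_nonneg_left hnorm (Nat.cast_nonneg _)).trans (by linarith)
  rw [hdec]
  refine (om_add_le (R' := closedBall z Rad) ?_).trans (add_le_add ?_ ?_)
  · intro x hx
    rw [mem_closedBall, dist_eq_norm] at hx ⊢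
    have h1 : ‖N • (s • w)‖ ≤ 1 / 4 := by
      rw [← Nat.cast_smul_eq_nsmul ℝ, norm_smul, Real.norm_of_nonneg (Nat.cast_nonneg _)]
      exact hNn
    calc ‖x + N • (s • w) - z‖ = ‖(x - z) + N • (s • w)‖ := by congr 1; abel
      _ ≤ ‖x - z‖ + ‖N • (s • w)‖ := norm_add_le _ _
      _ ≤ Rad := by linarith
  · refine (om_nsmul_le N z r).trans ?_
    refine mul_le_mul' ?_ (om_mono (closedBall_subset_closedBall (by linarith)))
    rw [← ENNReal.ofReal_natCast]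
    exact ENNReal.ofReal_le_ofReal hNle
  · refine (om_line_le hf j w hwj hw _ hρ0 z Rad (by linarith) _ ?_).trans (ENNReal.ofReal_le_ofReal ?_)
    · intro x hx
      refine ⟨0, ?_⟩
      rw [zero_smul, sub_zero, ← dist_eq_norm]
      exact hx
    · exact mul_le_mul_of_nonneg_right (mul_le_mul_of_nonneg_left hρs (Nat.cast_nonneg D))
        (pow_nonneg (by linarith) _)

/-- one segment of the polygonal path, both orientations -/
theorem path_seg {n D : ℕ} {f : (Fin n → ℝ) → ℝ} (hf : Tame n D f) (j : Fin n) (w : Fin n → ℝ) (hwj : w j = 1)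
    (hw : ∀ k, |w k| ≤ 1) (z : Fin n → ℝ) (r Rad : ℝ) (hr : 0 ≤ r) (hRad : r + 1 / 2 ≤ Rad) (s : ℝ) (hs : 0 < s)
    (c : ℝ) (hc : |c| ≤ 1 / 4) :
    om f (closedBall z r) (c • w) ≤ ENNReal.ofReal (|c| / s) * om f (closedBall z Rad) (s • w)
      + ENNReal.ofReal (D * s * (4 * Rad) ^ (n - 1)) := by
  have hwn : ‖w‖ ≤ 1 := (pi_norm_le_iff_of_nonneg zero_le_one).2 hw
  rcases le_total 0 c with h0 | h0
  · rw [abs_of_nonneg h0] at hc ⊢
    exact path_pos hf j w hwj hw z r Rad hr (by linarith) s hs c h0 hc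
  · have e : c • w = -(|c| • w) := by rw [abs_of_nonpos h0, neg_smul, neg_neg]
    rw [e]
    refine (om_neg_le (R' := closedBall z (r + 1 / 4)) ?_).trans
      (path_pos hf j w hwj hw z (r + 1 / 4) Rad (by linarith) (by linarith) s hs |c| (abs_nonneg c) hc)
    intro x hx
    rw [mem_closedBall, dist_eq_norm] at hx ⊢
    have h1 : ‖|c| • w‖ ≤ 1 / 4 := by
      rw [norm_smul, Real.norm_of_nonneg (abs_nonneg c)]
      nlinarith [abs_nonneg c, norm_nonneg w]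
    calc ‖x - |c| • w - z‖ = ‖(x - z) - |c| • w‖ := by congr 1; abel
      _ ≤ ‖x - z‖ + ‖|c| • w‖ := norm_sub_le _ _
      _ ≤ r + 1 / 4 := by linarith

/-- **LEAF L-MK-PATH: polygonal paths replace the convexity of the directed volume.**
PLAN.  Put `e = sign t = ±1`, `g i = (|t| μ i) • (e • v i)`, `t • ∑ μ i • v i = ∑ g i`, `∑ ‖g i‖ ≤ |t| ≤ 1/4` (`‖v i‖ ≤ 1`: `pi_norm_le_iff_of_nonneg`).   `om_sum_le` (`ρ = 1/4`): regions `closedBall z (r + 1/4)`.
For one `i`: `|t| μ i = N s + ρ'`, `N = ⌊|t| μ i / s⌋₊`, `0 ≤ ρ' < s`;  `g i = N • (s • e • v i) + ρ' • e • v i`;  `om_add_le`, `om_nsmul_le` (`N s ≤ 1/4`): regions inside `closedBall z (r + 1/2)`; for `e = -1` one more `om_neg_le` (shift by `s ≤ 1` resp. `ρ' ≤ 1`): inside `closedBall z (r + 2)`; `om_mono`.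
`N * om (s • v i) ≤ (|t| μ i / s) * om (s • v i)`;  remainder: `om_line_le` with `a = z`, radius `r + 2` (`closedBall z (r+2) ⊆ tube z (v i) (r+2)`, `t = 0`), `ρ' ≤ s`. -/
theorem om_mean_le {n D : ℕ} {f : (Fin n → ℝ) → ℝ} (hf : Tame n D f) (j : Fin n) {α : Type*} (I : Finset α) (μ : α → ℝ)
    (v : α → Fin n → ℝ) (hμ0 : ∀ i ∈ I, 0 ≤ μ i) (hμ1 : ∑ i ∈ I, μ i = 1) (hvj : ∀ i ∈ I, v i j = 1)
    (hv : ∀ i ∈ I, ∀ k, |v i k| ≤ 1) (z : Fin n → ℝ) (r : ℝ) (hr : 0 ≤ r) (s : ℝ) (hs : 0 < s) (hs1 : s ≤ 1) (t : ℝ)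
    (ht : |t| ≤ 1 / 4) :
    om f (closedBall z r) (t • vbar I μ v) ≤
      ENNReal.ofReal |t| * ∑ i ∈ I, ENNReal.ofReal (μ i) * (om f (closedBall z (r + 2)) (s • v i) / ENNReal.ofReal s)
        + ENNReal.ofReal (I.card * (D * s * (4 * (r + 2)) ^ (n - 1))) := by
  have hμle : ∀ i ∈ I, μ i ≤ 1 := fun i hi => hμ1 ▸ Finset.single_le_sum hμ0 hi
  have hdec : t • vbar I μ v = ∑ i ∈ I, (t * μ i) • v i := by
    unfold vbar
    rw [Finset.smul_sum]
    exact Finset.sum_congr rfl fun i _ => smul_smul _ _ _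
  have habs : ∀ i ∈ I, |t * μ i| = |t| * μ i := fun i hi => by rw [abs_mul, abs_of_nonneg (hμ0 i hi)]
  have hsum : ∑ i ∈ I, ‖(t * μ i) • v i‖ ≤ 1 / 4 := by
    calc ∑ i ∈ I, ‖(t * μ i) • v i‖ ≤ ∑ i ∈ I, |t| * μ i := by
          refine Finset.sum_le_sum fun i hi => ?_
          have hwn : ‖v i‖ ≤ 1 := (pi_norm_le_iff_of_nonneg zero_le_one).2 (hv i hi)
          rw [norm_smul, Real.norm_eq_abs, habs i hi]
          exact mul_le_of_le_one_right (mul_nonneg (abs_nonneg t) (hμ0 i hi)) hwn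
      _ = |t| := by rw [← Finset.mul_sum, hμ1, mul_one]
      _ ≤ 1 / 4 := ht
  rw [hdec]
  refine (om_sum_le I _ z r (1 / 4) hsum).trans ?_
  have hE : 0 ≤ (D : ℝ) * s * (4 * (r + 2)) ^ (n - 1) :=
    mul_nonneg (mul_nonneg (Nat.cast_nonneg D) hs.le) (pow_nonneg (by linarith) _)
  have hterm : ∀ i ∈ I, om f (closedBall z (r + 1 / 4)) ((t * μ i) • v i) ≤
      ENNReal.ofReal |t| * (ENNReal.ofReal (μ i) * (om f (closedBall z (r + 2)) (s • v i) / ENNReal.ofReal s))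
        + ENNReal.ofReal (D * s * (4 * (r + 2)) ^ (n - 1)) := by
    intro i hi
    have h1 := path_seg hf j (v i) (hvj i hi) (hv i hi) z (r + 1 / 4) (r + 2) (by linarith) (by linarith) s hs
      (t * μ i) (by
        rw [habs i hi]
        exact (mul_le_of_le_one_right (abs_nonneg t) (hμle i hi)).trans ht)
    refine h1.trans (le_of_eq ?_)
    congr 1
    rw [habs i hi, ENNReal.ofReal_div_of_pos hs, ENNReal.ofReal_mul (abs_nonneg t), div_eq_mul_inv, div_eq_mul_inv]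
    ring
  refine (Finset.sum_le_sum hterm).trans (le_of_eq ?_)
  rw [Finset.sum_add_distrib, ← Finset.mul_sum, Finset.sum_const, nsmul_eq_mul,
    ENNReal.ofReal_mul (Nat.cast_nonneg _), ENNReal.ofReal_natCast]

theorem frameMap_apply_aux {n : ℕ} (u : Fin n → Fin n → ℝ) (y : Fin n → ℝ) (i : Fin n) :
    frameMap u y i = 1 / 4 * ∑ j, y j * u j i := by
  simp [frameMap, Fintype.linearCombination_apply, Finset.sum_apply]

theorem frameMap_off_aux {n : ℕ} (u : Fin n → Fin n → ℝ) (hu : ∀ j, u j j = 1 ∧ ∀ k, k ≠ j → |u j k| ≤ 1 / (4 * n))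
    (y : Fin n → ℝ) (i : Fin n) : |∑ j, y j * u j i - y i| ≤ ‖y‖ / 4 := by
  have hn : (0 : ℝ) < n := by exact_mod_cast i.pos
  have e : ∑ j, y j * u j i - y i = ∑ j, if j = i then 0 else y j * u j i := by
    have h1 : y i = ∑ j, if j = i then y j * u j i else 0 := by
      rw [Finset.sum_ite_eq' Finset.univ i, if_pos (Finset.mem_univ _), (hu i).1, mul_one]
    rw [h1, ← Finset.sum_sub_distrib]
    refine Finset.sum_congr rfl fun j _ => ?_
    by_cases h : j = i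
    · simp [h]
    · simp [h]
  rw [e]
  calc |∑ j, if j = i then 0 else y j * u j i| ≤ ∑ j, |if j = i then 0 else y j * u j i| := Finset.abs_sum_le_sum_abs _ _
    _ ≤ ∑ _j : Fin n, ‖y‖ * (1 / (4 * n)) := by
        refine Finset.sum_le_sum fun j _ => ?_
        by_cases h : j = i
        · rw [if_pos h, abs_zero]
          positivity
        · rw [if_neg h, abs_mul]
          exact mul_le_mul (norm_le_pi_norm y j) ((hu j).2 i (Ne.symm h)) (abs_nonneg _) (norm_nonneg _)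
    _ = ‖y‖ / 4 := by
        rw [Finset.sum_const, Finset.card_univ, Fintype.card_fin, nsmul_eq_mul]
        field_simp

/-- **LEAF L-MK-FRAME.**  `(frameMap u y) i = (1/4) (y i + ∑_{j ≠ i} y j * u j i)`, the sum is `≤ (n-1)/(4n) ‖y‖ ≤ ‖y‖/4`. -/
theorem frameMap_bounds {n : ℕ} (u : Fin n → Fin n → ℝ) (hu : ∀ j, u j j = 1 ∧ ∀ k, k ≠ j → |u j k| ≤ 1 / (4 * n))
    (y : Fin n → ℝ) : 3 / 16 * ‖y‖ ≤ ‖frameMap u y‖ ∧ ‖frameMap u y‖ ≤ 5 / 16 * ‖y‖ := by
  constructor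
  · rcases Nat.eq_zero_or_pos n with rfl | hn
    · have h0 : ‖y‖ = 0 := by
        rw [Subsingleton.elim y 0, norm_zero]
      rw [h0, mul_zero]
      exact norm_nonneg _
    · have : Nonempty (Fin n) := ⟨⟨0, hn⟩⟩
      obtain ⟨i, hi⟩ : ∃ i, ‖y‖ = ‖y i‖ := by
        obtain ⟨i, -, hi⟩ := Finset.exists_max_image Finset.univ (fun i => ‖y i‖) Finset.univ_nonempty
        refine ⟨i, le_antisymm ?_ (norm_le_pi_norm y i)⟩
        exact (pi_norm_le_iff_of_nonneg (norm_nonneg _)).2 fun j => hi j (Finset.mem_univ _)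
      have h1 := frameMap_off_aux u hu y i
      have h2 : ‖frameMap u y i‖ ≤ ‖frameMap u y‖ := norm_le_pi_norm _ i
      rw [frameMap_apply_aux, Real.norm_eq_abs, abs_mul, abs_of_pos (by norm_num : (0 : ℝ) < 1 / 4)] at h2
      rw [Real.norm_eq_abs] at hi
      have h3 : |y i| - ‖y‖ / 4 ≤ |∑ j, y j * u j i| := by
        have := abs_sub_abs_le_abs_sub (y i) (∑ j, y j * u j i)
        rw [abs_sub_comm] at this
        linarith
      linarith
  · refine (pi_norm_le_iff_of_nonneg (by positivity)).2 fun i => ?_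
    have h1 := frameMap_off_aux u hu y i
    rw [frameMap_apply_aux, Real.norm_eq_abs, abs_mul, abs_of_pos (by norm_num : (0 : ℝ) < 1 / 4)]
    have h2 : |y i| ≤ ‖y‖ := norm_le_pi_norm y i
    have h3 : |∑ j, y j * u j i| ≤ |y i| + ‖y‖ / 4 := by
      have := abs_sub_abs_le_abs_sub (∑ j, y j * u j i) (y i)
      linarith
    linarith

theorem frameMap_single {n : ℕ} (u : Fin n → Fin n → ℝ) (j : Fin n) (t : ℝ) :
    frameMap u (Pi.single j t) = (t / 4) • u j := by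
  funext i
  rw [frameMap_apply_aux, Finset.sum_eq_single j]
  · simp
    ring
  · intro k _ hk
    rw [Pi.single_eq_of_ne hk, zero_mul]
  · intro h
    exact absurd (Finset.mem_univ _) h

/-- **LEAF L-MK-VBAR.** convex combinations stay in the cone of directions. -/
theorem vbar_dir {n : ℕ} {α : Type*} (j : Fin n) (I : Finset α) (μ : α → ℝ) (v : α → Fin n → ℝ) (γ : ℝ)
    (hμ0 : ∀ i ∈ I, 0 ≤ μ i) (hμ1 : ∑ i ∈ I, μ i = 1) (hv : ∀ i ∈ I, v i j = 1 ∧ ∀ k, k ≠ j → |v i k| ≤ γ) :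
    vbar I μ v j = 1 ∧ ∀ k, k ≠ j → |vbar I μ v k| ≤ γ := by
  have e : ∀ k, vbar I μ v k = ∑ i ∈ I, μ i * v i k := by
    intro k
    simp [vbar, Finset.sum_apply]
  constructor
  · rw [e, ← hμ1]
    exact Finset.sum_congr rfl fun i hi => by rw [(hv i hi).1, mul_one]
  · intro k hk
    rw [e]
    calc |∑ i ∈ I, μ i * v i k| ≤ ∑ i ∈ I, |μ i * v i k| := Finset.abs_sum_le_sum_abs _ _
      _ ≤ ∑ i ∈ I, μ i * γ := by
          refine Finset.sum_le_sum fun i hi => ?_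
          rw [abs_mul, abs_of_nonneg (hμ0 i hi)]
          exact mul_le_mul_of_nonneg_left ((hv i hi).2 k hk) (hμ0 i hi)
      _ = γ := by rw [← Finset.sum_mul, hμ1, one_mul]

/-- `om` on a closed ball is finite -/
theorem local_om_ne_top {n : ℕ} (f : (Fin n → ℝ) → ℝ) (z : Fin n → ℝ) (r : ℝ) (h : Fin n → ℝ) :
    om f (closedBall z r) h ≠ ∞ :=
  ne_top_of_le_ne_top measure_closedBall_lt_top.ne om_le_volume

/-- `Wf ≥ 0` -/
theorem local_Wf_nonneg {n : ℕ} {α : Type*} (f : (Fin n → ℝ) → ℝ) (z : Fin n → ℝ) (s : ℝ) (hs : 0 < s) (I : Finset α)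
    (μ : α → ℝ) (v : α → Fin n → ℝ) (hμ0 : ∀ i ∈ I, 0 ≤ μ i) : 0 ≤ Wf f z s I μ v :=
  Finset.sum_nonneg fun i hi => mul_nonneg (hμ0 i hi) (div_nonneg ENNReal.toReal_nonneg hs.le)

/-- the `ℝ≥0∞` form of `Wf` -/
theorem local_Wf_ofReal {n : ℕ} {α : Type*} (f : (Fin n → ℝ) → ℝ) (z : Fin n → ℝ) (s : ℝ) (hs : 0 < s) (I : Finset α)
    (μ : α → ℝ) (v : α → Fin n → ℝ) (hμ0 : ∀ i ∈ I, 0 ≤ μ i) :
    ∑ i ∈ I, ENNReal.ofReal (μ i) * (om f (closedBall z 3) (s • v i) / ENNReal.ofReal s) =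
      ENNReal.ofReal (Wf f z s I μ v) := by
  unfold Wf
  rw [ENNReal.ofReal_sum_of_nonneg fun i hi => mul_nonneg (hμ0 i hi) (div_nonneg ENNReal.toReal_nonneg hs.le)]
  refine Finset.sum_congr rfl fun i hi => ?_
  rw [ENNReal.ofReal_mul (hμ0 i hi), ENNReal.ofReal_div_of_pos hs, ENNReal.ofReal_toReal (local_om_ne_top f z 3 _)]

/-- the unit cube is mapped into `closedBall z 1` -/
theorem local_maps {n : ℕ} (z : Fin n → ℝ) (B : (Fin n → ℝ) →ₗ[ℝ] (Fin n → ℝ)) (hup : ∀ y, ‖B y‖ ≤ 5 / 16 * ‖y‖)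
    (y : Fin n → ℝ) (hy : y ∈ box (fun _ : Fin n => (0 : ℝ)) (fun _ => 1)) :
    (z - fun _ => 1 / 4) + B y ∈ closedBall z 1 := by
  have hy1 : ‖y‖ ≤ 1 := by
    refine (pi_norm_le_iff_of_nonneg zero_le_one).2 fun i => ?_
    have h := hy i
    rw [Real.norm_eq_abs, abs_le]
    constructor <;> linarith [h.1, h.2]
  have hq : ‖(fun _ : Fin n => (1 / 4 : ℝ))‖ ≤ 1 / 4 := by
    refine (pi_norm_le_iff_of_nonneg (by norm_num)).2 fun i => ?_
    rw [Real.norm_eq_abs, abs_of_pos (by norm_num)]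
  rw [mem_closedBall, dist_eq_norm]
  have e : (z - fun _ => 1 / 4) + B y - z = B y - fun _ => 1 / 4 := by abel
  rw [e]
  calc ‖B y - fun _ => 1 / 4‖ ≤ ‖B y‖ + ‖(fun _ : Fin n => (1 / 4 : ℝ))‖ := norm_sub_le _ _
    _ ≤ 5 / 16 * ‖y‖ + 1 / 4 := add_le_add (hup y) hq
    _ ≤ 1 := by linarith

/-- **LEAF L-MK-LOCAL: the local claim.**   If `f` bisects (in the frame of the mean directions) all dyadic boxes of shape `a`, then `∑_j 2^{-a_j} W_j ≳ 1`.
PLAN.  `u j = vbar (I j) (μ j) v` (`vbar_dir`), `B = frameMap u`, `x0 = z - 1/4`, `g y = f (x0 + B y)`: `Tame` by `Tame.comp_affine` (`det_lower`, `κ = 3/16`).   `poincare_tiling` for `g` with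
`E j = ofReal ((16/3)^n * ((1/4) * (1/2^(a j)) * Wf .. + card * (D s 12^(n-1))))`:   `om g (unit cube) (single j t) ≤ ((3/16)^n)⁻¹ om f (closedBall z 1) ((t/4) • u j)` (`om_comp_affine_le`, `frameMap_single`; `‖x0 + B y - z‖ ≤ 1/4 + 5/16`),
`om_mean_le` with `r = 1`, `t/4`.   All `om` are finite (`om_le_volume`, `measure_closedBall_lt_top`): pass to `ℝ` with `ENNReal.ofReal`/`toReal`. -/
theorem local_claim {n D : ℕ} {f : (Fin n → ℝ) → ℝ} (hf : Tame n D f) {α : Type*} (z : Fin n → ℝ) (I : Fin n → Finset α)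
    (μ : Fin n → α → ℝ) (v : α → Fin n → ℝ) (hμ0 : ∀ j, ∀ i ∈ I j, 0 ≤ μ j i) (hμ1 : ∀ j, ∑ i ∈ I j, μ j i = 1)
    (hv : ∀ j, ∀ i ∈ I j, v i j = 1 ∧ ∀ k, k ≠ j → |v i k| ≤ 1 / (4 * n)) (s : ℝ) (hs : 0 < s) (hs1 : s ≤ 1)
    (a : Fin n → ℕ)
    (hbis : ∀ b, ∫ y in dbox a b,
      Real.sign (f ((z - fun _ => 1 / 4) + frameMap (fun j => vbar (I j) (μ j) v) y)) = 0) :
    1 ≤ 4 * (16 / 3 : ℝ) ^ n * ∑ j, (1 / 4 * (1 / 2 ^ a j) * Wf f z s (I j) (μ j) v
      + (I j).card * (D * s * 12 ^ (n - 1))) := by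
  have hud : ∀ j, vbar (I j) (μ j) v j = 1 ∧ ∀ k, k ≠ j → |vbar (I j) (μ j) v k| ≤ 1 / (4 * n) := fun j =>
    vbar_dir j (I j) (μ j) v _ (hμ0 j) (hμ1 j) (hv j)
  have hlow : ∀ y, 3 / 16 * ‖y‖ ≤ ‖frameMap (fun j => vbar (I j) (μ j) v) y‖ := fun y => (frameMap_bounds _ hud y).1
  have hup : ∀ y, ‖frameMap (fun j => vbar (I j) (μ j) v) y‖ ≤ 5 / 16 * ‖y‖ := fun y => (frameMap_bounds _ hud y).2
  have hdet : LinearMap.det (frameMap (fun j => vbar (I j) (μ j) v)) ≠ 0 := by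
    have h1 := det_lower _ (3 / 16) (by norm_num) hlow
    intro h0
    rw [h0, abs_zero] at h1
    have h2 : (0 : ℝ) < (3 / 16) ^ n := by positivity
    linarith
  have hg := hf.comp_affine (z - fun _ => 1 / 4) _ hdet
  have hW0 : ∀ j, 0 ≤ Wf f z s (I j) (μ j) v := fun j => local_Wf_nonneg f z s hs _ _ v (hμ0 j)
  have hX0 : ∀ j, 0 ≤ (16 / 3 : ℝ) ^ n * (1 / 4 * (1 / 2 ^ a j) * Wf f z s (I j) (μ j) v
      + (I j).card * (D * s * 12 ^ (n - 1))) := fun j => by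
    have := hW0 j
    positivity
  have key := poincare_tiling _ hg.cont.measurable hg.null a hbis
    (fun j => ENNReal.ofReal ((16 / 3 : ℝ) ^ n * (1 / 4 * (1 / 2 ^ a j) * Wf f z s (I j) (μ j) v
      + (I j).card * (D * s * 12 ^ (n - 1))))) ?_
  · rw [← ENNReal.ofReal_sum_of_nonneg fun j _ => hX0 j] at key
    have e4 : (4 : ℝ≥0∞) = ENNReal.ofReal 4 := by norm_num
    rw [e4, ← ENNReal.ofReal_mul (by norm_num), ENNReal.one_le_ofReal] at key
    rw [← Finset.mul_sum] at key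
    linarith
  · intro j t ht
    have hn : (1 : ℝ) ≤ n := by
      have : 1 ≤ n := by have := j.pos; omega
      exact_mod_cast this
    have h2a : (1 : ℝ) / 2 ^ a j ≤ 1 := by
      rw [div_le_one (by positivity)]
      exact one_le_pow₀ (by norm_num)
    have h1 := om_comp_affine_le f (z - fun _ => 1 / 4) (frameMap (fun j => vbar (I j) (μ j) v)) (3 / 16) (by norm_num)
      hlow (box (fun _ => 0) (fun _ => 1)) (closedBall z 1) (fun y hy => local_maps z _ hup y hy) (Pi.single j t)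
    rw [frameMap_single] at h1
    have hv1 : ∀ i ∈ I j, ∀ k, |v i k| ≤ 1 := fun i hi k => by
      by_cases hk : k = j
      · rw [hk, (hv j i hi).1, abs_one]
      · refine ((hv j i hi).2 k hk).trans ?_
        rw [div_le_one (by positivity)]
        linarith
    have ht4 : |t / 4| = |t| / 4 := by rw [abs_div, abs_of_pos (by norm_num : (0 : ℝ) < 4)]
    have h2 := om_mean_le hf j (I j) (μ j) v (hμ0 j) (hμ1 j) (fun i hi => (hv j i hi).1) hv1 z 1 zero_le_one s hs hs1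
      (t / 4) (by rw [ht4]; linarith)
    have e3 : (1 : ℝ) + 2 = 3 := by norm_num
    rw [e3, local_Wf_ofReal f z s hs _ _ v (hμ0 j), ← ENNReal.ofReal_mul (abs_nonneg _),
      ← ENNReal.ofReal_add (mul_nonneg (abs_nonneg _) (hW0 j)) (by positivity)] at h2
    refine h1.trans ((mul_le_mul' le_rfl h2).trans ?_)
    rw [← ENNReal.ofReal_mul (by positivity)]
    refine ENNReal.ofReal_le_ofReal ?_
    have e5 : (((3 : ℝ) / 16) ^ n)⁻¹ = (16 / 3) ^ n := by
      rw [← inv_pow]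
      norm_num
    rw [e5]
    refine mul_le_mul_of_nonneg_left ?_ (by positivity)
    have e6 : (4 : ℝ) * 3 = 12 := by norm_num
    rw [e6]
    refine add_le_add (mul_le_mul_of_nonneg_right ?_ (hW0 j)) le_rfl
    rw [ht4]
    linarith

end Claimed.Agent.MK
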