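import Claimed.Agent.Lib.MK.Defs

/-!
# Lib/MK, file 2: elementary properties of `om` (unit U1)            (architect helper13)            CONTRACT
PAPER-FREE, Mathlib only.  Every `sorry` is a leaf `L-MK-*` (name in the docstring).  Statements are frozen; auxiliary lemmas directly above your theorem; edit only your block.
-/

set_option autoImplicit false
open MeasureTheory Set Metric
open scoped ENNReal BigOperators

namespace Claimed.Agent.MK

variable {n : ℕ} {f : (Fin n → ℝ) → ℝ} {R R' : Set (Fin n → ℝ)} {h h' : Fin n → ℝ}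

theorem measurable_sign : Measurable Real.sign := by
  unfold Real.sign
  exact Measurable.ite measurableSet_Iio measurable_const (Measurable.ite measurableSet_Ioi measurable_const measurable_const)

theorem measurableSet_dis (hf : Measurable f) (hR : MeasurableSet R) (h : Fin n → ℝ) :
    MeasurableSet (dis f R h) := by
  have h1 : Measurable fun x : Fin n → ℝ => Real.sign (f (x + h)) := measurable_sign.comp (hf.comp (measurable_id.add_const h))
  have h2 : Measurable fun x : Fin n → ℝ => Real.sign (f x) := measurable_sign.comp hf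
  exact hR.inter (measurableSet_eq_fun h1 h2).compl

theorem dis_subset : dis f R h ⊆ R := fun _ hx => hx.1

theorem om_mono (hR : R ⊆ R') : om f R h ≤ om f R' h :=
  measure_mono fun _ hx => ⟨hR hx.1, hx.2⟩

theorem om_le_volume : om f R h ≤ volume R := measure_mono dis_subset

theorem om_neg_fun : om (fun x => - f x) R h = om f R h := by
  unfold om dis
  congr 1
  ext x
  simp only [mem_setOf_eq, Real.sign_neg, ne_eq, neg_inj]

theorem om_zero : om f R 0 = 0 := by
  unfold om dis
  simp

/-- **LEAF L-MK-OM (1).**  `dis f R (h+h') ⊆ dis f R h ∪ (· + h) ⁻¹' dis f R' h'`; `measure_preimage_add_right`. -/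
theorem om_add_le (hR : ∀ x ∈ R, x + h ∈ R') : om f R (h + h') ≤ om f R h + om f R' h' := by
  unfold om
  have hsub : dis f R (h + h') ⊆ dis f R h ∪ (fun x => x + h) ⁻¹' dis f R' h' := by
    intro x hx
    by_cases h1 : Real.sign (f (x + h)) = Real.sign (f x)
    · right
      refine ⟨hR x hx.1, ?_⟩
      have h2 := hx.2
      rw [← add_assoc] at h2
      rw [h1]
      exact h2
    · left
      exact ⟨hx.1, h1⟩
  calc volume (dis f R (h + h')) ≤ volume (dis f R h ∪ (fun x => x + h) ⁻¹' dis f R' h') := measure_mono hsub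
    _ ≤ volume (dis f R h) + volume ((fun x => x + h) ⁻¹' dis f R' h') := measure_union_le _ _
    _ = volume (dis f R h) + volume (dis f R' h') := by rw [measure_preimage_add_right]

/-- **LEAF L-MK-OM (2).**  `dis f R (-h) ⊆ (· - h) ⁻¹' dis f R' h`. -/
theorem om_neg_le (hR : ∀ x ∈ R, x - h ∈ R') : om f R (-h) ≤ om f R' h := by
  unfold om
  have hsub : dis f R (-h) ⊆ (fun x => x + (-h)) ⁻¹' dis f R' h := by
    intro x hx
    refine ⟨by simpa [sub_eq_add_neg] using hR x hx.1, ?_⟩
    have h2 := hx.2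
    show Real.sign (f (x + -h + h)) ≠ Real.sign (f (x + -h))
    rw [neg_add_cancel_right]
    exact h2.symm
  calc volume (dis f R (-h)) ≤ volume ((fun x => x + (-h)) ⁻¹' dis f R' h) := measure_mono hsub
    _ = volume (dis f R' h) := by rw [measure_preimage_add_right]

theorem om_ball_add {z x g : Fin n → ℝ} {r : ℝ} (hx : x ∈ closedBall z r) : x + g ∈ closedBall z (r + ‖g‖) := by
  rw [mem_closedBall, dist_eq_norm] at hx ⊢
  calc ‖x + g - z‖ = ‖(x - z) + g‖ := by congr 1; abel
    _ ≤ ‖x - z‖ + ‖g‖ := norm_add_le _ _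
    _ ≤ r + ‖g‖ := by linarith

/-- **LEAF L-MK-OM (3).**  Induction on `N` with `om_add_le` (`(N+1) • h = N • h + h`; `x ∈ closedBall z r → x + N • h ∈ closedBall z (r + N ‖h‖)`), `om_mono`. -/
theorem om_nsmul_le (N : ℕ) (z : Fin n → ℝ) (r : ℝ) :
    om f (closedBall z r) (N • h) ≤ N * om f (closedBall z (r + N * ‖h‖)) h := by
  induction N with
  | zero => simp [om_zero]
  | succ N ih =>
    have h0 : 0 ≤ ‖h‖ := norm_nonneg _
    have hsub : closedBall z (r + N * ‖h‖) ⊆ closedBall z (r + (N + 1 : ℕ) * ‖h‖) := by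
      apply closedBall_subset_closedBall
      push_cast
      linarith
    have h1 : om f (closedBall z r) (N • h + h) ≤ om f (closedBall z r) (N • h) + om f (closedBall z (r + N * ‖h‖)) h := by
      apply om_add_le
      intro x hx
      have h2 := om_ball_add (g := N • h) hx
      refine closedBall_subset_closedBall ?_ h2
      have : ‖N • h‖ ≤ N * ‖h‖ := by
        rw [← Nat.cast_smul_eq_nsmul ℝ, norm_smul]
        simp
      linarith
    rw [succ_nsmul]
    calc om f (closedBall z r) (N • h + h) ≤ om f (closedBall z r) (N • h) + om f (closedBall z (r + N * ‖h‖)) h := h1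
      _ ≤ N * om f (closedBall z (r + N * ‖h‖)) h + om f (closedBall z (r + N * ‖h‖)) h := by gcongr
      _ = (N + 1 : ℕ) * om f (closedBall z (r + N * ‖h‖)) h := by push_cast; ring
      _ ≤ (N + 1 : ℕ) * om f (closedBall z (r + (N + 1 : ℕ) * ‖h‖)) h := by
        gcongr
        exact om_mono hsub

/-- **LEAF L-MK-OM (4).**  `Finset.induction_on` (generalise `r`, `ρ`), `om_add_le`, `om_mono`. -/
theorem om_sum_le {ι : Type*} (I : Finset ι) (g : ι → Fin n → ℝ) (z : Fin n → ℝ) (r ρ : ℝ)
    (hρ : ∑ i ∈ I, ‖g i‖ ≤ ρ) :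
    om f (closedBall z r) (∑ i ∈ I, g i) ≤ ∑ i ∈ I, om f (closedBall z (r + ρ)) (g i) := by
  classical
  induction I using Finset.induction_on generalizing r ρ with
  | empty => simp [om_zero]
  | insert a s ha ih =>
    rw [Finset.sum_insert ha] at hρ ⊢
    rw [Finset.sum_insert ha]
    have hs0 : 0 ≤ ∑ i ∈ s, ‖g i‖ := Finset.sum_nonneg fun _ _ => norm_nonneg _
    have h1 : om f (closedBall z r) (g a + ∑ i ∈ s, g i) ≤ om f (closedBall z r) (g a) + om f (closedBall z (r + ‖g a‖)) (∑ i ∈ s, g i) :=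
      om_add_le fun x hx => om_ball_add hx
    have h2 := ih (r + ‖g a‖) (ρ - ‖g a‖) (by linarith)
    have e : r + ‖g a‖ + (ρ - ‖g a‖) = r + ρ := by ring
    rw [e] at h2
    have h3 : om f (closedBall z r) (g a) ≤ om f (closedBall z (r + ρ)) (g a) :=
      om_mono (closedBall_subset_closedBall (by have := norm_nonneg (g a); linarith))
    exact h1.trans (add_le_add h3 h2)

open Classical in
/-- **LEAF L-MK-OM (5): bounded overlap.**  `∑_k μ(A ∩ R_k) = ∫⁻_A ∑_k 1_{R_k} ≤ N μ(A)` (`Measure.restrict_apply`, `lintegral_indicator_one`, `lintegral_finset_sum`). -/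
theorem om_sum_overlap {κ : Type*} (K : Finset κ) (Rk : κ → Set (Fin n → ℝ)) (hRk : ∀ k ∈ K, MeasurableSet (Rk k))
    (N : ℕ) (hN : ∀ x, (K.filter fun k => x ∈ Rk k).card ≤ N) (hsub : ∀ k ∈ K, Rk k ⊆ R) :
    ∑ k ∈ K, om f (Rk k) h ≤ N * om f R h := by
  have h1 : ∀ k ∈ K, om f (Rk k) h = ∫⁻ x, (Rk k).indicator 1 x ∂(volume.restrict (dis f R h)) := by
    intro k hk
    rw [lintegral_indicator_one (hRk k hk), Measure.restrict_apply (hRk k hk)]
    unfold om
    congr 1
    ext x
    constructor
    · intro hx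
      exact ⟨hx.1, hsub k hk hx.1, hx.2⟩
    · intro hx
      exact ⟨hx.1, hx.2.2⟩
  have h2 : ∑ k ∈ K, ∫⁻ x, (Rk k).indicator (1 : (Fin n → ℝ) → ℝ≥0∞) x ∂(volume.restrict (dis f R h))
      = ∫⁻ x, ∑ k ∈ K, (Rk k).indicator (1 : (Fin n → ℝ) → ℝ≥0∞) x ∂(volume.restrict (dis f R h)) :=
    (lintegral_finsetSum' K (fun k hk => ((measurable_one (α := ℝ≥0∞) (β := Fin n → ℝ)).indicator (hRk k hk)).aemeasurable)).symm
  rw [Finset.sum_congr rfl h1, h2]
  calc ∫⁻ x, ∑ k ∈ K, (Rk k).indicator 1 x ∂(volume.restrict (dis f R h))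
      ≤ ∫⁻ _x, (N : ℝ≥0∞) ∂(volume.restrict (dis f R h)) := by
        apply lintegral_mono
        intro x
        have : ∑ k ∈ K, (Rk k).indicator (1 : (Fin n → ℝ) → ℝ≥0∞) x = ((K.filter fun k => x ∈ Rk k).card : ℝ≥0∞) := by
          rw [Finset.card_filter]
          push_cast
          refine Finset.sum_congr rfl fun k _ => ?_
          simp [Set.indicator_apply]
        show ∑ k ∈ K, (Rk k).indicator (1 : (Fin n → ℝ) → ℝ≥0∞) x ≤ N
        rw [this]
        exact_mod_cast hN x
    _ = N * om f R h := by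
        rw [lintegral_const, Measure.restrict_apply_univ]
        rfl

end Claimed.Agent.MK
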