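import Claimed.Agent.R252.Mlk.Main
import Claimed.Agent.Lib.MK.Core

/-!
# Lib/MK, file 10: consumer forms of the ENDPOINT multilinear Kakeya theorem (unit U12)            (architect helper13)            CONTRACT
PAPER-FREE.  Vocabulary of `R252/Mlk` (helper206): `mlkCube`, `mlkSh`, `mlkTube`, `mlkCount`.   Everything here is LOSSLESS: no `S^ε`, no restriction on the position or number of the points.
* `mke_small`  : near-axis sheared tubes, points with multiplicity `≤ μ` per `ρ`-cube (endpoint version of `mlk_small`);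
* `mke_cap`, `mke_caps` : verbatim clones of helper206's `mlk_cap`, `mlk_caps`;
* **`mke_main`**, `mke_scaled` : `∑_b (mlkCount .. (z b))^{1/(n-1)} ≤ C_n (ρ/θ)^{n²+n} ∏_i (∑_{A i} w)^{1/(n-1)}`;
* **`mke_lintegral`** : integral form on `Fin n → ℝ`;   **`mk_endpoint`** : Euclidean cylinders (= Prop. p:kakeya of the higher dimensional Schroedinger paper with `ϑ^{-(d²+d)}`).
Every `sorry` is a leaf `L-MK-*`.  Statements are frozen; auxiliary lemmas directly above your theorem; edit only your block.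
-/

set_option autoImplicit false
open MeasureTheory Set Metric
open scoped ENNReal BigOperators
open Claimed.Agent.R252

namespace Claimed.Agent.MK

theorem cmk_nonneg (n : ℕ) : 0 ≤ cmk n := by
  unfold cmk cvis
  positivity

open Classical in
/-- **LEAF L-MK-SMALL: endpoint version of `R252.mlk_small`.**
PLAN.  `α' = Fin n × α`, `A' j = (A j).map ⟨fun a => (j, a), _⟩` (or `Finset.image`), `a' (j,a) = fun i => if i = j then 0 else c j a i / ρ`, `v' (j,a) = fun i => if i = j then 1 else s j a i`, `w' (j,a) = w a`.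
`k b = fun i => ⌊z b i / ρ⌋`, `K = B.image k`.   If `z b ∈ mlkSh j (c j a) (s j a) ρ` then `x = z b / ρ ∈ tube (a' (j,a)) (v' (j,a)) 1` (parameter `t = x j`; `pi_norm_le_iff_of_nonneg`) and `x ∈ closedBall (ctr (k b)) (1/2)` (`Int.floor_le`, `Int.lt_floor_add_one`): `hit`.
So the inner sum is `≤ Fk (A' j) a' v' w' (k b)` (`Finset.sum_map`/`sum_image`).   `Finset.sum_fiberwise_of_maps_to`/`Finset.sum_comp`: `∑_b g (k b) = ∑_{κ ∈ K} #{b : k b = κ} g κ`, `{b : k b = κ} = {b : z b ∈ mlkCube (ρ κ) ρ}`, `≤ μ`.   `mk_core`. -/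
theorem mke_small (n : ℕ) (hn : 2 ≤ n) (ρ : ℝ) (hρ : 0 < ρ) (μ : ℕ) {α β : Type*}
    (c s : Fin n → α → Fin n → ℝ) (w : α → ℝ) (hw : ∀ a, 0 ≤ w a) (z : β → Fin n → ℝ)
    (A : Fin n → Finset α) (B : Finset β) (hs : ∀ j, ∀ a ∈ A j, ∀ i, i ≠ j → |s j a i| ≤ 1 / (4 * (n : ℝ)))
    (hμ : ∀ q' : Fin n → ℝ, (B.filter fun b => z b ∈ mlkCube q' ρ).card ≤ μ) :
    ∑ b ∈ B, ∏ j, (∑ a ∈ A j, if z b ∈ mlkSh j (c j a) (s j a) ρ then w a else 0) ^ (1 / ((n : ℝ) - 1))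
      ≤ μ * cmk n * ∏ j, (∑ a ∈ A j, w a) ^ (1 / ((n : ℝ) - 1)) := by
  have hn2 : (2 : ℝ) ≤ n := by exact_mod_cast hn
  have hγ : 0 ≤ 1 / ((n : ℝ) - 1) := div_nonneg zero_le_one (by linarith)
  obtain ⟨γ, hγdef⟩ : ∃ γ : ℝ, γ = 1 / ((n : ℝ) - 1) := ⟨_, rfl⟩
  rw [← hγdef] at hγ ⊢
  obtain ⟨emb, hemb⟩ : ∃ emb : Fin n → α ↪ Fin n × α, ∀ j a, emb j a = (j, a) :=
    ⟨fun j => ⟨fun a => (j, a), fun a b h => (Prod.mk.inj h).2⟩, fun _ _ => rfl⟩
  obtain ⟨A', hA'⟩ : ∃ A' : Fin n → Finset (Fin n × α), ∀ j, A' j = (A j).map (emb j) := ⟨_, fun _ => rfl⟩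
  obtain ⟨a', ha'⟩ : ∃ a' : Fin n × α → Fin n → ℝ, ∀ x i, a' x i = if i = x.1 then 0 else c x.1 x.2 i / ρ :=
    ⟨_, fun _ _ => rfl⟩
  obtain ⟨v', hv'⟩ : ∃ v' : Fin n × α → Fin n → ℝ, ∀ x i, v' x i = if i = x.1 then 1 else s x.1 x.2 i :=
    ⟨_, fun _ _ => rfl⟩
  obtain ⟨w', hw'⟩ : ∃ w' : Fin n × α → ℝ, ∀ x, w' x = w x.2 := ⟨_, fun _ => rfl⟩
  obtain ⟨k, hk⟩ : ∃ k : β → Fin n → ℤ, ∀ b i, k b i = ⌊z b i / ρ⌋ := ⟨_, fun _ _ => rfl⟩
  have hw'0 : ∀ x, 0 ≤ w' x := fun x => by rw [hw']; exact hw _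
  have hvv : ∀ j, ∀ x ∈ A' j, v' x j = 1 ∧ ∀ i, i ≠ j → |v' x i| ≤ 1 / (4 * (n : ℝ)) := by
    intro j x hx
    rw [hA', Finset.mem_map] at hx
    obtain ⟨a, ha, rfl⟩ := hx
    rw [hemb]
    refine ⟨by rw [hv', if_pos rfl], fun i hi => ?_⟩
    rw [hv', if_neg hi]
    exact hs j a ha i hi
  have hhit : ∀ b j a, z b ∈ mlkSh j (c j a) (s j a) ρ → hit (a' (j, a)) (v' (j, a)) (k b) := by
    intro b j a hz
    refine ⟨fun i => z b i / ρ, ⟨z b j / ρ, ?_⟩, ?_⟩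
    · rw [pi_norm_le_iff_of_nonneg zero_le_one]
      intro i
      simp only [Pi.sub_apply, Pi.smul_apply, smul_eq_mul, ha', hv']
      by_cases hi : i = j
      · subst hi
        simp
      · rw [if_neg hi, if_neg hi, Real.norm_eq_abs]
        have h1 := hz i hi
        have e : z b i / ρ - c j a i / ρ - z b j / ρ * s j a i = (z b i - c j a i - s j a i * z b j) / ρ := by
          field_simp
        rw [e, abs_div, abs_of_pos hρ, div_le_one hρ]
        exact h1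
    · rw [mem_closedBall, dist_pi_le_iff (by norm_num)]
      intro i
      rw [Real.dist_eq]
      unfold ctr
      rw [hk, abs_le]
      have h1 := Int.floor_le (z b i / ρ)
      have h2 := Int.lt_floor_add_one (z b i / ρ)
      constructor <;> linarith
  have hF : ∀ b j, ∑ a ∈ A j, (if z b ∈ mlkSh j (c j a) (s j a) ρ then w a else 0)
      ≤ Fk (A' j) a' v' w' (k b) := by
    intro b j
    unfold Fk
    rw [hA', Finset.sum_map]
    refine Finset.sum_le_sum fun a _ => ?_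
    rw [hemb, hw']
    by_cases hz : z b ∈ mlkSh j (c j a) (s j a) ρ
    · rw [if_pos hz, if_pos (hhit b j a hz)]
    · rw [if_neg hz]
      split_ifs <;> [exact hw a; exact le_rfl]
  obtain ⟨g, hg⟩ : ∃ g : (Fin n → ℤ) → ℝ, ∀ κ, g κ = ∏ j, (Fk (A' j) a' v' w' κ) ^ γ := ⟨_, fun _ => rfl⟩
  have hg0 : ∀ κ, 0 ≤ g κ := fun κ => by
    rw [hg]
    exact Finset.prod_nonneg fun j _ => Real.rpow_nonneg (core_Fk_nonneg _ _ _ _ hw'0 κ) _
  have h1 : ∑ b ∈ B, ∏ j, (∑ a ∈ A j, if z b ∈ mlkSh j (c j a) (s j a) ρ then w a else 0) ^ γ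
      ≤ ∑ b ∈ B, g (k b) := by
    refine Finset.sum_le_sum fun b _ => ?_
    rw [hg]
    refine Finset.prod_le_prod (fun j _ => Real.rpow_nonneg (Finset.sum_nonneg fun a _ => by
      split_ifs <;> [exact hw a; exact le_rfl]) _) fun j _ => ?_
    exact Real.rpow_le_rpow (Finset.sum_nonneg fun a _ => by split_ifs <;> [exact hw a; exact le_rfl]) (hF b j) hγ
  have h2 : ∑ b ∈ B, g (k b) ≤ μ * ∑ κ ∈ B.image k, g κ := by
    rw [← Finset.sum_fiberwise_of_maps_to (t := B.image k) (g := k) (fun b hb => Finset.mem_image_of_mem k hb),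
      Finset.mul_sum]
    refine Finset.sum_le_sum fun κ _ => ?_
    have e : ∑ b ∈ B.filter (fun b => k b = κ), g (k b) = ((B.filter fun b => k b = κ).card : ℝ) * g κ := by
      rw [Finset.sum_congr rfl (fun b hb => by rw [(Finset.mem_filter.1 hb).2]), Finset.sum_const, nsmul_eq_mul]
    rw [e]
    refine mul_le_mul_of_nonneg_right ?_ (hg0 κ)
    have hsub : B.filter (fun b => k b = κ) ⊆ B.filter fun b => z b ∈ mlkCube (fun i => ρ * (κ i : ℝ)) ρ := by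
      intro b hb
      obtain ⟨hbB, hbk⟩ := Finset.mem_filter.1 hb
      refine Finset.mem_filter.2 ⟨hbB, fun i => ?_⟩
      have h3 : ⌊z b i / ρ⌋ = κ i := by rw [← hk, hbk]
      have h4 := Int.floor_le (z b i / ρ)
      have h5 := Int.lt_floor_add_one (z b i / ρ)
      rw [h3] at h4 h5
      rw [le_div_iff₀ hρ] at h4
      rw [div_lt_iff₀ hρ] at h5
      constructor <;> nlinarith
    exact_mod_cast (Finset.card_le_card hsub).trans (hμ _)
  have h3 := mk_core hn A' a' v' w' hw'0 hvv (B.image k)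
  have e4 : ∀ j, ∑ x ∈ A' j, w' x = ∑ a ∈ A j, w a := by
    intro j
    rw [hA', Finset.sum_map]
    exact Finset.sum_congr rfl fun a _ => by rw [hemb, hw']
  simp only [e4] at h3
  rw [← hγdef] at h3
  have h3' : ∑ κ ∈ B.image k, g κ ≤ cmk n * ∏ j, (∑ a ∈ A j, w a) ^ γ := by
    simpa only [hg] using h3
  calc ∑ b ∈ B, ∏ j, (∑ a ∈ A j, if z b ∈ mlkSh j (c j a) (s j a) ρ then w a else 0) ^ γ
      ≤ ∑ b ∈ B, g (k b) := h1
    _ ≤ μ * ∑ κ ∈ B.image k, g κ := h2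
    _ ≤ μ * (cmk n * ∏ j, (∑ a ∈ A j, w a) ^ γ) := mul_le_mul_of_nonneg_left h3' (Nat.cast_nonneg μ)
    _ = μ * cmk n * ∏ j, (∑ a ∈ A j, w a) ^ γ := by ring

open Classical in
/-- one tuple of caps: clone of `R252.mlk_cap` (proof by helper206) -/
theorem mke_cap (n D : ℕ) (hn : 2 ≤ n) (hD : 1 ≤ D) (hDn : 4 * n ≤ D) (ρ θ : ℝ) (hρ : 1 ≤ ρ) (hθ : 0 < θ) (hθ1 : θ ≤ 1)
    {α β : Type*} (A : Fin n → Finset α) (p e : α → Fin n → ℝ) (w : α → ℝ) (hw : ∀ a, 0 ≤ w a)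
    (u : Fin n → Fin n → ℝ) (hu : ∀ i k, |u i k| ≤ 1) (hdet : θ ≤ |Matrix.det (Matrix.of u)|)
    (hcap : ∀ i, ∀ a ∈ A i, ∀ k, |e a k - u i k| ≤ θ / (4 * n * n.factorial * D))
    (B : Finset β) (z : β → Fin n → ℝ) (hsep : ∀ b ∈ B, ∀ b' ∈ B, b ≠ b' → ∃ i, 1 ≤ |z b i - z b' i|)
    :
    ∑ b ∈ B, ∏ i, (∑ a ∈ A i, if z b ∈ mlkTube (p a) (e a) ρ then w a else 0) ^ (1 / ((n : ℝ) - 1))
      ≤ (7 * (n : ℝ) ^ 2 * n.factorial * ρ / θ) ^ n * cmk n
        * ∏ i, (∑ a ∈ A i, w a) ^ (1 / ((n : ℝ) - 1)) := by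
  have hn0 : 0 < n := by omega
  have hnR : (0 : ℝ) < n := by exact_mod_cast hn0
  have hfR : (0 : ℝ) < (n.factorial : ℝ) := by exact_mod_cast n.factorial_pos
  have hDR : (1 : ℝ) ≤ (D : ℝ) := by exact_mod_cast hD
  have hD0 : (0 : ℝ) < (D : ℝ) := by linarith
  obtain ⟨U, hUdef⟩ : ∃ U : Matrix (Fin n) (Fin n) ℝ, U = (Matrix.of u).transpose := ⟨_, rfl⟩
  have hUdet : θ ≤ |U.det| := by rw [hUdef, Matrix.det_transpose]; exact hdet
  have hUne : U.det ≠ 0 := by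
    intro h
    rw [h, abs_zero] at hUdet
    linarith
  have hUunit : IsUnit U.det := isUnit_iff_ne_zero.2 hUne
  have hUent : ∀ i j, |U i j| ≤ 1 := fun i j => by rw [hUdef]; exact hu j i
  obtain ⟨Li, hLidef⟩ : ∃ Li : Matrix (Fin n) (Fin n) ℝ, Li = U⁻¹ := ⟨_, rfl⟩
  obtain ⟨lam, hlam⟩ : ∃ lam : ℝ, lam = (n.factorial : ℝ) / θ := ⟨_, rfl⟩
  have hlam0 : 0 < lam := by rw [hlam]; positivity
  have hLi : ∀ i j, |Li i j| ≤ lam := fun i j => by
    rw [hLidef, hlam]; exact mlk_inv_bound U hUent θ hθ hUdet i j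
  have hLU : Li * U = 1 := by rw [hLidef]; exact Matrix.nonsing_inv_mul U hUunit
  have hUL : U * Li = 1 := by rw [hLidef]; exact Matrix.mul_nonsing_inv U hUunit
  have hLu : ∀ i, Li.mulVec (u i) = Pi.single i 1 := by
    intro i
    have h1 : u i = U.mulVec (Pi.single i 1) := by
      ext k
      rw [Matrix.mulVec_single_one, hUdef]
      rfl
    rw [h1, Matrix.mulVec_mulVec, hLU, Matrix.one_mulVec]
  -- directions
  have hdir : ∀ i, ∀ a ∈ A i, ∀ k, |(Li.mulVec (e a)) k - (Pi.single i 1 : Fin n → ℝ) k| ≤ 1 / (4 * D) := by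
    intro i a ha k
    have h1 : (Li.mulVec (e a)) k - (Pi.single i 1 : Fin n → ℝ) k = (Li.mulVec (e a - u i)) k := by
      rw [Matrix.mulVec_sub, hLu i]; rfl
    rw [h1]
    refine (mlk_mulVec_bound Li lam _ hLi (e a - u i) (fun l => hcap i a ha l) k).trans (le_of_eq ?_)
    rw [hlam]
    field_simp
  have hDq : 1 / (4 * (D : ℝ)) ≤ 1 / 4 := by
    rw [div_le_div_iff₀ (by positivity) (by norm_num)]
    linarith
  have hEi : ∀ i, ∀ a ∈ A i, 3 / 4 ≤ (Li.mulVec (e a)) i := by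
    intro i a ha
    have h := abs_le.1 (hdir i a ha i)
    rw [Pi.single_eq_same] at h
    linarith [h.1]
  have hEk : ∀ i, ∀ a ∈ A i, ∀ k, k ≠ i → |(Li.mulVec (e a)) k| ≤ 1 / (4 * D) := by
    intro i a ha k hk
    have h := hdir i a ha k
    rwa [Pi.single_eq_of_ne hk, sub_zero] at h
  obtain ⟨ρ', hρ'⟩ : ∃ ρ' : ℝ, ρ' = 2 * (n * lam * ρ) := ⟨_, rfl⟩
  have hρ'0 : 0 < ρ' := by rw [hρ']; positivity
  obtain ⟨T, hT⟩ : ∃ T : ℕ, T = ⌈(n : ℝ) * ρ'⌉₊ := ⟨_, rfl⟩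
  have hsmall := mke_small n hn ρ' hρ'0 ((2 * T + 1) ^ n)
    (fun i a k => (Li.mulVec (p a)) k - (Li.mulVec (e a)) k / (Li.mulVec (e a)) i * (Li.mulVec (p a)) i)
    (fun i a k => (Li.mulVec (e a)) k / (Li.mulVec (e a)) i) w hw (fun b => Li.mulVec (z b)) A B
    (by
      intro i a ha k hk
      have h1 := hEi i a ha
      have h2 := hEk i a ha k hk
      have hD4 : (4 : ℝ) * n ≤ D := by exact_mod_cast hDn
      refine le_trans ?_ (one_div_le_one_div_of_le (by positivity) hD4)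
      rw [abs_div, abs_of_pos (by linarith : 0 < (Li.mulVec (e a)) i), div_le_div_iff₀ (by linarith) hD0]
      have h3 : |(Li.mulVec (e a)) k| * D ≤ 1 / 4 := by
        calc |(Li.mulVec (e a)) k| * D ≤ 1 / (4 * D) * D := mul_le_mul_of_nonneg_right h2 hD0.le
          _ = 1 / 4 := by field_simp
      linarith)
    (by
      intro q'
      refine mlk_pack _ z (fun b hb b' hb' hne => hsep b (Finset.mem_filter.1 hb).1 b' (Finset.mem_filter.1 hb').1 hne) T ?_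
      intro b hb b' hb' i
      have hb1 := (Finset.mem_filter.1 hb).2
      have hb2 := (Finset.mem_filter.1 hb').2
      have h1 : z b - z b' = U.mulVec (Li.mulVec (z b - z b')) := by
        rw [Matrix.mulVec_mulVec, hUL, Matrix.one_mulVec]
      have h2 : ∀ l, |(Li.mulVec (z b - z b')) l| ≤ ρ' := by
        intro l
        rw [Matrix.mulVec_sub]
        have e1 := hb1 l
        have e2 := hb2 l
        show |(Li.mulVec (z b)) l - (Li.mulVec (z b')) l| ≤ ρ'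
        rw [abs_le]
        constructor <;> linarith [e1.1, e1.2, e2.1, e2.2]
      have h3 := mlk_mulVec_bound U 1 ρ' hUent _ h2 i
      rw [← h1] at h3
      have h4 : (n : ℝ) * ρ' ≤ T := by rw [hT]; exact Nat.le_ceil _
      calc |z b i - z b' i| = |(z b - z b') i| := rfl
        _ ≤ n * 1 * ρ' := h3
        _ ≤ T := by linarith)
  have hγ : 0 ≤ 1 / ((n : ℝ) - 1) := by
    have : (2 : ℝ) ≤ n := by exact_mod_cast hn
    apply div_nonneg zero_le_one; linarith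
  have hP0 : 0 ≤ ∏ i, (∑ a ∈ A i, w a) ^ (1 / ((n : ℝ) - 1)) :=
    Finset.prod_nonneg fun i _ => Real.rpow_nonneg (Finset.sum_nonneg fun a _ => hw a) _
  calc ∑ b ∈ B, ∏ i, (∑ a ∈ A i, if z b ∈ mlkTube (p a) (e a) ρ then w a else 0) ^ (1 / ((n : ℝ) - 1))
      ≤ _ := by
        refine Finset.sum_le_sum fun b _ => Finset.prod_le_prod
          (fun i _ => Real.rpow_nonneg (Finset.sum_nonneg fun a _ => by split_ifs <;> [exact hw a; exact le_rfl]) _)
          fun i _ => Real.rpow_le_rpow (Finset.sum_nonneg fun a _ => by split_ifs <;> [exact hw a; exact le_rfl])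
            (Finset.sum_le_sum fun a ha => ?_) hγ
        by_cases hz : z b ∈ mlkTube (p a) (e a) ρ
        · have h1 := mlk_tube_map Li lam hLi (p a) (e a) (z b) ρ hz
          have h2 := mlk_tube_sh i _ _ _ _ (hEi i a ha)
            (fun k hk => (hEk i a ha k hk).trans (by linarith)) h1
          rw [← hρ'] at h2
          rw [if_pos hz, if_pos h2]
        · rw [if_neg hz]
          split_ifs <;> [exact hw a; exact le_rfl]
    _ ≤ _ := hsmall
    _ ≤ _ := by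
        refine mul_le_mul_of_nonneg_right (mul_le_mul_of_nonneg_right ?_ (cmk_nonneg n)) hP0
        push_cast
        refine pow_le_pow_left₀ (by positivity) ?_ n
        have h1 : (T : ℝ) ≤ n * ρ' + 1 := by rw [hT]; exact (Nat.ceil_lt_add_one (by positivity)).le
        have h2 : (1 : ℝ) ≤ (n : ℝ) ^ 2 * n.factorial * ρ / θ := by
          rw [le_div_iff₀ hθ]
          have a1 : (1 : ℝ) ≤ (n : ℝ) ^ 2 := one_le_pow₀ (by exact_mod_cast hn0)
          have a2 : (1 : ℝ) ≤ (n.factorial : ℝ) := by exact_mod_cast n.factorial_pos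
          calc 1 * θ ≤ 1 * 1 * 1 := by linarith
            _ ≤ (n : ℝ) ^ 2 * n.factorial * ρ := by gcongr
        have h3 : (n : ℝ) * ρ' = 2 * ((n : ℝ) ^ 2 * n.factorial * ρ / θ) := by
          rw [hρ', hlam]; ring
        have h4 : 7 * (n : ℝ) ^ 2 * n.factorial * ρ / θ = 7 * ((n : ℝ) ^ 2 * n.factorial * ρ / θ) := by ring
        rw [h4]
        linarith

/-- decomposition into tuples of caps: clone of `R252.mlk_caps` (proof by helper219) -/
theorem mke_caps (n D : ℕ) (hn : 2 ≤ n) (hD : 1 ≤ D) (hDn : 4 * n ≤ D) (ρ θ : ℝ) (hρ : 1 ≤ ρ) (hθ : 0 < θ) (hθ1 : θ ≤ 1)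
    {α β : Type*} (A : Fin n → Finset α) (p e : α → Fin n → ℝ) (w : α → ℝ) (hw : ∀ a, 0 ≤ w a)
    (he : ∀ i, ∀ a ∈ A i, ∀ k, |e a k| ≤ 1)
    (B : Finset β) (z : β → Fin n → ℝ) (hsep : ∀ b ∈ B, ∀ b' ∈ B, b ≠ b' → ∃ i, 1 ≤ |z b i - z b' i|)
    :
    ∑ b ∈ B, (mlkCount A p e w ρ θ (z b)) ^ (1 / ((n : ℝ) - 1))
      ≤ (20 * (n : ℝ) * n.factorial * D / θ) ^ (n ^ 2) * ((7 * (n : ℝ) ^ 2 * n.factorial * ρ / θ) ^ n
        * cmk n * ∏ i, (∑ a ∈ A i, w a) ^ (1 / ((n : ℝ) - 1))) := by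
  classical
  have hn2 : (2 : ℝ) ≤ n := by exact_mod_cast hn
  have hn1 : (0 : ℝ) < (n : ℝ) - 1 := by linarith
  obtain ⟨γ, hγ⟩ : ∃ γ : ℝ, γ = 1 / ((n : ℝ) - 1) := ⟨_, rfl⟩
  have hγ0 : 0 < γ := by rw [hγ]; positivity
  have hγ1 : γ ≤ 1 := by
    rw [hγ, div_le_one hn1]
    linarith
  rw [← hγ]
  obtain ⟨η, hη⟩ : ∃ η : ℝ, η = θ / (4 * n * n.factorial * D) := ⟨_, rfl⟩
  have hfac : (1 : ℝ) ≤ n.factorial := by exact_mod_cast Nat.succ_le_of_lt n.factorial_pos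
  have hDr : (1 : ℝ) ≤ D := by exact_mod_cast hD
  have hden : (1 : ℝ) ≤ 4 * n * n.factorial * D := by
    have h1 : (1 : ℝ) ≤ 4 * n := by linarith
    have h2 : (1 : ℝ) ≤ 4 * n * n.factorial := one_le_mul_of_one_le_of_one_le h1 hfac
    exact one_le_mul_of_one_le_of_one_le h2 hDr
  have hη0 : 0 < η := by rw [hη]; positivity
  have hη1 : η ≤ 1 := by
    rw [hη, div_le_one (by linarith)]
    linarith
  obtain ⟨N, hN⟩ : ∃ N : ℕ, N = ⌈1 / η⌉₊ := ⟨_, rfl⟩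
  have hN1 : 1 / η ≤ N := by rw [hN]; exact Nat.le_ceil _
  have hN2 : (N : ℝ) < 1 / η + 1 := by rw [hN]; exact Nat.ceil_lt_add_one (by positivity)
  obtain ⟨KK, hKK⟩ : ∃ KK : Finset (Fin n → Fin n → ℤ),
      KK = Fintype.piFinset fun _ : Fin n => Fintype.piFinset fun _ : Fin n => Finset.Icc (-(N : ℤ)) N := ⟨_, rfl⟩
  obtain ⟨R, hR⟩ : ∃ R : ℝ, R = (7 * (n : ℝ) ^ 2 * n.factorial * ρ / θ) ^ n
        * cmk n * ∏ i, (∑ a ∈ A i, w a) ^ γ := ⟨_, rfl⟩
  rw [← hR]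
  have hsum0 : ∀ i, 0 ≤ ∑ a ∈ A i, w a := fun i => Finset.sum_nonneg fun a _ => hw a
  have hR0 : 0 ≤ R := by
    rw [hR]
    have h1 : 0 ≤ ∏ i, (∑ a ∈ A i, w a) ^ γ := Finset.prod_nonneg fun i _ => Real.rpow_nonneg (hsum0 i) _
    have h2 : 0 ≤ 7 * (n : ℝ) ^ 2 * n.factorial * ρ / θ := by positivity
    have h3 := cmk_nonneg n
    positivity
  -- the classes
  obtain ⟨X, hX⟩ : ∃ X : (Fin n → Fin n → ℤ) → (Fin n → ℝ) → ℝ, X = fun k y =>
      ∑ a ∈ (Fintype.piFinset A).filter (fun a => ∀ i l, ⌊e (a i) l / η⌋ = k i l),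
        if θ ≤ |Matrix.det (Matrix.of fun i => e (a i))| ∧ ∀ i, y ∈ mlkTube (p (a i)) (e (a i)) ρ then ∏ i, w (a i) else 0 := ⟨_, rfl⟩
  have hX0 : ∀ k y, 0 ≤ X k y := by
    intro k y
    rw [hX]
    refine Finset.sum_nonneg fun a _ => ?_
    split_ifs
    · exact Finset.prod_nonneg fun i _ => hw _
    · exact le_rfl
  have hmaps : ∀ a ∈ Fintype.piFinset A, (fun i l => ⌊e (a i) l / η⌋) ∈ KK := by
    intro a ha
    rw [hKK, Fintype.mem_piFinset]
    intro i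
    rw [Fintype.mem_piFinset]
    intro l
    have h1 := he i (a i) (Fintype.mem_piFinset.1 ha i) l
    obtain ⟨h2, h3⟩ := abs_le.1 h1
    rw [Finset.mem_Icc]
    constructor
    · rw [Int.le_floor]
      push_cast
      have : -(1 / η) ≤ e (a i) l / η := by
        rw [← neg_div]
        exact div_le_div_of_nonneg_right h2 hη0.le
      linarith
    · have h4 : e (a i) l / η ≤ 1 / η := div_le_div_of_nonneg_right h3 hη0.le
      have h5 : ((⌊e (a i) l / η⌋ : ℤ) : ℝ) ≤ ((N : ℤ) : ℝ) := by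
        push_cast
        exact (Int.floor_le _).trans (h4.trans hN1)
      exact_mod_cast h5
  have hdecomp : ∀ y, mlkCount A p e w ρ θ y = ∑ k ∈ KK, X k y := by
    intro y
    unfold mlkCount
    rw [← Finset.sum_fiberwise_of_maps_to hmaps, hX]
    refine Finset.sum_congr rfl fun k _ => ?_
    refine Finset.sum_congr ?_ fun _ _ => rfl
    refine Finset.filter_congr fun a _ => ?_
    constructor
    · intro h i l
      exact congrFun (congrFun h i) l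
    · intro h
      funext i l
      exact h i l
  -- one class
  have hclass : ∀ k, ∑ b ∈ B, X k (z b) ^ γ ≤ R := by
    intro k
    by_cases hex : ∃ a ∈ (Fintype.piFinset A).filter (fun a => ∀ i l, ⌊e (a i) l / η⌋ = k i l),
        θ ≤ |Matrix.det (Matrix.of fun i => e (a i))|
    · obtain ⟨a0, ha0, hdet⟩ := hex
      obtain ⟨ha0A, ha0k⟩ := Finset.mem_filter.1 ha0
      have hu : ∀ i l, |e (a0 i) l| ≤ 1 := fun i l => he i (a0 i) (Fintype.mem_piFinset.1 ha0A i) l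
      have hcap : ∀ i, ∀ a ∈ (A i).filter (fun a => ∀ l, ⌊e a l / η⌋ = k i l), ∀ l,
          |e a l - e (a0 i) l| ≤ θ / (4 * n * n.factorial * D) := by
        intro i a ha l
        rw [← hη]
        have h1 : ⌊e a l / η⌋ = ⌊e (a0 i) l / η⌋ := by
          rw [(Finset.mem_filter.1 ha).2 l, ha0k i l]
        have h2 := Int.abs_sub_lt_one_of_floor_eq_floor h1
        rw [← sub_div, abs_div, abs_of_pos hη0, div_lt_one hη0] at h2
        exact h2.le
      have key := mke_cap n D hn hD hDn ρ θ hρ hθ hθ1 (fun i => (A i).filter (fun a => ∀ l, ⌊e a l / η⌋ = k i l)) p e w hw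
        (fun i => e (a0 i)) hu hdet hcap B z hsep
      rw [← hγ] at key
      have h1 : ∀ b ∈ B, X k (z b) ^ γ
          ≤ ∏ i, (∑ a ∈ (A i).filter (fun a => ∀ l, ⌊e a l / η⌋ = k i l), if z b ∈ mlkTube (p a) (e a) ρ then w a else 0) ^ γ := by
        intro b _
        rw [Real.finsetProd_rpow _ _ (fun i _ => Finset.sum_nonneg fun a _ => by
          split_ifs
          · exact hw a
          · exact le_rfl)]
        refine Real.rpow_le_rpow (hX0 k _) ?_ hγ0.le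
        rw [hX]
        exact mlk_class_le A p e w hw ρ θ η (z b) k
      refine (Finset.sum_le_sum h1).trans (key.trans ?_)
      rw [hR]
      refine mul_le_mul_of_nonneg_left ?_ (by
        have h2 : 0 ≤ 7 * (n : ℝ) ^ 2 * n.factorial * ρ / θ := by positivity
        have h3 := cmk_nonneg n
        positivity)
      refine Finset.prod_le_prod (fun i _ => Real.rpow_nonneg (Finset.sum_nonneg fun a _ => hw a) _) fun i _ => ?_
      refine Real.rpow_le_rpow (Finset.sum_nonneg fun a _ => hw a) ?_ hγ0.le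
      exact Finset.sum_le_sum_of_subset_of_nonneg (Finset.filter_subset _ _) fun a _ _ => hw a
    · have h0 : ∀ y, X k y = 0 := by
        intro y
        rw [hX]
        refine Finset.sum_eq_zero fun a ha => ?_
        rw [if_neg]
        intro h
        exact hex ⟨a, ha, h.1⟩
      have h1 : ∑ b ∈ B, X k (z b) ^ γ = 0 := by
        refine Finset.sum_eq_zero fun b _ => ?_
        rw [h0, Real.zero_rpow hγ0.ne']
      rw [h1]
      exact hR0
  -- the number of classes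
  have hcard : (KK.card : ℝ) ≤ (20 * (n : ℝ) * n.factorial * D / θ) ^ (n ^ 2) := by
    have c1 : KK.card = (2 * N + 1) ^ (n ^ 2) := by
      rw [hKK, Fintype.card_piFinset_const, Fintype.card_piFinset_const, Int.card_Icc, ← pow_mul, sq]
      congr 1
      omega
    rw [c1]
    push_cast
    refine pow_le_pow_left₀ (by positivity) ?_ _
    have c2 : 20 * (n : ℝ) * n.factorial * D / θ = 5 * (1 / η) := by
      rw [hη]
      field_simp
      ring
    rw [c2]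
    have c3 : 1 ≤ 1 / η := by
      rw [le_div_iff₀ hη0]
      linarith
    linarith
  calc ∑ b ∈ B, (mlkCount A p e w ρ θ (z b)) ^ γ
      = ∑ b ∈ B, (∑ k ∈ KK, X k (z b)) ^ γ := Finset.sum_congr rfl fun b _ => by rw [hdecomp]
    _ ≤ ∑ b ∈ B, ∑ k ∈ KK, X k (z b) ^ γ :=
        Finset.sum_le_sum fun b _ => mlk_rpow_sum_le KK (fun k => X k (z b)) (fun k _ => hX0 k _) γ hγ0 hγ1
    _ = ∑ k ∈ KK, ∑ b ∈ B, X k (z b) ^ γ := Finset.sum_comm
    _ ≤ ∑ _k ∈ KK, R := Finset.sum_le_sum fun k _ => hclass k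
    _ = (KK.card : ℝ) * R := by rw [Finset.sum_const, nsmul_eq_mul]
    _ ≤ (20 * (n : ℝ) * n.factorial * D / θ) ^ (n ^ 2) * R := mul_le_mul_of_nonneg_right hcard hR0

/-- **LEAF L-MK-MAIN: ENDPOINT MULTILINEAR KAKEYA, polynomial in the transversality, LOSSLESS.**
PLAN.  `mke_caps` with `D = 4 n`;  `C = (20 n n! (4n))^{n²} (7 n² n!)^n (cmk n + 1)`;  `(1/θ)^{n²} (ρ/θ)^n ≤ (ρ/θ)^{n²+n}` (as in `R252.mlk_main`). -/
theorem mke_main.{u, v} (n : ℕ) (hn : 2 ≤ n) : ∃ C : ℝ, 0 < C ∧ ∀ (ρ θ : ℝ), 1 ≤ ρ → 0 < θ → θ ≤ 1 →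
    ∀ (α : Type u) (β : Type v) (A : Fin n → Finset α) (p e : α → Fin n → ℝ) (w : α → ℝ), (∀ a, 0 ≤ w a) →
    (∀ i, ∀ a ∈ A i, ∀ k, |e a k| ≤ 1) → ∀ (B : Finset β) (z : β → Fin n → ℝ),
    (∀ b ∈ B, ∀ b' ∈ B, b ≠ b' → ∃ i, 1 ≤ |z b i - z b' i|) →
    ∑ b ∈ B, (mlkCount A p e w ρ θ (z b)) ^ (1 / ((n : ℝ) - 1))
      ≤ C * (ρ / θ) ^ (n ^ 2 + n) * ∏ i, (∑ a ∈ A i, w a) ^ (1 / ((n : ℝ) - 1)) := by
  have hn0 : 0 < n := by omega
  obtain ⟨c1, hc1⟩ : ∃ c1 : ℝ, c1 = 20 * (n : ℝ) * n.factorial * (4 * n) := ⟨_, rfl⟩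
  obtain ⟨c2, hc2⟩ : ∃ c2 : ℝ, c2 = 7 * (n : ℝ) ^ 2 * n.factorial := ⟨_, rfl⟩
  have hnR : (0 : ℝ) < n := by exact_mod_cast hn0
  have hfR : (0 : ℝ) < (n.factorial : ℝ) := by exact_mod_cast n.factorial_pos
  have hc1p : 0 < c1 := by rw [hc1]; positivity
  have hc2p : 0 < c2 := by rw [hc2]; positivity
  have hck := cmk_nonneg n
  refine ⟨c1 ^ (n ^ 2) * c2 ^ n * (cmk n + 1), by positivity, ?_⟩
  intro ρ θ hρ hθ hθ1 α β A p e w hw he B z hsep
  have key := mke_caps n (4 * n) hn (by omega) le_rfl ρ θ hρ hθ hθ1 A p e w hw he B z hsep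
  refine key.trans ?_
  have hP0 : 0 ≤ ∏ i, (∑ a ∈ A i, w a) ^ (1 / ((n : ℝ) - 1)) :=
    Finset.prod_nonneg fun i _ => Real.rpow_nonneg (Finset.sum_nonneg fun a _ => hw a) _
  obtain ⟨P, hP⟩ : ∃ P : ℝ, P = ∏ i, (∑ a ∈ A i, w a) ^ (1 / ((n : ℝ) - 1)) := ⟨_, rfl⟩
  rw [← hP] at hP0 ⊢
  have e1 : 20 * (n : ℝ) * n.factorial * ((4 * n : ℕ) : ℝ) / θ = c1 * (1 / θ) := by
    rw [hc1]
    push_cast
    ring
  have e2 : 7 * (n : ℝ) ^ 2 * n.factorial * ρ / θ = c2 * (ρ / θ) := by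
    rw [hc2]
    ring
  rw [e1, e2, mul_pow, mul_pow, pow_add]
  have hρ0 : 0 < ρ := by linarith
  have h1 : (1 / θ) ^ (n ^ 2) ≤ (ρ / θ) ^ (n ^ 2) :=
    pow_le_pow_left₀ (by positivity) (div_le_div_of_nonneg_right hρ hθ.le) _
  have hq : 0 ≤ (ρ / θ) ^ n := by positivity
  have hq2 : 0 ≤ (ρ / θ) ^ (n ^ 2) := by positivity
  have t1 : c1 ^ n ^ 2 * (1 / θ) ^ n ^ 2 ≤ c1 ^ n ^ 2 * (ρ / θ) ^ n ^ 2 :=
    mul_le_mul_of_nonneg_left h1 (by positivity)
  have t2 : c2 ^ n * (ρ / θ) ^ n * cmk n * P ≤ c2 ^ n * (ρ / θ) ^ n * (cmk n + 1) * P :=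
    mul_le_mul_of_nonneg_right (mul_le_mul_of_nonneg_left (by linarith) (by positivity)) hP0
  calc c1 ^ n ^ 2 * (1 / θ) ^ n ^ 2 * (c2 ^ n * (ρ / θ) ^ n * cmk n * P)
      ≤ c1 ^ n ^ 2 * (ρ / θ) ^ n ^ 2 * (c2 ^ n * (ρ / θ) ^ n * (cmk n + 1) * P) :=
        mul_le_mul t1 t2 (by positivity) (by positivity)
    _ = c1 ^ n ^ 2 * c2 ^ n * (cmk n + 1) * ((ρ / θ) ^ n ^ 2 * (ρ / θ) ^ n) * P := by ring

/-- **LEAF L-MK-SCALED: the same at scale `r`.**  `mke_main` (same `C`) for `p/r`, `z/r`; `R252.mlkCount_scale` (as `R252.mlk_scaled`). -/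
theorem mke_scaled.{u, v} (n : ℕ) (hn : 2 ≤ n) : ∃ C : ℝ, 0 < C ∧ ∀ (r ρ θ : ℝ), 0 < r → 1 ≤ ρ → 0 < θ → θ ≤ 1 →
    ∀ (α : Type u) (β : Type v) (A : Fin n → Finset α) (p e : α → Fin n → ℝ) (w : α → ℝ), (∀ a, 0 ≤ w a) →
    (∀ i, ∀ a ∈ A i, ∀ k, |e a k| ≤ 1) → ∀ (B : Finset β) (z : β → Fin n → ℝ),
    (∀ b ∈ B, ∀ b' ∈ B, b ≠ b' → ∃ i, r ≤ |z b i - z b' i|) →
    ∑ b ∈ B, (mlkCount A p e w (ρ * r) θ (z b)) ^ (1 / ((n : ℝ) - 1))
      ≤ C * (ρ / θ) ^ (n ^ 2 + n) * ∏ i, (∑ a ∈ A i, w a) ^ (1 / ((n : ℝ) - 1)) := by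
  obtain ⟨C, hC, h⟩ := mke_main.{u, v} n hn
  refine ⟨C, hC, ?_⟩
  intro r ρ θ hr hρ hθ hθ1 α β A p e w hw he B z hsep
  have e1 : ∀ b b' i, z b i / r - z b' i / r = (z b i - z b' i) / r := fun b b' i => by ring
  have := h ρ θ hρ hθ hθ1 α β A (fun a i => p a i / r) e w hw he B (fun b i => z b i / r) ?_
  · simp only [mlkCount_scale A p e w ρ θ r hr]
    exact this
  · intro b hb b' hb' hne
    obtain ⟨i, hi⟩ := hsep b hb b' hb' hne
    refine ⟨i, ?_⟩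
    rw [e1, abs_div, abs_of_pos hr, le_div_iff₀ hr, one_mul]
    exact hi

open Classical in
/-- **LEAF L-MK-LINT: integral form on `Fin n → ℝ`** (all tuples `θ`-transversal).
PLAN.  Cubes `Q_k = box (h k) (h, .., h)`, `k ∈ ℤ^n`, partition the space: `∫⁻ = ∑' k, ∫⁻ in Q_k` (`lintegral_iUnion`; or `ENNReal.tsum_eq_iSup_sum` after `lintegral_tsum`-type decomposition of `1 = ∑' 1_{Q_k}`).   On `Q_k`: `x ∈ mlkTube p e h → z_k := h k ∈ mlkTube p e (2 h)`, so the integrand is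
`≤ ofReal (∏_i (∑_{a ∈ A i} 1[z_k ∈ mlkTube (p a) (e a) (2 h)] w a)^γ) = ofReal ((mlkCount A p e w (2 h) θ z_k)^γ)` (`Finset.prod_univ_sum`, all tuples pass the determinant test; `Real.finsetProd_rpow`), `volume Q_k = ofReal (h^n)`.
Finite sums over `k ∈ K`: `mke_scaled` with `r = h`, `ρ = 2`, `β = Fin n → ℤ`, `z k = h k` (`h`-separated).   Constant `C' = C 2^{n²+n}`. -/
theorem mke_lintegral.{u} (n : ℕ) (hn : 2 ≤ n) : ∃ C : ℝ, 0 < C ∧ ∀ (h θ : ℝ), 0 < h → 0 < θ → θ ≤ 1 →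
    ∀ (α : Type u) (A : Fin n → Finset α) (p e : α → Fin n → ℝ) (w : α → ℝ), (∀ a, 0 ≤ w a) →
    (∀ i, ∀ a ∈ A i, ∀ k, |e a k| ≤ 1) →
    (∀ a ∈ Fintype.piFinset A, θ ≤ |Matrix.det (Matrix.of fun i => e (a i))|) →
    ∫⁻ x : Fin n → ℝ, ∏ i, ENNReal.ofReal (∑ a ∈ A i, if x ∈ mlkTube (p a) (e a) h then w a else 0) ^ (1 / ((n : ℝ) - 1))
      ≤ ENNReal.ofReal (C * (1 / θ) ^ (n ^ 2 + n) * h ^ n * ∏ i, (∑ a ∈ A i, w a) ^ (1 / ((n : ℝ) - 1))) := by
  obtain ⟨C, hC, H⟩ := mke_scaled.{u, 0} n hn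
  refine ⟨C * 2 ^ (n ^ 2 + n), by positivity, ?_⟩
  intro h θ hh hθ hθ1 α A p e w hw he hdet
  have hn2 : (2 : ℝ) ≤ n := by exact_mod_cast hn
  have hγ : 0 ≤ 1 / ((n : ℝ) - 1) := div_nonneg zero_le_one (by linarith)
  obtain ⟨γ, hγdef⟩ : ∃ γ : ℝ, γ = 1 / ((n : ℝ) - 1) := ⟨_, rfl⟩
  rw [← hγdef] at hγ ⊢
  obtain ⟨P, hP⟩ : ∃ P : ℝ, P = ∏ i, (∑ a ∈ A i, w a) ^ γ := ⟨_, rfl⟩
  have hP0 : 0 ≤ P := by
    rw [hP]
    exact Finset.prod_nonneg fun i _ => Real.rpow_nonneg (Finset.sum_nonneg fun a _ => hw a) _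
  rw [← hP]
  obtain ⟨F, hF⟩ : ∃ F : (Fin n → ℝ) → Fin n → ℤ, ∀ x i, F x i = ⌊x i / h⌋ := ⟨_, fun _ _ => rfl⟩
  have hFm : Measurable F := by
    rw [measurable_pi_iff]
    intro i
    have e0 : (fun x => F x i) = fun x : Fin n → ℝ => ⌊x i / h⌋ := funext fun x => hF x i
    rw [e0]
    exact ((measurable_pi_apply i : Measurable fun x : Fin n → ℝ => x i).div_const h).floor
  obtain ⟨z, hz⟩ : ∃ z : (Fin n → ℤ) → Fin n → ℝ, ∀ k i, z k i = h * k i := ⟨_, fun _ _ => rfl⟩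
  obtain ⟨G, hG⟩ : ∃ G : (Fin n → ℤ) → ℝ, ∀ k, G k = (mlkCount A p e w (2 * h) θ (z k)) ^ γ := ⟨_, fun _ => rfl⟩
  have hG0 : ∀ k, 0 ≤ G k := fun k => by
    rw [hG]
    exact Real.rpow_nonneg (mlkCount_nonneg A p e w hw _ _ _) _
  have hfl : ∀ k, ∀ x ∈ F ⁻¹' {k}, ∀ i, h * k i ≤ x i ∧ x i < h * k i + h := by
    intro k x hx i
    have hxk : ⌊x i / h⌋ = k i := by
      rw [← hF]
      exact congrFun hx i
    have h4 := Int.floor_le (x i / h)
    have h5 := Int.lt_floor_add_one (x i / h)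
    rw [hxk] at h4 h5
    rw [le_div_iff₀ hh] at h4
    rw [div_lt_iff₀ hh] at h5
    constructor <;> nlinarith
  -- pointwise bound on a cube
  have hpt : ∀ k, ∀ x ∈ F ⁻¹' {k},
      ∏ i, ENNReal.ofReal (∑ a ∈ A i, if x ∈ mlkTube (p a) (e a) h then w a else 0) ^ γ ≤ ENNReal.ofReal (G k) := by
    intro k x hx
    have hclose : ∀ i, |z k i - x i| ≤ h := by
      intro i
      obtain ⟨h4, h5⟩ := hfl k x hx i
      rw [hz, abs_le]
      constructor <;> linarith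
    have htube : ∀ a, x ∈ mlkTube (p a) (e a) h → z k ∈ mlkTube (p a) (e a) (2 * h) := by
      rintro a ⟨t, ht⟩
      refine ⟨t, fun i => ?_⟩
      have e1 : z k i - p a i - t * e a i = (x i - p a i - t * e a i) + (z k i - x i) := by ring
      rw [e1]
      exact (abs_add_le _ _).trans (by linarith [ht i, hclose i])
    obtain ⟨S', hS'⟩ : ∃ S' : Fin n → ℝ,
        ∀ i, S' i = ∑ a ∈ A i, if z k ∈ mlkTube (p a) (e a) (2 * h) then w a else 0 := ⟨_, fun _ => rfl⟩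
    have hS'0 : ∀ i, 0 ≤ S' i := fun i => by
      rw [hS']
      exact Finset.sum_nonneg fun a _ => by split_ifs <;> [exact hw a; exact le_rfl]
    have h1 : ∀ i, ENNReal.ofReal (∑ a ∈ A i, if x ∈ mlkTube (p a) (e a) h then w a else 0) ^ γ
        ≤ ENNReal.ofReal (S' i ^ γ) := by
      intro i
      rw [← ENNReal.ofReal_rpow_of_nonneg (hS'0 i) hγ]
      refine ENNReal.rpow_le_rpow (ENNReal.ofReal_le_ofReal ?_) hγ
      rw [hS']
      refine Finset.sum_le_sum fun a _ => ?_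
      by_cases hx' : x ∈ mlkTube (p a) (e a) h
      · rw [if_pos hx', if_pos (htube a hx')]
      · rw [if_neg hx']
        split_ifs <;> [exact hw a; exact le_rfl]
    refine (Finset.prod_le_prod' fun i _ => h1 i).trans (le_of_eq ?_)
    rw [← ENNReal.ofReal_prod_of_nonneg fun i _ => Real.rpow_nonneg (hS'0 i) _, hG]
    congr 1
    rw [Real.finsetProd_rpow _ _ fun i _ => hS'0 i]
    congr 1
    simp only [hS']
    rw [Finset.prod_univ_sum]
    unfold mlkCount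
    refine Finset.sum_congr rfl fun a ha => ?_
    by_cases hall : ∀ i, z k ∈ mlkTube (p (a i)) (e (a i)) (2 * h)
    · rw [if_pos ⟨hdet a ha, hall⟩]
      exact Finset.prod_congr rfl fun i _ => if_pos (hall i)
    · rw [if_neg fun h' => hall h'.2]
      push Not at hall
      obtain ⟨i, hi⟩ := hall
      exact Finset.prod_eq_zero (Finset.mem_univ i) (if_neg hi)
  have hvol : ∀ k, volume (F ⁻¹' {k}) ≤ ENNReal.ofReal (h ^ n) := by
    intro k
    have hsub : F ⁻¹' {k} ⊆ Set.pi univ fun i => Ico (h * (k i : ℝ)) (h * k i + h) :=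
      fun x hx i _ => hfl k x hx i
    refine (measure_mono hsub).trans (le_of_eq ?_)
    rw [Real.volume_pi_Ico]
    simp only [add_sub_cancel_left, Finset.prod_const, Finset.card_univ, Fintype.card_fin]
    rw [ENNReal.ofReal_pow hh.le]
  have hsum : ∑' k, ENNReal.ofReal (G k) ≤ ENNReal.ofReal (C * (2 / θ) ^ (n ^ 2 + n) * P) := by
    rw [ENNReal.tsum_eq_iSup_sum]
    refine iSup_le fun K => ?_
    rw [← ENNReal.ofReal_sum_of_nonneg fun k _ => hG0 k]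
    refine ENNReal.ofReal_le_ofReal ?_
    have key := H h 2 θ hh one_le_two hθ hθ1 α (Fin n → ℤ) A p e w hw he K z ?_
    · rw [← hγdef, ← hP] at key
      simpa only [hG] using key
    · intro k _ k' _ hne
      obtain ⟨i, hi⟩ : ∃ i, k i ≠ k' i := by
        by_contra hcon
        push Not at hcon
        exact hne (funext hcon)
      refine ⟨i, ?_⟩
      rw [hz, hz, ← mul_sub, abs_mul, abs_of_pos hh]
      have h1 : (1 : ℝ) ≤ |(k i : ℝ) - k' i| := by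
        have h2 : (1 : ℤ) ≤ |k i - k' i| := Int.one_le_abs (sub_ne_zero.2 hi)
        exact_mod_cast h2
      nlinarith
  have hU : (⋃ k, F ⁻¹' {k}) = univ := Set.iUnion_eq_univ_iff.2 fun x => ⟨F x, rfl⟩
  have hdisj : Pairwise (Function.onFun Disjoint fun k => F ⁻¹' {k}) := fun k k' hne =>
    Set.disjoint_left.2 fun x hx hx' => hne ((show F x = k from hx).symm.trans hx')
  calc ∫⁻ x : Fin n → ℝ, ∏ i, ENNReal.ofReal (∑ a ∈ A i, if x ∈ mlkTube (p a) (e a) h then w a else 0) ^ γ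
      = ∫⁻ x in ⋃ k, F ⁻¹' {k},
          ∏ i, ENNReal.ofReal (∑ a ∈ A i, if x ∈ mlkTube (p a) (e a) h then w a else 0) ^ γ := by
        rw [hU, Measure.restrict_univ]
    _ = ∑' k, ∫⁻ x in F ⁻¹' {k},
          ∏ i, ENNReal.ofReal (∑ a ∈ A i, if x ∈ mlkTube (p a) (e a) h then w a else 0) ^ γ :=
        lintegral_iUnion (fun k => hFm (measurableSet_singleton k)) hdisj _
    _ ≤ ∑' k, ENNReal.ofReal (G k) * ENNReal.ofReal (h ^ n) := by
        refine ENNReal.tsum_le_tsum fun k => ?_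
        refine (setLIntegral_mono' (hFm (measurableSet_singleton k)) (hpt k)).trans ?_
        rw [setLIntegral_const]
        exact mul_le_mul_right (hvol k) _
    _ = (∑' k, ENNReal.ofReal (G k)) * ENNReal.ofReal (h ^ n) := ENNReal.tsum_mul_right
    _ ≤ ENNReal.ofReal (C * (2 / θ) ^ (n ^ 2 + n) * P) * ENNReal.ofReal (h ^ n) := mul_le_mul_left hsum _
    _ = ENNReal.ofReal (C * 2 ^ (n ^ 2 + n) * (1 / θ) ^ (n ^ 2 + n) * h ^ n * P) := by
        rw [← ENNReal.ofReal_mul (by positivity)]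
        congr 1
        rw [div_pow, div_pow, one_pow]
        ring

/-- Euclidean cylinder of radius `h` around the full line `a + ℝ e` -/
def cyl {d : ℕ} (a e : EuclideanSpace ℝ (Fin d)) (h : ℝ) : Set (EuclideanSpace ℝ (Fin d)) :=
  {x | ∃ t : ℝ, ‖x - a - t • e‖ ≤ h}

open Classical in
/-- **LEAF L-MK-EUCL: WEIGHTED ENDPOINT MULTILINEAR KAKEYA for Euclidean cylinders** (Guth 2010, Thm 2, with `ϑ^{-(d²+d)}`).
PLAN.  `EuclideanSpace.volume_preserving_measurableEquiv` (or `PiLp.volume_preserving_ofLp`) transports the integral to `Fin d → ℝ`; `cyl a e h ⊆ mlkTube a e h` in coordinates (`|y k| ≤ ‖y‖`: `EuclideanSpace.norm_eq`/`PiLp.norm_apply_le`), `|e k| ≤ ‖e‖ = 1`;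
`α = Σ j, I j`, `A j = univ.map (Function.Embedding.sigmaMk j)`;  if `1 < ϑ` the hypothesis is still usable with `θ = min ϑ 1`?  NO: we assume `ϑ ≤ 1` is automatic (`|det| ≤ ∏ ‖e‖ = 1`, Hadamard) only if all `I j` are nonempty; to avoid Hadamard the statement assumes `ϑ ≤ 1`.   `mke_lintegral`. -/
theorem mk_endpoint.{u} (d : ℕ) (hd : 2 ≤ d) : ∃ C : ℝ, 0 < C ∧ ∀ (I : Fin d → Type u) [∀ j, Fintype (I j)]
    (a e : ∀ j, I j → EuclideanSpace ℝ (Fin d)) (c : ∀ j, I j → ℝ) (h ϑ : ℝ), 0 < h → 0 < ϑ → ϑ ≤ 1 →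
    (∀ j i, ‖e j i‖ = 1) → (∀ j i, 0 ≤ c j i) →
    (∀ s : ∀ j, I j, ϑ ≤ |Matrix.det (Matrix.of fun j k => e j (s j) k)|) →
    ∫⁻ x : EuclideanSpace ℝ (Fin d), ∏ j, ENNReal.ofReal (∑ i, if x ∈ cyl (a j i) (e j i) h then c j i else 0) ^ (1 / ((d : ℝ) - 1))
      ≤ ENNReal.ofReal (C * (1 / ϑ) ^ (d ^ 2 + d) * h ^ d * ∏ j, (∑ i, c j i) ^ (1 / ((d : ℝ) - 1))) := by
  classical
  obtain ⟨C, hC, H⟩ := mke_lintegral.{u} d hd
  refine ⟨C, hC, ?_⟩
  intro I _ a e c h ϑ hh hϑ hϑ1 he hc hdet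
  have hγ : 0 ≤ 1 / ((d : ℝ) - 1) := by
    have : (2 : ℝ) ≤ d := by exact_mod_cast hd
    apply div_nonneg zero_le_one; linarith
  have key := H h ϑ hh hϑ hϑ1 (Σ j, I j) (fun j => Finset.univ.map (Function.Embedding.sigmaMk j))
    (fun s k => a s.1 s.2 k) (fun s k => e s.1 s.2 k) (fun s => c s.1 s.2) (fun s => hc s.1 s.2)
    (by
      intro i s _ k
      have h1 := PiLp.norm_apply_le (e s.1 s.2) k
      rw [he, Real.norm_eq_abs] at h1
      exact h1)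
    (by
      intro s hs
      have h1 : ∀ j, ∃ t : I j, s j = ⟨j, t⟩ := by
        intro j
        have h2 := Fintype.mem_piFinset.1 hs j
        obtain ⟨t, _, ht⟩ := Finset.mem_map.1 h2
        exact ⟨t, ht.symm⟩
      choose t ht using h1
      have h3 : (fun i k => e (s i).1 (s i).2 k) = fun j k => e j (t j) k := by
        funext i k
        rw [ht i]
      have h4 := hdet t
      rw [← h3] at h4
      exact h4)
  have hR : ∀ j, ∑ s ∈ Finset.univ.map (Function.Embedding.sigmaMk j), c s.1 s.2 = ∑ i, c j i := by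
    intro j
    rw [Finset.sum_map]
    rfl
  simp only [hR] at key
  refine le_trans ?_ key
  rw [← (PiLp.volume_preserving_toLp (Fin d)).lintegral_comp_emb (MeasurableEquiv.toLp 2 _).measurableEmbedding]
  refine lintegral_mono fun y => ?_
  refine Finset.prod_le_prod' fun j _ => ?_
  refine ENNReal.rpow_le_rpow (ENNReal.ofReal_le_ofReal ?_) hγ
  rw [Finset.sum_map]
  refine Finset.sum_le_sum fun i _ => ?_
  by_cases hy : WithLp.toLp 2 y ∈ cyl (a j i) (e j i) h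
  · have hy' : y ∈ mlkTube (fun k => a j i k) (fun k => e j i k) h := by
      obtain ⟨t, ht⟩ := hy
      refine ⟨t, fun k => ?_⟩
      have h1 := PiLp.norm_apply_le (WithLp.toLp 2 y - a j i - t • e j i) k
      rw [Real.norm_eq_abs] at h1
      exact h1.trans ht
    rw [if_pos hy]
    exact le_of_eq (if_pos hy').symm
  · rw [if_neg hy]
    show (0 : ℝ) ≤ if y ∈ mlkTube (fun k => a j i k) (fun k => e j i k) h then c j i else 0
    split_ifs
    · exact hc j i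
    · exact le_rfl

end Claimed.Agent.MK
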