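import Claimed.Agent.Lib.MK.Defs

/-!
# Lib/MK, file 4: polynomials are tame (units U2, U4), continuity in the coefficients (U3)            (architect helper13)            CONTRACT
PAPER-FREE, Mathlib only.  Every `sorry` is a leaf `L-MK-*`.  Statements are frozen; auxiliary lemmas directly above your theorem; edit only your block.
-/

set_option autoImplicit false
open MeasureTheory Set Metric
open scoped ENNReal BigOperators

namespace Claimed.Agent.MK

theorem poly_null_aux : ∀ (n : ℕ) (c : MvPolynomial (Fin n) ℝ), c ≠ 0 →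
    volume {z : Fin n → ℝ | MvPolynomial.eval z c = 0} = 0 := by
  intro n
  induction n with
  | zero =>
    intro c hc
    have : {z : Fin 0 → ℝ | MvPolynomial.eval z c = 0} = ∅ := by
      rw [Set.eq_empty_iff_forall_notMem]
      intro z hz
      refine hc (MvPolynomial.funext fun x => ?_)
      rw [map_zero, Subsingleton.elim x z]
      exact hz
    rw [this, measure_empty]
  | succ n ih =>
    intro c hc
    set p := MvPolynomial.finSuccEquiv ℝ n c with hp
    have hp0 : p ≠ 0 := by
      rw [hp, Ne, EmbeddingLike.map_eq_zero_iff]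
      exact hc
    have ha : p.leadingCoeff ≠ 0 := Polynomial.leadingCoeff_ne_zero.2 hp0
    have hnull := ih _ ha
    set Z : Set (ℝ × (Fin n → ℝ)) := {q | MvPolynomial.eval (Fin.cons q.1 q.2 : Fin (n + 1) → ℝ) c = 0} with hZ
    have hcont : Continuous fun q : ℝ × (Fin n → ℝ) => MvPolynomial.eval (Fin.cons q.1 q.2 : Fin (n + 1) → ℝ) c := by
      refine (MvPolynomial.continuous_eval c).comp ?_
      refine continuous_pi fun i => ?_
      refine Fin.cases ?_ (fun j => ?_) i
      · simpa using continuous_fst
      · simpa [Function.comp_def] using (continuous_apply j).comp continuous_snd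
    have hZm : MeasurableSet Z := (isClosed_eq hcont continuous_const).measurableSet
    have hZ0 : (volume : Measure (ℝ × (Fin n → ℝ))) Z = 0 := by
      rw [Measure.volume_eq_prod, Measure.prod_apply_symm hZm]
      rw [lintegral_eq_zero_iff (measurable_measure_prodMk_right hZm)]
      have hae : ∀ᵐ z' : Fin n → ℝ ∂volume, MvPolynomial.eval z' p.leadingCoeff ≠ 0 := by
        rw [ae_iff]
        simpa using hnull
      filter_upwards [hae] with z' hz'
      have hq : Polynomial.map (MvPolynomial.eval z') p ≠ 0 := by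
        intro h0
        apply hz'
        have := congrArg (fun r => Polynomial.coeff r p.natDegree) h0
        simpa [Polynomial.coeff_map] using this
      have hfin : ((fun t : ℝ => (t, z')) ⁻¹' Z).Finite := by
        refine (Polynomial.finite_setOfPred_isRoot hq).subset ?_
        intro t ht
        have ht' : MvPolynomial.eval (Fin.cons t z' : Fin (n + 1) → ℝ) c = 0 := ht
        rw [MvPolynomial.eval_eq_eval_mv_eval'] at ht'
        exact ht'
      exact hfin.measure_zero _
    have hmp := volume_preserving_piFinSuccAbove (fun _ : Fin (n + 1) => ℝ) 0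
    have hpre : {z : Fin (n + 1) → ℝ | MvPolynomial.eval z c = 0}
        = (MeasurableEquiv.piFinSuccAbove (fun _ : Fin (n + 1) => ℝ) 0) ⁻¹' Z := by
      ext z
      simp only [Set.mem_ofPred_eq, Set.mem_preimage, hZ]
      have : (Fin.cons ((MeasurableEquiv.piFinSuccAbove (fun _ : Fin (n + 1) => ℝ) 0) z).1
          ((MeasurableEquiv.piFinSuccAbove (fun _ : Fin (n + 1) => ℝ) 0) z).2 : Fin (n + 1) → ℝ) = z := by
        funext i
        refine Fin.cases ?_ (fun j => ?_) i
        · rfl
        · rfl
      rw [this]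
    rw [hpre, hmp.measure_preimage hZm.nullMeasurableSet]
    exact hZ0

/-- **LEAF L-MK-NULL.**  Induction on `n` (`MvPolynomial.finSuccEquiv`, `MeasurableEquiv.piFinSuccAbove`/`volume_preserving_piFinSuccAbove`, `measure_prod_null`/`Measure.measure_prod_null`): write `p = ∑ q_k(x') x_0^k`; some `q_k ≠ 0`;
off the null set `{q_k = 0}` the one-variable polynomial `p(·, x')` is nonzero and has finitely many roots (`Polynomial.finite_setOf_isRoot`, `Set.Finite.measure_zero`).  `n = 0`: `p = C c`, `c ≠ 0`. -/
theorem poly_null {n : ℕ} (p : MvPolynomial (Fin n) ℝ) (hp : p ≠ 0) :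
    volume {x : Fin n → ℝ | MvPolynomial.eval x p = 0} = 0 := by
  exact poly_null_aux n p hp

theorem poly_line_eval {n : ℕ} (p : MvPolynomial (Fin n) ℝ) (a v : Fin n → ℝ) (t : ℝ) :
    (MvPolynomial.aeval (fun i => Polynomial.C (a i) + Polynomial.C (v i) * Polynomial.X) p : Polynomial ℝ).eval t
      = MvPolynomial.eval (a + t • v) p := by
  induction p using MvPolynomial.induction_on with
  | C c => simp
  | add p q hp hq => simp only [map_add, Polynomial.eval_add, hp, hq]
  | mul_X p i hp =>
    simp only [map_mul, Polynomial.eval_mul, hp, MvPolynomial.aeval_X, MvPolynomial.eval_X, Polynomial.eval_add,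
      Polynomial.eval_C, Polynomial.eval_X, Pi.add_apply, Pi.smul_apply, smul_eq_mul]
    ring

/-- **LEAF L-MK-PLINE.**  `q = MvPolynomial.aeval (fun i => Polynomial.C (a i) + Polynomial.C (v i) * Polynomial.X) p : Polynomial ℝ`, `q.eval t = eval (a + t • v) p` (`MvPolynomial.induction_on` / `aeval` + `Polynomial.eval` hom),
`q.natDegree ≤ p.totalDegree` (`MvPolynomial.aeval_natDegree_le` or by hand on monomials).   `q = 0` : first alternative; otherwise `Z = q.roots.toFinset`, `Polynomial.card_roots'`, `Multiset.toFinset_card_le`. -/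
theorem poly_line {n D : ℕ} (p : MvPolynomial (Fin n) ℝ) (hD : p.totalDegree ≤ D) (a v : Fin n → ℝ) :
    (∀ t : ℝ, MvPolynomial.eval (a + t • v) p = 0) ∨
      ∃ Z : Finset ℝ, Z.card ≤ D ∧ ∀ t : ℝ, MvPolynomial.eval (a + t • v) p = 0 → t ∈ Z := by
  set q : Polynomial ℝ := MvPolynomial.aeval (fun i => Polynomial.C (a i) + Polynomial.C (v i) * Polynomial.X) p with hq
  have hev : ∀ t : ℝ, q.eval t = MvPolynomial.eval (a + t • v) p := poly_line_eval p a v
  have hdeg : q.natDegree ≤ D := by
    have h := MvPolynomial.aeval_natDegree_le (n := 1) p hD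
      (fun i => Polynomial.C (a i) + Polynomial.C (v i) * Polynomial.X) (fun i => by
        refine (Polynomial.natDegree_add_le _ _).trans (max_le ?_ ?_)
        · rw [Polynomial.natDegree_C]; exact Nat.zero_le _
        · exact (Polynomial.natDegree_C_mul_le _ _).trans Polynomial.natDegree_X_le)
    rwa [mul_one] at h
  by_cases h0 : q = 0
  · left
    intro t
    rw [← hev, h0, Polynomial.eval_zero]
  · right
    refine ⟨q.roots.toFinset, (Multiset.toFinset_card_le _).trans ((Polynomial.card_roots' q).trans hdeg), fun t ht => ?_⟩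
    rw [Multiset.mem_toFinset, Polynomial.mem_roots h0, Polynomial.IsRoot.def, hev, ht]

theorem tame_of_poly {n D : ℕ} (p : MvPolynomial (Fin n) ℝ) (hp : p ≠ 0) (hD : p.totalDegree ≤ D) :
    Tame n D (fun x => MvPolynomial.eval x p) :=
  ⟨MvPolynomial.continuous_eval p, poly_null p hp, poly_line p hD⟩

/-- `Real.sign` is measurable (local copy: `Om.lean` is not imported here) -/
theorem cont_measurable_sign : Measurable Real.sign := by
  unfold Real.sign
  exact Measurable.ite measurableSet_Iio measurable_const (Measurable.ite measurableSet_Ioi measurable_const measurable_const)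

/-- `c ↦ F c x` is continuous -/
theorem cont_eval {N n : ℕ} (F : (Fin N → ℝ) →ₗ[ℝ] ((Fin n → ℝ) → ℝ)) (x : Fin n → ℝ) :
    Continuous fun c => F c x :=
  LinearMap.continuous_of_finiteDimensional ((LinearMap.proj x).comp F)

/-- the sign of `F c x` is locally constant in `c` where `F c₀ x ≠ 0` -/
theorem cont_sign_eventually {N n : ℕ} (F : (Fin N → ℝ) →ₗ[ℝ] ((Fin n → ℝ) → ℝ)) (x : Fin n → ℝ) (c₀ : Fin N → ℝ)
    (h0 : F c₀ x ≠ 0) : ∀ᶠ c in nhds c₀, Real.sign (F c x) = Real.sign (F c₀ x) := by
  have hc := (cont_eval F x).continuousAt (x := c₀)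
  rcases lt_or_gt_of_ne h0 with h | h
  · filter_upwards [hc.eventually_lt continuousAt_const h] with c hc'
    rw [Real.sign_of_neg hc', Real.sign_of_neg h]
  · filter_upwards [continuousAt_const.eventually_lt hc h] with c hc'
    rw [Real.sign_of_pos hc', Real.sign_of_pos h]

/-- dominated convergence for a bounded family that is a.e. locally constant in the parameter -/
theorem cont_dct {N n : ℕ} (g : (Fin N → ℝ) → (Fin n → ℝ) → ℝ) (A : Set (Fin n → ℝ)) (hAfin : volume A ≠ ∞)
    (hm : ∀ c, c ≠ 0 → Measurable (g c)) (hb : ∀ c x, |g c x| ≤ 1)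
    (hc : ∀ c₀, c₀ ≠ 0 → ∀ᵐ x ∂(volume : Measure (Fin n → ℝ)), ∀ᶠ c in nhds c₀, g c x = g c₀ x) :
    ContinuousOn (fun c => ∫ x in A, g c x) {c | c ≠ 0} := by
  intro c₀ hc₀
  refine ContinuousAt.continuousWithinAt ?_
  refine tendsto_integral_filter_of_dominated_convergence (fun _ => (1 : ℝ)) ?_ ?_ ?_ ?_
  · filter_upwards [isOpen_ne.mem_nhds hc₀] with c hc'
    exact (hm c hc').aestronglyMeasurable
  · exact Filter.Eventually.of_forall fun c => Filter.Eventually.of_forall fun x => by
      rw [Real.norm_eq_abs]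
      exact hb c x
  · exact integrableOn_const hAfin
  · filter_upwards [ae_restrict_of_ae (hc c₀ hc₀)] with x hx
    exact tendsto_nhds_of_eventually_eq hx

/-- **LEAF L-MK-CONT (1).**  `c ↦ F c x` is linear on a finite dimensional space, hence continuous (`LinearMap.continuous_of_finiteDimensional` for `(LinearMap.proj x).comp F`).   At `c₀ ≠ 0`: for a.e. `x` (`F c₀ x ≠ 0`) `c ↦ sign (F c x)`
is eventually constant near `c₀`; `|sign| ≤ 1`; `tendsto_integral_filter_of_dominated_convergence` / `continuousWithinAt_of_dominated` on `volume.restrict A`. -/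
theorem cont_signInt {N n D : ℕ} (F : (Fin N → ℝ) →ₗ[ℝ] ((Fin n → ℝ) → ℝ)) (hF : ∀ c, c ≠ 0 → Tame n D (F c))
    (A : Set (Fin n → ℝ)) (hA : MeasurableSet A) (hAfin : volume A ≠ ∞) :
    ContinuousOn (fun c => ∫ x in A, Real.sign (F c x)) {c | c ≠ 0} := by
  refine cont_dct (fun c x => Real.sign (F c x)) A hAfin
    (fun c hc => cont_measurable_sign.comp (hF c hc).cont.measurable) (fun c x => ?_) (fun c₀ hc₀ => ?_)
  · rcases Real.sign_apply_eq (F c x) with h | h | h <;> rw [h] <;> norm_num
  · have hae : ∀ᵐ x ∂(volume : Measure (Fin n → ℝ)), F c₀ x ≠ 0 := by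
      rw [ae_iff]
      simpa using (hF c₀ hc₀).null
    filter_upwards [hae] with x hx
    exact cont_sign_eventually F x c₀ hx

/-- **LEAF L-MK-CONT (2).**  `(om (F c) R h).toReal = ∫ x in R, (if sign (F c (x+h)) ≠ sign (F c x) then 1 else 0)`; same dominated convergence (a.e. `x`: `F c₀ x ≠ 0` and `F c₀ (x+h) ≠ 0`: translate of a null set). -/
theorem cont_om {N n D : ℕ} (F : (Fin N → ℝ) →ₗ[ℝ] ((Fin n → ℝ) → ℝ)) (hF : ∀ c, c ≠ 0 → Tame n D (F c))
    (R : Set (Fin n → ℝ)) (hR : MeasurableSet R) (hRfin : volume R ≠ ∞) (h : Fin n → ℝ) :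
    ContinuousOn (fun c => (om (F c) R h).toReal) {c | c ≠ 0} := by
  classical
  have hT : ∀ c, c ≠ 0 → MeasurableSet {x : Fin n → ℝ | Real.sign (F c (x + h)) ≠ Real.sign (F c x)} := fun c hc => by
    have h1 : Measurable fun x : Fin n → ℝ => Real.sign (F c (x + h)) :=
      cont_measurable_sign.comp ((hF c hc).cont.measurable.comp (measurable_id.add_const h))
    have h2 : Measurable fun x : Fin n → ℝ => Real.sign (F c x) := cont_measurable_sign.comp (hF c hc).cont.measurable
    exact (measurableSet_eq_fun h1 h2).compl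
  have main : ContinuousOn (fun c => ∫ x in R,
      ({x : Fin n → ℝ | Real.sign (F c (x + h)) ≠ Real.sign (F c x)}.indicator (fun _ => (1 : ℝ)) x)) {c | c ≠ 0} := by
    refine cont_dct (fun c x => {x : Fin n → ℝ | Real.sign (F c (x + h)) ≠ Real.sign (F c x)}.indicator (fun _ => (1 : ℝ)) x)
      R hRfin (fun c hc => measurable_const.indicator (hT c hc)) (fun c x => ?_) (fun c₀ hc₀ => ?_)
    · by_cases hx : x ∈ {x : Fin n → ℝ | Real.sign (F c (x + h)) ≠ Real.sign (F c x)}
      · rw [indicator_of_mem hx]
        norm_num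
      · rw [indicator_of_notMem hx]
        norm_num
    · have hae : ∀ᵐ x ∂(volume : Measure (Fin n → ℝ)), F c₀ x ≠ 0 := by
        rw [ae_iff]
        simpa using (hF c₀ hc₀).null
      have hae2 : ∀ᵐ x ∂(volume : Measure (Fin n → ℝ)), F c₀ (x + h) ≠ 0 := by
        rw [ae_iff]
        have e : {x : Fin n → ℝ | ¬ F c₀ (x + h) ≠ 0} = (fun x => x + h) ⁻¹' {x | F c₀ x = 0} := by
          ext x
          simp
        rw [e, measure_preimage_add_right]
        exact (hF c₀ hc₀).null
      filter_upwards [hae, hae2] with x hx hx2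
      filter_upwards [cont_sign_eventually F x c₀ hx, cont_sign_eventually F (x + h) c₀ hx2] with c h1 h2
      simp only [indicator, mem_ofPred_eq, h1, h2]
  refine main.congr fun c hc => ?_
  have e : dis (F c) R h = {x : Fin n → ℝ | Real.sign (F c (x + h)) ≠ Real.sign (F c x)} ∩ R := by
    ext x
    simp only [dis, mem_ofPred_eq, mem_inter_iff]
    tauto
  have h1 := integral_indicator_one (μ := volume.restrict R) (hT c hc)
  show (om (F c) R h).toReal =
    ∫ x in R, {x : Fin n → ℝ | Real.sign (F c (x + h)) ≠ Real.sign (F c x)}.indicator (1 : (Fin n → ℝ) → ℝ) x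
  rw [h1, om, e, Measure.real, Measure.restrict_apply (hT c hc)]

end Claimed.Agent.MK
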