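import Claimed.Agent.R273.BuPart
import Claimed.Agent.Lib.MK.Poly

/-!
# Lib/MK, file 7: shape rounding, colours, ONE application of Borsuk-Ulam (units U9, U10a)            (architect helper13)            CONTRACT
PAPER-FREE.  Uses `Claimed.Agent.R273.bu_borsuk_ulam`, `bu_exists_inj`, `buPolyL` (frozen files: import only).
Every `sorry` is a leaf `L-MK-*`.  Statements are frozen; auxiliary lemmas directly above your theorem; edit only your block.
-/

set_option autoImplicit false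
open MeasureTheory Set Metric
open scoped ENNReal BigOperators

namespace Claimed.Agent.MK

/-- **LEAF L-MK-ROUND.**  `a⁰ j = ⌊σ j⌋₊`, `d = m - ∑ a⁰ j`, `0 ≤ d < n` (or `n = 0`); choose `S ⊆ univ` with `#S = d` (`Finset.exists_subset_card_eq`), `a j = a⁰ j + if j ∈ S then 1 else 0`; `|σ j - a j| ≤ 1`. -/
theorem round_shape {n : ℕ} (m : ℕ) (σ : Fin n → ℝ) (h0 : ∀ j, 0 ≤ σ j) (hsum : ∑ j, σ j = m) :
    ∃ a : Fin n → ℕ, ∑ j, a j = m ∧ ∀ j, |σ j - a j| < 3 / 2 := by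
  have hfl : ∀ j, ((⌊σ j⌋₊ : ℕ) : ℝ) ≤ σ j := fun j => Nat.floor_le (h0 j)
  have hfl2 : ∀ j, σ j < (⌊σ j⌋₊ : ℕ) + 1 := fun j => Nat.lt_floor_add_one (σ j)
  have h1 : ∑ j, ⌊σ j⌋₊ ≤ m := by
    have : ((∑ j, ⌊σ j⌋₊ : ℕ) : ℝ) ≤ m := by
      rw [← hsum]
      push_cast
      exact Finset.sum_le_sum fun j _ => hfl j
    exact_mod_cast this
  have h2 : m - ∑ j, ⌊σ j⌋₊ ≤ (Finset.univ : Finset (Fin n)).card := by
    rw [Finset.card_univ, Fintype.card_fin]
    have : (m : ℝ) ≤ ((∑ j, ⌊σ j⌋₊ : ℕ) : ℝ) + n := by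
      rw [← hsum]
      push_cast
      calc ∑ j, σ j ≤ ∑ j : Fin n, (((⌊σ j⌋₊ : ℕ) : ℝ) + 1) := Finset.sum_le_sum fun j _ => (hfl2 j).le
        _ = ∑ j : Fin n, ((⌊σ j⌋₊ : ℕ) : ℝ) + n := by
            rw [Finset.sum_add_distrib, Finset.sum_const, Finset.card_univ, Fintype.card_fin, nsmul_eq_mul, mul_one]
    have h3 : m ≤ ∑ j, ⌊σ j⌋₊ + n := by exact_mod_cast this
    omega
  obtain ⟨S, -, hS⟩ := Finset.exists_subset_card_eq h2
  refine ⟨fun j => ⌊σ j⌋₊ + if j ∈ S then 1 else 0, ?_, fun j => ?_⟩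
  · rw [Finset.sum_add_distrib, Finset.sum_ite_mem, Finset.univ_inter, Finset.sum_const, hS, smul_eq_mul, mul_one]
    omega
  · have a1 := hfl j
    have a2 := hfl2 j
    by_cases h : j ∈ S
    · simp only [if_pos h]
      push_cast
      rw [abs_lt]
      constructor <;> linarith
    · simp only [if_neg h]
      push_cast
      rw [abs_lt]
      constructor <;> linarith

/-- the cut-off `ψ w = max 0 (3/2 - ‖w‖)` of `bu_select` -/
noncomputable def selPsi {n : ℕ} (w : Fin n → ℝ) : ℝ := max 0 (3 / 2 - ‖w‖)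

theorem selPsi_continuous {n : ℕ} : Continuous (selPsi (n := n)) :=
  continuous_const.max (continuous_const.sub continuous_norm)

theorem selPsi_pos {n : ℕ} {w : Fin n → ℝ} (h : ∀ j, |w j| < 3 / 2) : 0 < selPsi w := by
  have h1 : ‖w‖ < 3 / 2 := (pi_norm_lt_iff (by norm_num)).2 h
  exact lt_max_of_lt_right (by linarith)

theorem selPsi_zero {n : ℕ} {w : Fin n → ℝ} (j : Fin n) (h : 3 / 2 ≤ |w j|) : selPsi w = 0 := by
  have h1 : |w j| ≤ ‖w‖ := norm_le_pi_norm w j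
  exact max_eq_left (by linarith)

/-- one component of the odd map of `bu_select` -/
noncomputable def selComp (n : ℕ) {κ : Type*} (m : κ → ℕ) {N : ℕ} (σ : κ → (Fin (N + 1) → ℝ) → (Fin n → ℝ))
    (𝒜 : κ → Finset (Fin n → ℕ)) (T : ∀ k, (Fin n → ℕ) → Fin (2 ^ m k) → (Fin (N + 1) → ℝ) → ℝ)
    (x : Σ k : κ, (Fin n → Fin 3) × Fin (2 ^ m k)) (c : Fin (N + 1) → ℝ) : ℝ :=
  ∑ a ∈ (𝒜 x.1).filter (fun a => ∀ j, a j % 3 = (x.2.1 j : ℕ)),
    selPsi (σ x.1 c - fun j => (a j : ℝ)) * T x.1 a x.2.2 c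

/-- two naturals congruent mod 3 and different differ by at least 3 -/
theorem sel_mod_three {p q : ℕ} (h : p % 3 = q % 3) (hne : p ≠ q) : (3 : ℝ) ≤ |(p : ℝ) - q| := by
  have h1 : (3 : ℤ) ≤ |(p : ℤ) - q| := by
    have h2 : (p : ℤ) % 3 = (q : ℤ) % 3 := by exact_mod_cast h
    have h3 : (p : ℤ) ≠ q := by exact_mod_cast hne
    rcases le_total ((p : ℤ) - q) 0 with h4 | h4
    · rw [abs_of_nonpos h4]; omega
    · rw [abs_of_nonneg h4]; omega
  have h5 : ((3 : ℤ) : ℝ) ≤ ((|(p : ℤ) - q| : ℤ) : ℝ) := by exact_mod_cast h1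
  simpa using h5

/-- **LEAF L-MK-SEL: the selection lemma (the only topology of the proof).**
PLAN.  `ψ w = max 0 (3/2 - ‖w‖)` (continuous, `> 0 ↔ ∀ j, |w j| < 3/2` for `n ≥ 1`; for `n = 0` trivial).   Index type `J = Σ k, (Fin n → Fin 3) × Fin (2^(m k))`, `Fintype.card J = 3^n ∑ 2^(m k) ≤ N`; fix an embedding `e : J ↪ Fin N`.
`Φ c i = ∑ over (k,χ,l) with e (k,χ,l) = i` (at most one) of `∑_{a ∈ 𝒜 k, ∀ j, a j % 3 = χ j} ψ (σ k c - a) * T k a l c`: continuous on the sphere, odd.   `R273.bu_borsuk_ulam N Φ` gives `c`.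
Given `k`, `a ∈ 𝒜 k` with `|σ k c j - a j| < 3/2`: in the component `(k, a mod 3, l)` every other `a' ≡ a mod 3`, `a' ≠ a`, differs from `a` by `≥ 3` in some coordinate, so `ψ (σ k c - a') = 0`; hence `ψ (σ k c - a) * T k a l c = 0`, `ψ > 0`. -/
theorem bu_select (n : ℕ) {κ : Type*} [Fintype κ] (m : κ → ℕ) (N : ℕ) (hN : 3 ^ n * ∑ k, 2 ^ m k ≤ N)
    (σ : κ → (Fin (N + 1) → ℝ) → (Fin n → ℝ)) (hσc : ∀ k, ContinuousOn (σ k) (sphere 0 1))
    (hσe : ∀ k, ∀ c ∈ sphere (0 : Fin (N + 1) → ℝ) 1, σ k (-c) = σ k c)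
    (𝒜 : κ → Finset (Fin n → ℕ))
    (T : ∀ k, (Fin n → ℕ) → Fin (2 ^ m k) → (Fin (N + 1) → ℝ) → ℝ)
    (hTc : ∀ k a l, ContinuousOn (T k a l) (sphere 0 1))
    (hTo : ∀ k a l, ∀ c ∈ sphere (0 : Fin (N + 1) → ℝ) 1, T k a l (-c) = - T k a l c) :
    ∃ c ∈ sphere (0 : Fin (N + 1) → ℝ) 1, ∀ k, ∀ a ∈ 𝒜 k, (∀ j, |σ k c j - a j| < 3 / 2) → ∀ l, T k a l c = 0 := by
  classical
  have hcard : Fintype.card (Σ k : κ, (Fin n → Fin 3) × Fin (2 ^ m k)) ≤ Fintype.card (Fin N) := by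
    rw [Fintype.card_sigma, Fintype.card_fin]
    simp only [Fintype.card_prod, Fintype.card_pi, Fintype.card_fin, Finset.prod_const, Finset.card_univ]
    rw [← Finset.mul_sum]
    exact hN
  obtain ⟨e⟩ := Function.Embedding.nonempty_of_card_le hcard
  have hΨc : ∀ x, ContinuousOn (selComp n m σ 𝒜 T x) (sphere 0 1) := by
    intro x
    refine continuousOn_finsetSum _ fun a _ => ?_
    refine ContinuousOn.mul ?_ (hTc _ _ _)
    exact selPsi_continuous.comp_continuousOn ((hσc _).sub continuousOn_const)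
  have hΨo : ∀ x, ∀ c ∈ sphere (0 : Fin (N + 1) → ℝ) 1,
      selComp n m σ 𝒜 T x (-c) = - selComp n m σ 𝒜 T x c := by
    intro x c hc
    unfold selComp
    rw [← Finset.sum_neg_distrib]
    refine Finset.sum_congr rfl fun a _ => ?_
    rw [hσe _ c hc, hTo _ _ _ c hc, mul_neg]
  obtain ⟨c, hc, h0⟩ := R273.bu_borsuk_ulam N
    (fun c => Function.extend e (fun x => selComp n m σ 𝒜 T x c) 0) (by
      refine continuousOn_pi.2 fun i => ?_
      by_cases hi : ∃ x, e x = i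
      · obtain ⟨x, rfl⟩ := hi
        simp only [e.injective.extend_apply]
        exact hΨc x
      · simp only [Function.extend_apply' _ _ _ hi]
        exact continuousOn_const) (by
      intro c hc
      funext i
      by_cases hi : ∃ x, e x = i
      · obtain ⟨x, rfl⟩ := hi
        simp only [e.injective.extend_apply, Pi.neg_apply]
        exact hΨo x c hc
      · simp only [Function.extend_apply' _ _ _ hi, Pi.neg_apply, Pi.zero_apply, neg_zero])
  refine ⟨c, hc, fun k a ha hσ l => ?_⟩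
  have h1 : selComp n m σ 𝒜 T ⟨k, (fun j => ⟨a j % 3, Nat.mod_lt _ (by norm_num)⟩, l)⟩ c = 0 := by
    have h2 := congrFun h0 (e ⟨k, (fun j => ⟨a j % 3, Nat.mod_lt _ (by norm_num)⟩, l)⟩)
    simpa only [e.injective.extend_apply, Pi.zero_apply] using h2
  unfold selComp at h1
  rw [Finset.sum_eq_single a] at h1
  · rcases mul_eq_zero.1 h1 with h3 | h3
    · exact absurd h3 (selPsi_pos (by simpa using hσ)).ne'
    · exact h3
  · intro a' ha' hne
    rw [Finset.mem_filter] at ha'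
    obtain ⟨j, hj⟩ : ∃ j, a' j ≠ a j := by
      by_contra hcon
      push Not at hcon
      exact hne (funext hcon)
    have h4 := sel_mod_three (ha'.2 j) hj
    rw [selPsi_zero j, zero_mul]
    have h5 := hσ j
    show 3 / 2 ≤ |σ k c j - (a' j : ℝ)|
    have h6 : |(a' j : ℝ) - a j| ≤ |σ k c j - (a' j : ℝ)| + |σ k c j - a j| := by
      have e1 : (a' j : ℝ) - a j = -(σ k c j - (a' j : ℝ)) + (σ k c j - a j) := by ring
      rw [e1]
      exact (abs_add_le _ _).trans (by rw [abs_neg])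
    linarith
  · intro hna
    exact absurd (Finset.mem_filter.2 ⟨ha, fun j => rfl⟩) hna

/-- **LEAF L-MK-FAM.**  `V = (Fin n → Fin (D+1)) → ℝ`, `finrank = (D+1)^n` (`Module.finrank_fintype_fun_eq_card`, `Fintype.card_fun`/`card_pi`); `R273.bu_exists_inj N` gives an injective `ι`;
`F c = fun x => MvPolynomial.eval x (R273.buPolyL n D (ι c))` as a linear map (`LinearMap.pi fun x => (MvPolynomial.aeval x).toLinearMap ∘ₗ ..` or `IsLinearMap.mk'`); `tame_of_poly`, `R273.buPolyL_ne_zero`, `R273.buPolyL_totalDegree`. -/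
theorem poly_family (n D N : ℕ) (hN : N < (D + 1) ^ n) :
    ∃ F : (Fin (N + 1) → ℝ) →ₗ[ℝ] ((Fin n → ℝ) → ℝ), ∀ c, c ≠ 0 → Tame n (n * D) (F c) := by
  have hfr : Module.finrank ℝ ((Fin n → Fin (D + 1)) → ℝ) = (D + 1) ^ n := by
    rw [Module.finrank_fintype_fun_eq_card]
    simp
  obtain ⟨ι, hι⟩ := R273.bu_exists_inj (V := (Fin n → Fin (D + 1)) → ℝ) N (by rw [hfr]; exact hN)
  refine ⟨LinearMap.pi fun x => (MvPolynomial.aeval x : MvPolynomial (Fin n) ℝ →ₐ[ℝ] ℝ).toLinearMap ∘ₗ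
    (R273.buPolyL n D ∘ₗ ι), ?_⟩
  intro c hc
  have h1 : ι c ≠ 0 := fun h => hc (hι (by rw [h, map_zero]))
  have h2 := tame_of_poly (R273.buPolyL n D (ι c)) (R273.buPolyL_ne_zero n D h1) (R273.buPolyL_totalDegree n D _)
  have e : (LinearMap.pi fun x => (MvPolynomial.aeval x : MvPolynomial (Fin n) ℝ →ₐ[ℝ] ℝ).toLinearMap ∘ₗ
      (R273.buPolyL n D ∘ₗ ι)) c = fun x => MvPolynomial.eval x (R273.buPolyL n D (ι c)) := by
    funext x
    simp only [LinearMap.pi_apply, LinearMap.comp_apply, AlgHom.toLinearMap_apply]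
    rw [MvPolynomial.aeval_eq_eval]
  rw [e]
  exact h2

end Claimed.Agent.MK
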