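import Claimed.Agent.Lib.MK.Local
import Claimed.Agent.Lib.MK.Sel

/-!
# Lib/MK, file 8: the polynomial with large averaged visibility (unit U10)            (architect helper13)            CONTRACT
PAPER-FREE.  Every `sorry` is a leaf `L-MK-*`.  Statements are frozen; auxiliary lemmas directly above your theorem; edit only your block.
-/

set_option autoImplicit false
open MeasureTheory Set Metric
open scoped ENNReal BigOperators

namespace Claimed.Agent.MK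

/-- the constant of `vis` -/
noncomputable def cvis (n : ℕ) : ℝ := ((2 * (4 * (16 / 3 : ℝ) ^ n) * n) ^ n)⁻¹

/-- the shape vector: `σ_j = log₂ (W_j + 1) - (1/n) ∑_i log₂ (W_i + 1) + m/n` -/
noncomputable def shape {n : ℕ} (m : ℕ) (W : Fin n → ℝ) : Fin n → ℝ :=
  fun j => Real.logb 2 (W j + 1) - (∑ i, Real.logb 2 (W i + 1)) / n + m / n

/-- **LEAF L-MK-SHAPE.**  Pure real analysis.  `τ := 2^((∑ logb 2 (W i + 1) - m)/n)`; `2^(-σ_j) = τ/(W_j+1)`, `τ^n 2^m = ∏ (W_j + 1)`.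
(1) `∑ σ = m`.  (2) if some `σ_j < 0` then `τ > W_j + 1 ≥ 1`, so `2^m ≤ ∏ (W_j+1)`.  (3) if `|σ_j - a_j| < 3/2` for all `j` and `1/2 ≤ Q ∑_j (1/4) 2^(-a_j) W_j` then (`2^(-a_j) ≤ 2^(3/2) 2^(-σ_j)`, `2^(3/2) ≤ 4`) `1/2 ≤ Q n τ`, so `τ ≥ 1/(2 Q n)`
and `∏ (W_j+1) ≥ (2 Q n)^(-n) 2^m`. -/
theorem shape_facts {n : ℕ} (hn : 1 ≤ n) (m : ℕ) (W : Fin n → ℝ) (hW : ∀ j, 0 ≤ W j) :
    (∑ j, shape m W j = m) ∧ ((∃ j, shape m W j < 0) → (2 : ℝ) ^ m ≤ ∏ j, (W j + 1)) ∧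
      ∀ (a : Fin n → ℕ) (Q : ℝ), 0 < Q → (∀ j, |shape m W j - a j| < 3 / 2) →
        1 / 2 ≤ Q * ∑ j, 1 / 4 * (1 / 2 ^ a j) * W j → ((2 * Q * n) ^ n)⁻¹ * 2 ^ m ≤ ∏ j, (W j + 1) := by
  have hn0 : (0 : ℝ) < n := by exact_mod_cast hn
  have hnn : n ≠ 0 := by omega
  have h2 : (0 : ℝ) < 2 := by norm_num
  have h21 : (1 : ℝ) < 2 := by norm_num
  have hW1 : ∀ j, 0 < W j + 1 := fun j => by have := hW j; linarith
  set A : ℝ := ∑ i, Real.logb 2 (W i + 1) with hA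
  have hL : ∀ j, (2 : ℝ) ^ Real.logb 2 (W j + 1) = W j + 1 := fun j =>
    Real.rpow_logb h2 (by norm_num) (hW1 j)
  have hL0 : ∀ j, 0 ≤ Real.logb 2 (W j + 1) := fun j =>
    Real.logb_nonneg h21 (by have := hW j; linarith)
  have hprod : ∏ j, (W j + 1) = (2 : ℝ) ^ A := by
    rw [hA, Real.rpow_sum_of_pos h2]
    exact Finset.prod_congr rfl fun j _ => (hL j).symm
  have hσ : ∀ j, shape m W j = Real.logb 2 (W j + 1) - (A - m) / n := fun j => by
    unfold shape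
    rw [← hA]
    ring
  refine ⟨?_, ?_, ?_⟩
  · simp only [hσ]
    rw [Finset.sum_sub_distrib, Finset.sum_const, Finset.card_univ, Fintype.card_fin, nsmul_eq_mul, ← hA]
    field_simp
    ring
  · rintro ⟨j, hj⟩
    rw [hσ] at hj
    have h3 : 0 < (A - m) / n := by have := hL0 j; linarith
    have h4 : 0 < A - m := by
      rcases (div_pos_iff.1 h3) with h | h
      · exact h.1
      · linarith [h.2]
    rw [hprod, ← Real.rpow_natCast]
    exact Real.rpow_le_rpow_of_exponent_le h21.le (by linarith)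
  · intro a Q hQ ha hsum
    set τ : ℝ := (2 : ℝ) ^ ((A - m) / n) with hτ
    have hτ0 : 0 < τ := Real.rpow_pos_of_pos h2 _
    have hτn : τ ^ n * 2 ^ m = ∏ j, (W j + 1) := by
      rw [hprod, hτ, ← Real.rpow_natCast, ← Real.rpow_mul h2.le, ← Real.rpow_natCast 2 m, ← Real.rpow_add h2]
      congr 1
      field_simp
      ring
    have hterm : ∀ j, 1 / 4 * (1 / 2 ^ a j) * W j ≤ τ := by
      intro j
      have h5 : shape m W j - 3 / 2 < a j := by
        have := (abs_lt.1 (ha j)).2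
        linarith
      have h6 : (1 : ℝ) / 2 ^ a j ≤ 4 * (τ / (W j + 1)) := by
        have e1 : (1 : ℝ) / 2 ^ a j = (2 : ℝ) ^ (-(a j : ℝ)) := by
          rw [Real.rpow_neg h2.le, Real.rpow_natCast, one_div]
        have e2 : (2 : ℝ) ^ (2 - shape m W j) = 4 * (τ / (W j + 1)) := by
          rw [hσ, show (2 : ℝ) - (Real.logb 2 (W j + 1) - (A - m) / n) = 2 + ((A - m) / n - Real.logb 2 (W j + 1)) by ring,
            Real.rpow_add h2, Real.rpow_sub h2, hL, ← hτ]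
          norm_num
        rw [e1, ← e2]
        exact Real.rpow_le_rpow_of_exponent_le h21.le (by linarith)
      have h7 : W j / (W j + 1) ≤ 1 := by
        rw [div_le_one (hW1 j)]
        linarith
      calc 1 / 4 * (1 / 2 ^ a j) * W j ≤ 1 / 4 * (4 * (τ / (W j + 1))) * W j := by
            have := hW j
            gcongr
        _ = τ * (W j / (W j + 1)) := by ring
        _ ≤ τ * 1 := mul_le_mul_of_nonneg_left h7 hτ0.le
        _ = τ := mul_one _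
    have hs2 : ∑ j, 1 / 4 * (1 / 2 ^ a j) * W j ≤ n * τ := by
      calc ∑ j, 1 / 4 * (1 / 2 ^ a j) * W j ≤ ∑ _j : Fin n, τ := Finset.sum_le_sum fun j _ => hterm j
        _ = n * τ := by rw [Finset.sum_const, Finset.card_univ, Fintype.card_fin, nsmul_eq_mul]
    have h8 : 1 / 2 ≤ Q * (n * τ) := hsum.trans (mul_le_mul_of_nonneg_left hs2 hQ.le)
    have hD : 0 < 2 * Q * n := by positivity
    have h9 : (2 * Q * n)⁻¹ ≤ τ := by
      rw [inv_le_iff_one_le_mul₀ hD]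
      nlinarith
    rw [← hτn, ← inv_pow]
    exact mul_le_mul_of_nonneg_right (pow_le_pow_left₀ (by positivity) h9 n) (by positivity)

theorem vis_cvis_le_one (n : ℕ) (hn : 1 ≤ n) : cvis n ≤ 1 := by
  unfold cvis
  apply inv_le_one_of_one_le₀
  apply one_le_pow₀
  have h1 : (1:ℝ) ≤ (16/3:ℝ)^n := one_le_pow₀ (by norm_num)
  have h2 : (1:ℝ) ≤ n := by exact_mod_cast hn
  nlinarith

theorem vis_Wf_nonneg {n : ℕ} {α : Type*} (f : (Fin n → ℝ) → ℝ) (z : Fin n → ℝ) (s : ℝ) (hs : 0 < s) (I : Finset α)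
    (μ : α → ℝ) (v : α → Fin n → ℝ) (hμ0 : ∀ i ∈ I, 0 ≤ μ i) : 0 ≤ Wf f z s I μ v := by
  unfold Wf
  apply Finset.sum_nonneg
  intro i hi
  exact mul_nonneg (hμ0 i hi) (div_nonneg ENNReal.toReal_nonneg hs.le)

theorem vis_cont_Wf {N n D : ℕ} (F : (Fin N → ℝ) →ₗ[ℝ] ((Fin n → ℝ) → ℝ)) (hF : ∀ c, c ≠ 0 → Tame n D (F c))
    {α : Type*} (z : Fin n → ℝ) (s : ℝ) (I : Finset α) (μ : α → ℝ) (v : α → Fin n → ℝ) :
    ContinuousOn (fun c => Wf (F c) z s I μ v) {c | c ≠ 0} := by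
  unfold Wf
  apply continuousOn_finsetSum
  intro i _
  apply ContinuousOn.mul continuousOn_const
  apply ContinuousOn.div_const
  exact cont_om F hF _ measurableSet_closedBall (measure_closedBall_lt_top).ne _

theorem vis_Wf_neg {N n : ℕ} (F : (Fin N → ℝ) →ₗ[ℝ] ((Fin n → ℝ) → ℝ)) {α : Type*} (z : Fin n → ℝ) (s : ℝ)
    (I : Finset α) (μ : α → ℝ) (v : α → Fin n → ℝ) (c : Fin N → ℝ) :
    Wf (F (-c)) z s I μ v = Wf (F c) z s I μ v := by
  unfold Wf
  have h : F (-c) = fun x => - F c x := by rw [map_neg]; rfl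
  simp only [h, om_neg_fun]

theorem vis_cont_shape {X : Type*} [TopologicalSpace X] {n : ℕ} (m : ℕ) (W : X → Fin n → ℝ) (S : Set X)
    (hW : ∀ j, ContinuousOn (fun c => W c j) S) (h0 : ∀ c ∈ S, ∀ j, 0 ≤ W c j) :
    ContinuousOn (fun c => shape m (W c)) S := by
  have hl : ∀ j, ContinuousOn (fun c => Real.logb 2 (W c j + 1)) S := by
    intro j
    unfold Real.logb
    apply ContinuousOn.div_const
    apply ContinuousOn.log ((hW j).add continuousOn_const)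
    intro c hc
    have := h0 c hc j
    show W c j + 1 ≠ 0
    exact ne_of_gt (by linarith)
  apply continuousOn_pi.2
  intro j
  unfold shape
  exact ((hl j).sub ((continuousOn_finsetSum _ fun i _ => hl i).div_const _)).add continuousOn_const

/-- the test functionals of `vis` -/
noncomputable def visT {N n : ℕ} (F : (Fin N → ℝ) →ₗ[ℝ] ((Fin n → ℝ) → ℝ)) (x0 : Fin n → ℝ)
    (B : (Fin n → ℝ) →ₗ[ℝ] (Fin n → ℝ)) (M : ℕ) (a : Fin n → ℕ) (l : Fin M) (c : Fin N → ℝ) : ℝ :=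
  if h : (l : ℕ) < ∏ j, 2 ^ a j then
    ∫ y in dbox a (finPiFinEquiv.symm ⟨l, h⟩), Real.sign (F c (x0 + B y)) else 0

theorem vis_cont_T {N n D : ℕ} (F : (Fin N → ℝ) →ₗ[ℝ] ((Fin n → ℝ) → ℝ)) (hF : ∀ c, c ≠ 0 → Tame n D (F c))
    (x0 : Fin n → ℝ) (B : (Fin n → ℝ) →ₗ[ℝ] (Fin n → ℝ)) (hB : LinearMap.det B ≠ 0) (M : ℕ) (a : Fin n → ℕ)
    (l : Fin M) : ContinuousOn (visT F x0 B M a l) {c | c ≠ 0} := by
  by_cases h : (l:ℕ) < ∏ j, 2 ^ a j
  · have h1 := cont_signInt ((LinearMap.funLeft ℝ ℝ (fun y => x0 + B y)).comp F) (D := D)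
      (fun c hc => (hF c hc).comp_affine x0 B hB) (dbox a (finPiFinEquiv.symm ⟨l, h⟩)) (measurableSet_box _ _)
      (by
        unfold dbox
        rw [volume_box]
        exact ENNReal.prod_ne_top fun _ _ => ENNReal.ofReal_ne_top)
    refine h1.congr ?_
    intro c _
    simp only [visT, dif_pos h]
    rfl
  · have : visT F x0 B M a l = fun _ => 0 := by
      funext c
      simp only [visT, dif_neg h]
    rw [this]
    exact continuousOn_const

theorem vis_T_neg {N n : ℕ} (F : (Fin N → ℝ) →ₗ[ℝ] ((Fin n → ℝ) → ℝ))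
    (x0 : Fin n → ℝ) (B : (Fin n → ℝ) →ₗ[ℝ] (Fin n → ℝ)) (M : ℕ) (a : Fin n → ℕ)
    (l : Fin M) (c : Fin N → ℝ) : visT F x0 B M a l (-c) = - visT F x0 B M a l c := by
  by_cases h : (l:ℕ) < ∏ j, 2 ^ a j
  · simp only [visT, dif_pos h, map_neg, Pi.neg_apply, Real.sign_neg, integral_neg]
  · simp only [visT, dif_neg h, neg_zero]

/-- **LEAF L-MK-VIS: the polynomial.**
PLAN.  `N = 3^n ∑ 2^(m k)`, `F` from `poly_family n D N hD`.   `W k c j = Wf (F c) (z k) s (I k j) (μ k j) v` (continuous on the sphere by `cont_om`, even by `om_neg_fun` + `map_neg`), `σ k c = shape (m k) (W k c)` (`Real.continuousOn_logb`/`Real.continuousAt_log`, `W + 1 > 0`).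
`𝒜 k` = all `a : Fin n → ℕ` with `∑ a = m k` (as a finset: `(Fintype.piFinset fun _ => Finset.range (m k + 1)).filter ..`).
`T k a l c = if h : (l : ℕ) < ∏ j, 2^(a j) then ∫ y in dbox a (finPiFinEquiv.symm ⟨l, h⟩), sign (F c (x0 k + B k y)) else 0`: continuous by `cont_signInt` applied to the linear family `c ↦ (F c) ∘ aff` (`Tame.comp_affine`), odd (`Real.sign_neg`, `integral_neg`).
`bu_select` gives `c ≠ 0`; `f = F c`.   Fix `k`.   If some `σ_j < 0`: `shape_facts.2.1`, `cvis n ≤ 1`.   Otherwise `round_shape` gives `a ∈ 𝒜 k`; every `b` is `finPiFinEquiv.symm ⟨l, _⟩` with `l < ∏ 2^(a j) = 2^(m k)` (`Finset.prod_pow_eq_pow_sum`): all boxes are bisected;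
`local_claim` + `hsmall` give `1/2 ≤ 4 (16/3)^n ∑ (1/4) 2^(-a_j) W_j`; `shape_facts.2.2` with `Q = 4 (16/3)^n`: `cvis n = ((2 Q n)^n)⁻¹`. -/
theorem vis {n : ℕ} (hn : 2 ≤ n) {α κ : Type*} [Fintype κ] (z : κ → Fin n → ℝ) (I : κ → Fin n → Finset α)
    (μ : κ → Fin n → α → ℝ) (v : α → Fin n → ℝ) (hμ0 : ∀ k j, ∀ i ∈ I k j, 0 ≤ μ k j i)
    (hμ1 : ∀ k j, ∑ i ∈ I k j, μ k j i = 1)
    (hv : ∀ k j, ∀ i ∈ I k j, v i j = 1 ∧ ∀ l, l ≠ j → |v i l| ≤ 1 / (4 * n)) (m : κ → ℕ) (D : ℕ)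
    (hD : 3 ^ n * ∑ k, 2 ^ m k < (D + 1) ^ n) (s : ℝ) (hs : 0 < s) (hs1 : s ≤ 1)
    (hsmall : ∀ k, 4 * (16 / 3 : ℝ) ^ n * ∑ j, ((I k j).card * (((n * D : ℕ) : ℝ) * s * 12 ^ (n - 1))) ≤ 1 / 2) :
    ∃ f : (Fin n → ℝ) → ℝ, Tame n (n * D) f ∧
      ∀ k, cvis n * 2 ^ m k ≤ ∏ j, (Wf f (z k) s (I k j) (μ k j) v + 1) := by
  classical
  have hn1 : 1 ≤ n := by omega
  obtain ⟨N, hN⟩ : ∃ N, N = 3 ^ n * ∑ k, 2 ^ m k := ⟨_, rfl⟩
  rw [← hN] at hD
  obtain ⟨F, hF⟩ := poly_family n D N hD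
  have hu : ∀ k j, vbar (I k j) (μ k j) v j = 1 ∧ ∀ l, l ≠ j → |vbar (I k j) (μ k j) v l| ≤ 1 / (4 * n) :=
    fun k j => vbar_dir j (I k j) (μ k j) v _ (hμ0 k j) (hμ1 k j) (hv k j)
  have hB : ∀ k, LinearMap.det (frameMap (fun j => vbar (I k j) (μ k j) v)) ≠ 0 := by
    intro k
    have h1 := det_lower (frameMap (fun j => vbar (I k j) (μ k j) v)) (3/16) (by norm_num)
      (fun y => (frameMap_bounds _ (hu k) y).1)
    intro h0
    rw [h0, abs_zero] at h1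
    have : (0:ℝ) < (3/16)^n := by positivity
    linarith
  have hW0 : ∀ k (c : Fin (N + 1) → ℝ) j, 0 ≤ Wf (F c) (z k) s (I k j) (μ k j) v :=
    fun k c j => vis_Wf_nonneg _ _ _ hs _ _ _ (hμ0 k j)
  have hsub : sphere (0 : Fin (N+1) → ℝ) 1 ⊆ {c | c ≠ 0} := by
    intro c hc h0
    rw [h0] at hc
    simp at hc
  obtain ⟨c, hc, hsel⟩ := bu_select n m N hN.ge
    (fun k c => shape (m k) (fun j => Wf (F c) (z k) s (I k j) (μ k j) v))
    (fun k => (vis_cont_shape (m k) (fun c j => Wf (F c) (z k) s (I k j) (μ k j) v) _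
      (fun j => vis_cont_Wf F hF _ _ _ _ _) (fun c _ j => hW0 k c j)).mono hsub)
    (fun k c _ => by simp only [vis_Wf_neg])
    (fun k => (Fintype.piFinset fun _ => Finset.range (m k + 1)).filter fun a => ∑ j, a j = m k)
    (fun k a l => visT F (z k - fun _ => 1 / 4) (frameMap (fun j => vbar (I k j) (μ k j) v)) _ a l)
    (fun k a l => (vis_cont_T F hF _ _ (hB k) _ a l).mono hsub)
    (fun k a l c _ => vis_T_neg F _ _ _ a l c)
  have hc0 : c ≠ 0 := hsub hc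
  refine ⟨F c, hF c hc0, fun k => ?_⟩
  obtain ⟨hs1', hs2, hs3⟩ := shape_facts hn1 (m k) (fun j => Wf (F c) (z k) s (I k j) (μ k j) v) (hW0 k c)
  by_cases hneg : ∃ j, shape (m k) (fun j => Wf (F c) (z k) s (I k j) (μ k j) v) j < 0
  · have h1 := hs2 hneg
    have h2 := vis_cvis_le_one n hn1
    have h3 : (0:ℝ) < 2 ^ m k := by positivity
    nlinarith
  · push Not at hneg
    obtain ⟨a, ha, hclose⟩ := round_shape (m k) _ hneg hs1'
    have haA : a ∈ (Fintype.piFinset fun _ => Finset.range (m k + 1)).filter fun a : Fin n → ℕ => ∑ j, a j = m k := by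
      rw [Finset.mem_filter, Fintype.mem_piFinset]
      refine ⟨fun j => ?_, ha⟩
      rw [Finset.mem_range]
      have := Finset.single_le_sum (f := a) (fun i _ => Nat.zero_le _) (Finset.mem_univ j)
      omega
    have hT := hsel k a haA hclose
    have hprod : ∏ j, 2 ^ a j = 2 ^ m k := by rw [Finset.prod_pow_eq_pow_sum, ha]
    have hbis : ∀ b, ∫ y in dbox a b,
        Real.sign (F c ((z k - fun _ => 1 / 4) + frameMap (fun j => vbar (I k j) (μ k j) v) y)) = 0 := by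
      intro b
      have hl : ((finPiFinEquiv b : Fin (∏ j, 2 ^ a j)) : ℕ) < 2 ^ m k := by
        rw [← hprod]; exact (finPiFinEquiv b).2
      have h1 := hT ⟨_, hl⟩
      have hl' : ((finPiFinEquiv b : Fin (∏ j, 2 ^ a j)) : ℕ) < ∏ j, 2 ^ a j := (finPiFinEquiv b).2
      simp only [visT, dif_pos hl'] at h1
      simpa using h1
    have hloc := local_claim (hF c hc0) (z k) (I k) (μ k) v (hμ0 k) (hμ1 k) (hv k) s hs hs1 a hbis
    have hsm := hsmall k
    have hQ : (0:ℝ) < 4 * (16 / 3 : ℝ) ^ n := by positivity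
    have h2 : 1 / 2 ≤ 4 * (16 / 3 : ℝ) ^ n * ∑ j, 1 / 4 * (1 / 2 ^ a j) * Wf (F c) (z k) s (I k j) (μ k j) v := by
      rw [Finset.sum_add_distrib, mul_add] at hloc
      linarith
    have h3 := hs3 a _ hQ hclose h2
    exact h3

end Claimed.Agent.MK
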